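import Vale.Agent.P092.H103.PicI
import Vale.Agent.P092.SD.Blocks

/-!
P092 (helper103), Team D: (TV) of `SD/Blocks` for the concrete picture, both legs.
-/

set_option linter.all false

open scoped InnerProductSpace ENNReal
open MeasureTheory Filter Topology ContinuousLinearMap

namespace Vale.Agent.P092.H103

open Vale.Agent.P092.H160 Vale.Agent.P092.SR Vale.Agent.P092.H839 Vale.Agent.P092.H85
  Vale.Agent.P092.H790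
open Vale.Agent.P092.RC (Cm TRN KK pic con lam₁ lam₂ XX Om pic_eq lam₁_eq lam₂_eq)

section fibre

variable {Γ Λ : Type} [Group Γ] [Group Λ] {α : Γ →* (Ell2 Λ →L[ℂ] Ell2 Λ)} (hα : Frame α)

include hα

theorem cmm_VV (v : Γ) : Cmm (RR α) (VV α v) := by
  rintro ⟨g, h⟩
  rw [RR_eq, ← mul_assoc, comm_VV₁ hα, mul_assoc, comm_VV₂ hα, mul_assoc]

theorem trace_VV {A : Ell2 (Λ × Λ) →L[ℂ] Ell2 (Λ × Λ)} (hA : Cmm (RR α) A) (v : Γ) :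
    ⟪VV α v (dl 1), A (VV α v (dl 1))⟫_ℂ = ⟪(dl 1 : Ell2 (Λ × Λ)), A (dl 1)⟫_ℂ := by
  have h1 : ⟪VV α v (dl 1), A (VV α v (dl 1))⟫_ℂ =
      ⟪(dl 1 : Ell2 (Λ × Λ)), VV α v⁻¹ ((A * VV α v) (dl 1))⟫_ℂ := by
    rw [← adj_VV hα, adjoint_inner_right]; rfl
  rw [h1, (regRep_RR hα).trace_comm (cmm_VV hα v⁻¹) (hA.mul (cmm_VV hα v))]
  have h2 : (A * VV α v) (VV α v⁻¹ (dl 1)) = A (dl 1) := by
    change A (VV α v (VV α v⁻¹ (dl 1))) = _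
    have h3 : VV α v (VV α v⁻¹ (dl 1)) = (dl 1 : Ell2 (Λ × Λ)) := by
      have h4 : (VV α v * VV α v⁻¹) (dl 1) = (dl 1 : Ell2 (Λ × Λ)) := by
        rw [← map_mul, mul_inv_cancel, map_one]; rfl
      exact h4
    rw [h3]
  rw [h2]

end fibre

section pic

variable {E : Type} [Group E] [TopologicalSpace E] [IsTopologicalGroup E] [LocallyCompactSpace E]
  [SecondCountableTopology E] [T2Space E] [MeasurableSpace E] [BorelSpace E]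
  {Γ : Subgroup E} [DiscreteTopology Γ] [MeasurableSpace (E ⧸ Γ)] [BorelSpace (E ⧸ Γ)]
  {ν : Measure (E ⧸ Γ)} [IsProbabilityMeasure ν] [Countable Γ]
  (hν : ∀ g : E, ν.map (fun x => g • x) = ν)
  {Λ : Type} [Group Λ] {α : Γ →* (Ell2 Λ →L[ℂ] Ell2 Λ)} (hα : Frame α)

theorem tv_gen {Y : KK ν Λ →L[ℂ] KK ν Λ}
    (hY : ∀ A, MeasurableSet A → Y * H790.ind ν _ A = H790.ind ν _ A * Y)
    (hY1 : ∀ g, Y * lam₁ ν α g = lam₁ ν α g * Y) (hY2 : ∀ g, Y * lam₂ ν α g = lam₂ ν α g * Y)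
    (h : E) :
    ⟪pic hν hα h (Om ν Λ), Y (pic hν hα h (Om ν Λ))⟫_ℂ = ⟪Om ν Λ, Y (Om ν Λ)⟫_ℂ := by
  obtain ⟨A, hA, hAc⟩ := exists_fld_mm hα hY hY1 hY2
  rw [L2.inner_def, L2.inner_def]
  refine integral_congr_ae ?_
  filter_upwards [hA (pic hν hα h (Om ν Λ)), hA (Om ν Λ), hAc,
    iro_ae hν (adj_VV hα) h (cst ν (dl 1)),
    ae_comp (mpres hν h⁻¹) (cst_ae (ν := ν) (dl 1 : Ell2 (Λ × Λ))),
    cst_ae (ν := ν) (dl 1 : Ell2 (Λ × Λ))] with x a1 a2 a3 a4 a5 a6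
  have e1 : (pic hν hα h (Om ν Λ) : KK ν Λ) x = VV α (coc Γ h (h⁻¹ • x)) (dl 1) :=
    a4.trans (congrArg _ a5)
  have e2 : (Om ν Λ : KK ν Λ) x = dl 1 := a6
  rw [a1, a2, e1, e2]
  exact trace_VV hα a3 _

end pic

section tv

variable {k : Type} [NontriviallyNormedField k] [ProperSpace k]
  [LocallyCompactSpace (SD.G3 k)] [SecondCountableTopology (SD.G3 k)]
  [MeasurableSpace (SD.G3 k)] [BorelSpace (SD.G3 k)] {Γ : Subgroup (SD.G3 k)}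
  [DiscreteTopology Γ] [MeasurableSpace (SD.G3 k ⧸ Γ)] [BorelSpace (SD.G3 k ⧸ Γ)]
  {ν : Measure (SD.G3 k ⧸ Γ)} [IsProbabilityMeasure ν] [Countable Γ]
  (hν : ∀ g : SD.G3 k, ν.map (fun x => g • x) = ν)
  {Λ : Type} [Group Λ] {α : Γ →* (Ell2 Λ →L[ℂ] Ell2 Λ)} (hα : Frame α)

theorem tv₁ : SD.TV (pic hν hα) (lam₁ ν α) (XX ν Λ ∪ Set.range (lam₂ ν α)) (Om ν Λ) := by
  rintro Y ⟨hY, hY1⟩ h
  exact tv_gen hν hα (fun A hA => hY _ (Or.inl ⟨A, hA, rfl⟩)) hY1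
    (fun g => hY _ (Or.inr ⟨g, rfl⟩)) h

theorem tv₂ : SD.TV (pic hν hα) (lam₂ ν α) (XX ν Λ ∪ Set.range (lam₁ ν α)) (Om ν Λ) := by
  rintro Y ⟨hY, hY1⟩ h
  exact tv_gen hν hα (fun A hA => hY _ (Or.inl ⟨A, hA, rfl⟩))
    (fun g => hY _ (Or.inr ⟨g, rfl⟩)) hY1 h

end tv

end Vale.Agent.P092.H103
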