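import Vale.Agent.P092.H103.KG
import Vale.Agent.P092.H85.CD

/-!
Property (T) for lattices: continuity of the induced representation.
-/

set_option linter.all false

open scoped InnerProductSpace ENNReal
open Set Filter Topology MeasureTheory ContinuousLinearMap

namespace Vale.Agent.P092.H103

open Vale.Agent.P092.H790 Vale.Agent.P092.H85

section cont

variable {E : Type} [Group E] [TopologicalSpace E] [IsTopologicalGroup E] [LocallyCompactSpace E]
  [SecondCountableTopology E] [T2Space E] [MeasurableSpace E] [BorelSpace E]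
  (Λ : Subgroup E) [DiscreteTopology Λ] [MeasurableSpace (E ⧸ Λ)] [BorelSpace (E ⧸ Λ)]

theorem quo_regular (ν : Measure (E ⧸ Λ)) [IsProbabilityMeasure ν] :
    R1Space (E ⧸ Λ) ∧ ν.InnerRegularCompactLTTop := by
  haveI hcl : IsClosed (Λ : Set E) := Subgroup.isClosed_of_discrete
  haveI : T2Space (E ⧸ Λ) := inferInstance
  haveI : SecondCountableTopology (E ⧸ Λ) := inferInstance
  haveI : LocallyCompactSpace (E ⧸ Λ) := inferInstance
  haveI : SigmaCompactSpace (E ⧸ Λ) := inferInstance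
  haveI : T3Space (E ⧸ Λ) := inferInstance
  haveI : TopologicalSpace.MetrizableSpace (E ⧸ Λ) :=
    TopologicalSpace.metrizableSpace_of_t3_secondCountable _
  refine ⟨inferInstance, ?_⟩
  infer_instance

/-- the translation maps, as continuous maps -/
def trc (g : E) : C(E ⧸ Λ, E ⧸ Λ) := ⟨fun x => g • x, continuous_const_smul g⟩

theorem trc_tendsto : Tendsto (trc Λ) (𝓝 1) (𝓝 (ContinuousMap.id (E ⧸ Λ))) := by
  have h1 : Continuous fun g : E => trc Λ g := by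
    refine ContinuousMap.continuous_of_continuous_uncurry _ ?_
    exact continuous_smul
  have h2 := h1.tendsto 1
  have h3 : trc Λ 1 = ContinuousMap.id (E ⧸ Λ) := by
    ext x
    exact one_smul _ x
  rwa [h3] at h2

theorem meas_cont (ν : Measure (E ⧸ Λ)) [IsProbabilityMeasure ν]
    (hν : ∀ g : E, ν.map (fun x => g • x) = ν) {B : Set (E ⧸ Λ)} (hB : MeasurableSet B) :
    Tendsto (fun g : E => ν (B \ (fun x => g • x) ⁻¹' B)) (𝓝 1) (𝓝 0) := by
  obtain ⟨h1, h2⟩ := quo_regular Λ ν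
  have h3 := tendsto_measure_symmDiff_preimage_nhds_zero (μ := ν) (ν := ν) (s := B) (trc_tendsto Λ)
    (Eventually.of_forall fun g => ⟨smul_meas Λ g, hν g⟩) (MeasurePreserving.id ν)
    hB.nullMeasurableSet (measure_ne_top ν B)
  refine tendsto_of_tendsto_of_tendsto_of_le_of_le tendsto_const_nhds h3
    (fun g => zero_le) (fun g => measure_mono ?_)
  intro x hx
  exact Or.inr ⟨hx.1, hx.2⟩

theorem exists_W : ∃ W : Set E, IsOpen W ∧ (1 : E) ∈ W ∧
    ∀ u ∈ W, ∀ w ∈ W, ∀ v ∈ W, u⁻¹ * w * v ∈ Λ → u⁻¹ * w * v = 1 := by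
  obtain ⟨U, C, hU, h1, hC, hUC, hinj⟩ := exists_nbhd Λ
  obtain ⟨W, hW, h1W, hWU⟩ := exists_open_nhds_one_mul_subset (hU.mem_nhds h1)
  refine ⟨W, hW, h1W, fun u hu w hw v hv hm => ?_⟩
  have h2 : u ∈ U := hWU ⟨u, hu, 1, h1W, mul_one u⟩
  have h3 : w * v ∈ U := hWU ⟨w, hw, v, hv, rfl⟩
  have h4 := hinj u h2 (w * v) h3 (by rw [← mul_assoc]; exact hm)
  rw [mul_assoc, ← h4, inv_mul_cancel]

/-- the cocycle is trivial on large sets, near `1` -/
theorem coc_cont (ν : Measure (E ⧸ Λ)) [IsProbabilityMeasure ν]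
    (hν : ∀ g : E, ν.map (fun x => g • x) = ν) :
    Tendsto (fun g : E => ν {x | coc Λ g x ≠ 1}) (𝓝 1) (𝓝 0) := by
  obtain ⟨W, hW, h1W, hinj⟩ := exists_W Λ
  set e : ℕ → E := TopologicalSpace.denseSeq E with he
  set B : ℕ → Set (E ⧸ Λ) := fun i => {x | (e i)⁻¹ * sec Λ x ∈ W} with hB
  have hBm : ∀ i, MeasurableSet (B i) := fun i =>
    ((sec_meas Λ).const_mul (e i)⁻¹) hW.measurableSet
  have hBu : ⋃ i, B i = univ := by
    refine eq_univ_of_forall fun x => mem_iUnion.2 ?_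
    exact exists_dense_mem hW h1W (sec Λ x)
  set P : ℕ → Set (E ⧸ Λ) := fun n => ⋃ i ∈ Finset.range n, B i with hP
  have hPm : ∀ n, MeasurableSet (P n) := fun n => Finset.measurableSet_biUnion _ fun i _ => hBm i
  have hPmono : Monotone P := by
    intro a b hab
    exact biUnion_subset_biUnion_left (Finset.range_mono hab)
  have hPu : ⋃ n, P n = univ := by
    refine eq_univ_of_forall fun x => ?_
    obtain ⟨i, hi⟩ := mem_iUnion.1 (hBu ▸ mem_univ x : x ∈ ⋃ i, B i)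
    refine mem_iUnion.2 ⟨i + 1, ?_⟩
    exact mem_biUnion (Finset.mem_coe.2 (Finset.self_mem_range_succ i)) hi
  have hlim : Tendsto (fun n => ν (P n)ᶜ) atTop (𝓝 0) := by
    have h1 : Tendsto (fun n => ν (P n)) atTop (𝓝 1) := by
      have h2 := tendsto_measure_iUnion_atTop (μ := ν) hPmono
      rwa [hPu, measure_univ] at h2
    have h4 : ∀ n, ν (P n)ᶜ = 1 - ν (P n) := fun n => prob_compl_eq_one_sub (hPm n)
    simp_rw [h4]
    have h5 := ENNReal.Tendsto.sub (tendsto_const_nhds (x := (1 : ℝ≥0∞))) h1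
      (Or.inl ENNReal.one_ne_top)
    simpa using h5
  have hsub : ∀ (n : ℕ) (g : E), (∀ i < n, (e i)⁻¹ * g * e i ∈ W) →
      {x | coc Λ g x ≠ 1} ⊆ (P n)ᶜ ∪ ⋃ i ∈ Finset.range n, (B i \ (fun x => g • x) ⁻¹' B i) := by
    intro n g hg x hx
    by_contra hcon
    simp only [mem_union, mem_compl_iff, not_or, not_not] at hcon
    obtain ⟨hc1, hc2⟩ := hcon
    obtain ⟨i, hi, hxi⟩ := mem_iUnion₂.1 hc1
    have hgx : g • x ∈ B i := by
      by_contra hh
      exact hc2 (mem_iUnion₂.2 ⟨i, hi, hxi, hh⟩)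
    apply hx
    apply Subtype.ext
    have e1 : (coc Λ g x : E) =
        ((e i)⁻¹ * sec Λ (g • x))⁻¹ * ((e i)⁻¹ * g * e i) * ((e i)⁻¹ * sec Λ x) := by
      rw [coc_coe]; group
    have h2 := hinj _ hgx _ (hg i (Finset.mem_range.1 hi)) _ hxi (by
      rw [← e1]; exact (coc Λ g x).2)
    rw [e1, h2]
    rfl
  rw [ENNReal.tendsto_nhds_zero]
  intro ε hε
  have hε2 : 0 < ε / 2 := ENNReal.half_pos hε.ne'
  obtain ⟨n, hn⟩ := ((ENNReal.tendsto_nhds_zero.1 hlim) (ε / 2) hε2).exists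
  have hs : Tendsto (fun g : E => ∑ i ∈ Finset.range n, ν (B i \ (fun x => g • x) ⁻¹' B i))
      (𝓝 1) (𝓝 0) := by
    have := tendsto_finsetSum (Finset.range n) fun i _ => meas_cont Λ ν hν (hBm i)
    simpa using this
  have hc : ∀ᶠ g in 𝓝 (1 : E), ∀ i < n, (e i)⁻¹ * g * e i ∈ W := by
    have : ∀ i ∈ Finset.range n, ∀ᶠ g in 𝓝 (1 : E), (e i)⁻¹ * g * e i ∈ W := by
      intro i _
      have hcn : Continuous fun g : E => (e i)⁻¹ * g * e i := by fun_prop
      refine hcn.continuousAt.eventually_mem (hW.mem_nhds ?_)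
      simpa using h1W
    have h2 := (Finset.eventually_all (Finset.range n)).2 this
    filter_upwards [h2] with g hg i hi
    exact hg i (Finset.mem_range.2 hi)
  filter_upwards [hc, (ENNReal.tendsto_nhds_zero.1 hs) (ε / 2) hε2] with g hg1 hg2
  calc ν {x | coc Λ g x ≠ 1} ≤ ν ((P n)ᶜ ∪ ⋃ i ∈ Finset.range n, (B i \ (fun x => g • x) ⁻¹' B i)) :=
        measure_mono (hsub n g hg1)
    _ ≤ ν (P n)ᶜ + ν (⋃ i ∈ Finset.range n, (B i \ (fun x => g • x) ⁻¹' B i)) := measure_union_le _ _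
    _ ≤ ε / 2 + ε / 2 := add_le_add hn ((measure_biUnion_finset_le _ _).trans hg2)
    _ = ε := ENNReal.add_halves ε

end cont

section rep

variable {E : Type} [Group E] [TopologicalSpace E] [IsTopologicalGroup E] [LocallyCompactSpace E]
  [SecondCountableTopology E] [T2Space E] [MeasurableSpace E] [BorelSpace E]
  {Λ : Subgroup E} [DiscreteTopology Λ] [MeasurableSpace (E ⧸ Λ)] [BorelSpace (E ⧸ Λ)]
  {ν : Measure (E ⧸ Λ)} [IsProbabilityMeasure ν] (hν : ∀ g : E, ν.map (fun x => g • x) = ν)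
  {K : Type} [NormedAddCommGroup K] [InnerProductSpace ℂ K] [CompleteSpace K]
  {π : Λ →* (K →L[ℂ] K)} (hπ : ∀ g, adjoint (π g) = π g⁻¹)

theorem ind_small (ξ : Lp K 2 ν) {ε : ℝ} (hε : 0 < ε) : ∃ δ : ℝ, 0 < δ ∧
    ∀ S : Set (E ⧸ Λ), MeasurableSet S → ν S ≤ ENNReal.ofReal δ → ‖ind ν K S ξ‖ ≤ ε := by
  obtain ⟨δ, hδ, h⟩ := (Lp.memLp ξ).eLpNorm_indicator_le (by norm_num) (by norm_num) hε
  refine ⟨δ, hδ, fun S hS hνS => ?_⟩
  rw [Lp.norm_def, eLpNorm_congr_ae (ind_ae hS ξ)]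
  exact ENNReal.toReal_le_of_le_ofReal hε.le (h S hS hνS)

/-- the Koopman operator -/
noncomputable def kpo (K : Type) [NormedAddCommGroup K] [InnerProductSpace ℂ K] (g : E) :
    Lp K 2 ν →L[ℂ] Lp K 2 ν := kp (cdat ν hν) K g

theorem kpo_ae [Countable Λ] (g : E) (ξ : Lp K 2 ν) : ⇑(kpo hν K g ξ) =ᵐ[ν] fun x => ξ (g⁻¹ • x) :=
  kp_ae (cdat ν hν) g ξ

theorem kp_cont (ξ : Lp K 2 ν) :
    Tendsto (fun g : E => kpo hν K g ξ) (𝓝 1) (𝓝 ξ) := by
  obtain ⟨h1, h2⟩ := quo_regular Λ ν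
  have h3 : Tendsto (fun g : E => trc Λ g⁻¹) (𝓝 1) (𝓝 (ContinuousMap.id (E ⧸ Λ))) := by
    have h4 : Tendsto (fun g : E => g⁻¹) (𝓝 1) (𝓝 1) := by
      have := (continuous_inv (G := E)).tendsto 1
      rwa [inv_one] at this
    exact (trc_tendsto Λ).comp h4
  have h5 := (tendsto_const_nhds (x := ξ)).compMeasurePreservingLp h3
    (fun g => (⟨smul_meas Λ g⁻¹, hν g⁻¹⟩ : MeasurePreserving (trc Λ g⁻¹) ν ν))
    (MeasurePreserving.id ν) (by norm_num)
  have h6 : Lp.compMeasurePreserving (⇑(ContinuousMap.id (E ⧸ Λ))) (MeasurePreserving.id ν) ξ = ξ := by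
    refine Lp.ext ?_
    filter_upwards [Lp.coeFn_compMeasurePreserving ξ (MeasurePreserving.id ν)] with x hx
    exact hx
  rw [h6] at h5
  exact h5

include hπ in
theorem pi_norm_le (v : Λ) : ‖π v‖ ≤ 1 :=
  ContinuousLinearMap.opNorm_le_bound _ zero_le_one fun x => by
    rw [Vale.Agent.P092.H885.u_norm hπ, one_mul]

variable [Countable Λ]

/-- the operators of the induced representation -/
noncomputable def iro (π : Λ →* (K →L[ℂ] K)) (g : E) : Lp K 2 ν →L[ℂ] Lp K 2 ν :=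
  Ri (cdat ν hν) (fun v => π v) g

include hπ in
theorem iro_ae (g : E) (ξ : Lp K 2 ν) :
    ⇑(iro hν π g ξ) =ᵐ[ν] fun x => π (coc Λ g (g⁻¹ • x)) (ξ (g⁻¹ • x)) :=
  ri_ae (cdat ν hν) (R := fun v => π v) (pi_norm_le hπ) g ξ

/-- the exceptional set -/
def exS (Λ : Subgroup E) [DiscreteTopology Λ] [MeasurableSpace (E ⧸ Λ)] [BorelSpace (E ⧸ Λ)]
    (g : E) : Set (E ⧸ Λ) := {x : E ⧸ Λ | coc Λ g (g⁻¹ • x) ≠ 1}

include hπ in
theorem ri_cont (ξ : Lp K 2 ν) :
    Tendsto (fun g : E => iro hν π g ξ) (𝓝 1) (𝓝 ξ) := by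
  have hb : ∀ v, ‖π v‖ ≤ 1 := pi_norm_le hπ
  have hSm : ∀ g : E, MeasurableSet (exS Λ g) := by
    intro g
    have h1 : MeasurableSet {x | coc Λ g x ≠ 1} := (coc_meas Λ g 1).compl
    exact (smul_meas Λ g⁻¹) h1
  have hSν : ∀ g : E, ν (exS Λ g) = ν {x | coc Λ g x ≠ 1} := by
    intro g
    have h1 : MeasurableSet {x | coc Λ g x ≠ 1} := (coc_meas Λ g 1).compl
    have h2 := (⟨smul_meas Λ g⁻¹, hν g⁻¹⟩ :
      MeasurePreserving (fun x : E ⧸ Λ => g⁻¹ • x) ν ν).measure_preimage h1.nullMeasurableSet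
    exact h2
  have hdiff : ∀ g : E, ‖iro hν π g ξ - kpo hν K g ξ‖ ≤
      2 * ‖ind ν K (exS Λ g) (kpo hν K g ξ)‖ := by
    intro g
    refine Lp.norm_le_mul_norm_of_ae_le_mul ?_
    filter_upwards [iro_ae hν hπ g ξ, kpo_ae hν g ξ,
      ind_ae (hSm g) (kpo hν K g ξ),
      Lp.coeFn_sub (iro hν π g ξ) (kpo hν K g ξ)] with x h1 h2 h3 h4
    rw [h4, Pi.sub_apply, h3, h1]
    by_cases hx : x ∈ exS Λ g
    · rw [Set.indicator_of_mem hx, h2]
      refine (norm_sub_le _ _).trans ?_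
      rw [Vale.Agent.P092.H885.u_norm hπ, two_mul]
    · rw [Set.indicator_of_notMem hx, norm_zero, mul_zero, h2]
      have hx' : coc Λ g (g⁻¹ • x) = 1 := by
        by_contra hh; exact hx hh
      rw [hx', map_one]
      change ‖ξ _ - ξ _‖ ≤ 0
      rw [sub_self, norm_zero]
  rw [Metric.tendsto_nhds]
  intro ε hε
  have hε8 : 0 < ε / 8 := by positivity
  obtain ⟨δ, hδ, hind⟩ := ind_small ξ hε8
  have hc := coc_cont Λ ν hν
  have h1 := (ENNReal.tendsto_nhds_zero.1 hc) (ENNReal.ofReal δ) (ENNReal.ofReal_pos.2 hδ)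
  have h2 := (Metric.tendsto_nhds.1 (kp_cont hν ξ)) (ε / 8) hε8
  filter_upwards [h1, h2] with g hg1 hg2
  rw [dist_eq_norm] at hg2 ⊢
  have h3 : ‖ind ν K (exS Λ g) ξ‖ ≤ ε / 8 :=
    hind _ (hSm g) (by rw [hSν]; exact hg1)
  have h4 : ‖ind ν K (exS Λ g) (kpo hν K g ξ)‖ ≤ ε / 4 := by
    have e1 : ind ν K (exS Λ g) (kpo hν K g ξ) =
        ind ν K (exS Λ g) ξ + ind ν K (exS Λ g) (kpo hν K g ξ - ξ) := by
      rw [map_sub]; abel
    rw [e1]
    refine (norm_add_le _ _).trans ?_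
    have h5 : ‖ind ν K (exS Λ g) (kpo hν K g ξ - ξ)‖ ≤ 1 * ‖kpo hν K g ξ - ξ‖ :=
      ContinuousLinearMap.le_of_opNorm_le _ (norm_ind_le (hSm g)) _
    linarith
  have e2 : iro hν π g ξ - ξ = (iro hν π g ξ - kpo hν K g ξ) + (kpo hν K g ξ - ξ) := by
    abel
  rw [e2]
  have h6 := hdiff g
  calc _ ≤ ‖iro hν π g ξ - kpo hν K g ξ‖ + ‖kpo hν K g ξ - ξ‖ := norm_add_le _ _
    _ < ε := by linarith

/-- the induced representation -/
noncomputable def irep : E →* (Lp K 2 ν →L[ℂ] Lp K 2 ν) where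
  toFun g := iro hν π g
  map_one' := by
    have h1 := ri_one (cdat ν hν) (R := fun v => π v) (pi_norm_le hπ)
    have h2 : ((π 1 : K →L[ℂ] K)).compLpL 2 (cdat ν hν).μ = 1 := by
      rw [map_one]
      exact comp_one
    exact h1.trans h2
  map_mul' g h := ri_mul (cdat ν hν) (R := fun v => π v) (pi_norm_le hπ)
    (fun v w => map_mul π v w) g h

theorem irep_crep : CRep (irep hν hπ) where
  adj g := adjoint_ri (cdat ν hν) (R := fun v => π v) (pi_norm_le hπ) hπ g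
  cont ξ := ri_cont hν hπ ξ

end rep

end Vale.Agent.P092.H103
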