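import Vale.Agent.P092.H885.StDefs2
import Vale.Agent.P092.H885.KDefs

/-!
Definitions used in the statements for P092: matrices over `L(G)`, corners and isomorphisms onto
corners (amplifications).
-/

namespace Vale.Agent.P092.H103.St

open Vale.Agent.P092.H160 Vale.Agent.P092.H160.St Vale.Agent.P092.H885

/-- The `n × n` matrices of bounded operators on `ℓ²(G)`. -/
abbrev MOp (n : ℕ) (G : Type) : Type := Fin n → Fin n → Op G

variable {n : ℕ} {G : Type} [Group G]

/-- Membership in `M_n(L(G))`: all entries lie in `L(G)`. -/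
def InM (A : MOp n G) : Prop := ∀ i j, InL (A i j)

/-- The matrix product `A B`. -/
noncomputable def mmul (A B : MOp n G) : MOp n G := fun i j => ∑ k, St.mul (A i k) (B k j)

/-- The sum `A + B`. -/
noncomputable def madd (A B : MOp n G) : MOp n G := fun i j => St.add (A i j) (B i j)

/-- `B` is the multiple `c A`. -/
def IsMSmul (c : ℂ) (A B : MOp n G) : Prop := ∀ i j, IsSmul c (A i j) (B i j)

/-- `B` is the adjoint `A*`: the entry `B_ji` is the adjoint of `A_ij`. -/
def IsMAdj (A B : MOp n G) : Prop := ∀ i j, IsAdj (A i j) (B j i)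

/-- The trace `(Tr ⊗ τ)(A)`, the sum of the traces of the diagonal entries. -/
noncomputable def mtr (A : MOp n G) : ℂ := ∑ i, St.tr (A i i)

/-- `p` is a projection of `M_n(L(G))`. -/
structure IsProj (p : MOp n G) : Prop where
  mem : InM p
  adj : IsMAdj p p
  idem : mmul p p = p

/-- Membership in the corner `p M_n(L(G)) p`. -/
def InC (p A : MOp n G) : Prop := InM A ∧ mmul p A = A ∧ mmul A p = A

/-- A `*`-isomorphism from `L(Γ)` onto `p M_n(L(Λ)) p`. -/
structure CornerIso (Γ Λ : Type) [Group Γ] [Group Λ] (n : ℕ) (p : MOp n Λ) where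
  /-- the map (only its values on `L(Γ)` matter) -/
  toFun : Op Γ → MOp n Λ
  /-- the inverse map (only its values on the corner matter) -/
  invFun : MOp n Λ → Op Γ
  map_mem : ∀ T, InL T → InC p (toFun T)
  inv_mem : ∀ A, InC p A → InL (invFun A)
  left_inv : ∀ T, InL T → invFun (toFun T) = T
  right_inv : ∀ A, InC p A → toFun (invFun A) = A
  map_add : ∀ S T, InL S → InL T → toFun (St.add S T) = madd (toFun S) (toFun T)
  map_smul : ∀ c S T, InL S → InL T → IsSmul c S T → IsMSmul c (toFun S) (toFun T)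
  map_mul : ∀ S T, InL S → InL T → toFun (St.mul S T) = mmul (toFun S) (toFun T)
  map_adj : ∀ S T, InL S → InL T → IsAdj S T → IsMAdj (toFun S) (toFun T)

/-- `θ` is canonical: `θ(u_g) = χ(g) w v_{δ(g)} w*` for a group isomorphism `δ : Γ → Λ`, a
character `χ : Γ → 𝕋` and a column `w` of elements of `L(Λ)` with `w* w = 1` and `w w* = p`
(`w' = w*`). -/
def CanonicalM {Γ Λ : Type} [Group Γ] [Group Λ] {n : ℕ} {p : MOp n Λ}
    (θ : CornerIso Γ Λ n p) : Prop :=
  ∃ (δ : Γ ≃* Λ) (χ : Γ →* Circle) (w w' : Fin n → Op Λ),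
    (∀ i, InL (w i)) ∧ (∀ i, IsAdj (w i) (w' i)) ∧ (∑ i, St.mul (w' i) (w i)) = u 1 ∧
    (∀ i j, St.mul (w i) (w' j) = p i j) ∧
    ∀ (g : Γ) (i j : Fin n), IsSmul (χ g) (St.mul (St.mul (w i) (u (δ g))) (w' j))
      (θ.toFun (u g) i j)

/-- The fourth power sum of all Fourier coefficients: `∑_{i,j,s} |τ(A_ij u_s*)|⁴`. -/
noncomputable def mfourth (A : MOp n G) : ℝ := ∑ i, ∑ j, fourth (A i j)

end Vale.Agent.P092.H103.St
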