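import Vale.Agent.P092.H103.Cnt
import Vale.Agent.P092.H368.Cp1
import Vale.Agent.P092.SD.Defs

/-!
P092 (helper103), team D: the properties (UC) and (ORB) of `SD/Defs.lean` for the induced picture
`K = L²(E ⧸ Λ; 𝓗)`.
-/

set_option linter.all false

open scoped InnerProductSpace ENNReal
open Set Filter Topology MeasureTheory ContinuousLinearMap

namespace Vale.Agent.P092.H103

open Vale.Agent.P092.H790 Vale.Agent.P092.H85 Vale.Agent.P092.H160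
open Vale.Agent.P092.RC (Cm TRN)

section gen

variable {E : Type} [Group E] [TopologicalSpace E] [IsTopologicalGroup E] [LocallyCompactSpace E]
  [SecondCountableTopology E] [T2Space E] [MeasurableSpace E] [BorelSpace E]
  {Λ : Subgroup E} [DiscreteTopology Λ] [MeasurableSpace (E ⧸ Λ)] [BorelSpace (E ⧸ Λ)]
  {ν : Measure (E ⧸ Λ)} [IsProbabilityMeasure ν] (hν : ∀ g : E, ν.map (fun x => g • x) = ν)
  {K : Type} [NormedAddCommGroup K] [InnerProductSpace ℂ K] [CompleteSpace K]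
  {V : Λ →* (K →L[ℂ] K)} (hVa : ∀ v, adjoint (V v) = V v⁻¹) [Countable Λ]

include hVa in
/-- `main_ineq` for a parametrised orbit. -/
theorem main_param {S : Type*} [MeasurableSpace S] {μ : Measure S} [IsFiniteMeasure μ] {φ : S → E}
    (hφ : Measurable φ) {T : Lp K 2 ν →L[ℂ] Lp K 2 ν} (hT : Dcp T)
    {ω : K} (hω : ‖ω‖ ≤ 1) {X₀ : Set (E ⧸ Λ)} (hX₀ : MeasurableSet X₀) {m : ℝ≥0∞}
    (hm : ∀ (x : E ⧸ Λ) (v : Λ), μ {s | (coc Λ (φ s) x)⁻¹ = v ∧ φ s • x ∈ X₀} ≤ m) :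
    ∫⁻ s, ‖T (iro hν V (φ s)⁻¹ (cst ν ω))‖ₑ ^ 2 ∂μ ≤
      m * ∑' v : Λ, ‖T ((V v).compLpL 2 ν (cst ν ω))‖ₑ ^ 2 + ‖T‖ₑ ^ 2 * ν X₀ᶜ * μ univ := by
  haveI hcl : IsClosed (Λ : Set E) := Subgroup.isClosed_of_discrete
  have hsm : Measurable fun p : S × (E ⧸ Λ) => φ p.1 • p.2 := by
    have h1 : Continuous fun p : E × (E ⧸ Λ) => p.1 • p.2 := continuous_smul
    exact h1.measurable.comp ((hφ.comp measurable_fst).prodMk measurable_snd)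
  obtain ⟨ζ, hζ⟩ : ∃ ζ : Λ → Lp K 2 ν, ζ = fun v => T ((V v).compLpL 2 ν (cst ν ω)) := ⟨_, rfl⟩
  obtain ⟨Q, hQ⟩ : ∃ Q : Λ → Set (S × (E ⧸ Λ)), Q = fun v =>
    {p | (coc Λ (φ p.1) p.2)⁻¹ = v ∧ φ p.1 • p.2 ∈ X₀} := ⟨_, rfl⟩
  have hQm : ∀ v, MeasurableSet (Q v) := by
    intro v
    have e : Q v = {p | coc Λ (φ p.1) p.2 = v⁻¹} ∩ (fun p : S × (E ⧸ Λ) => φ p.1 • p.2) ⁻¹' X₀ := by
      rw [hQ]
      ext p
      simp only [mem_setOf_eq, mem_inter_iff, mem_preimage, inv_eq_iff_eq_inv]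
    rw [e]
    refine MeasurableSet.inter ?_ (hsm hX₀)
    have h1 : Measurable fun p : S × (E ⧸ Λ) => (φ p.1, p.2) :=
      (hφ.comp measurable_fst).prodMk measurable_snd
    exact h1 (coc_meas2 v⁻¹)
  have hζm : ∀ v, Measurable fun x => ‖(ζ v) x‖ₑ ^ 2 := fun v =>
    ((Lp.stronglyMeasurable (ζ v)).enorm).pow_const 2
  obtain ⟨f, hf⟩ : ∃ f : Λ → S × (E ⧸ Λ) → ℝ≥0∞, f = fun v p =>
    (Q v).indicator (fun p => ‖(ζ v) p.2‖ₑ ^ 2) p := ⟨_, rfl⟩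
  have hfm : ∀ v, Measurable (f v) := by
    intro v
    rw [hf]
    exact ((hζm v).comp measurable_snd).indicator (hQm v)
  -- for fixed `s`
  have h1 : ∀ s : S, ‖T (iro hν V (φ s)⁻¹ (cst ν ω))‖ₑ ^ 2 ≤
      (∑' v, ∫⁻ x, f v (s, x) ∂ν) + ‖T‖ₑ ^ 2 * ν X₀ᶜ := by
    intro s
    have hYm : MeasurableSet {x : E ⧸ Λ | φ s • x ∈ X₀} := (smul_meas Λ (φ s)) hX₀
    rw [enorm_sq_Lp, ← lintegral_add_compl _ hYm]
    refine add_le_add ?_ ?_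
    · have hm' : ∀ v, Measurable fun x => f v (s, x) := fun v =>
        (hfm v).comp measurable_prodMk_left
      rw [← lintegral_tsum fun v => (hm' v).aemeasurable, ← lintegral_indicator hYm]
      refine lintegral_mono_ae ?_
      filter_upwards [field_eq hν hVa hT ω (φ s)] with x hx
      by_cases hy : x ∈ {x : E ⧸ Λ | φ s • x ∈ X₀}
      · rw [Set.indicator_of_mem hy, hx]
        refine le_trans ?_ (ENNReal.le_tsum (coc Λ (φ s) x)⁻¹)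
        rw [hf]
        dsimp only
        rw [Set.indicator_of_mem (show (s, x) ∈ Q (coc Λ (φ s) x)⁻¹ by
          rw [hQ]; exact ⟨rfl, hy⟩), hζ]
      · rw [Set.indicator_of_notMem hy]
        exact zero_le
    · have h2 : ∫⁻ x in {x : E ⧸ Λ | φ s • x ∈ X₀}ᶜ,
          ‖(T (iro hν V (φ s)⁻¹ (cst ν ω))) x‖ₑ ^ 2 ∂ν ≤
          ∫⁻ x in {x : E ⧸ Λ | φ s • x ∈ X₀}ᶜ, ‖T‖ₑ ^ 2 ∂ν := by
        refine lintegral_mono_ae (ae_restrict_of_ae ?_)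
        filter_upwards [hT.norm_ae (iro hν V (φ s)⁻¹ (cst ν ω)),
          iro_inv_ae hν hVa (φ s) (cst ν ω),
          ae_comp (mpres hν (φ s)) (cst_ae (ν := ν) ω)] with x a1 a2 a3
        refine a1.trans ?_
        have e1 : ‖V (coc Λ (φ s) x)⁻¹ ω‖ₑ ≤ 1 := by
          rw [← ofReal_norm, Vale.Agent.P092.H885.u_norm hVa, ← ENNReal.ofReal_one]
          exact ENNReal.ofReal_le_ofReal hω
        rw [a2, a3]
        calc ‖T‖ₑ ^ 2 * ‖V (coc Λ (φ s) x)⁻¹ ω‖ₑ ^ 2 ≤ ‖T‖ₑ ^ 2 * 1 ^ 2 := by gcongr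
          _ = ‖T‖ₑ ^ 2 := by rw [one_pow, mul_one]
      refine h2.trans ?_
      rw [setLIntegral_const]
      have h3 : ν {x : E ⧸ Λ | φ s • x ∈ X₀}ᶜ = ν X₀ᶜ :=
        (mpres hν (φ s)).measure_preimage hX₀.compl.nullMeasurableSet
      rw [h3]
  have h2 : ∀ v, ∫⁻ s, ∫⁻ x, f v (s, x) ∂ν ∂μ ≤ m * ‖ζ v‖ₑ ^ 2 := by
    intro v
    have hu : AEMeasurable (Function.uncurry fun s x => f v (s, x)) (μ.prod ν) :=
      (hfm v).aemeasurable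
    rw [lintegral_lintegral_swap hu, enorm_sq_Lp, ← lintegral_const_mul _ (hζm v)]
    refine lintegral_mono fun x => ?_
    have e1 : ∀ s, f v (s, x) = {s | (coc Λ (φ s) x)⁻¹ = v ∧ φ s • x ∈ X₀}.indicator
        (fun _ => ‖(ζ v) x‖ₑ ^ 2) s := by
      intro s
      rw [hf, hQ]
      rfl
    simp_rw [e1]
    have hm1 : MeasurableSet {s | (coc Λ (φ s) x)⁻¹ = v ∧ φ s • x ∈ X₀} := by
      have h3 : Measurable fun s : S => (s, x) := measurable_id.prodMk measurable_const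
      have h4 := h3 (hQm v)
      rw [hQ] at h4
      exact h4
    rw [lintegral_indicator hm1, setLIntegral_const, mul_comm]
    gcongr
    exact hm x v
  calc ∫⁻ s, ‖T (iro hν V (φ s)⁻¹ (cst ν ω))‖ₑ ^ 2 ∂μ
      ≤ ∫⁻ s, ((∑' v, ∫⁻ x, f v (s, x) ∂ν) + ‖T‖ₑ ^ 2 * ν X₀ᶜ) ∂μ := lintegral_mono h1
    _ = (∫⁻ s, ∑' v, ∫⁻ x, f v (s, x) ∂ν ∂μ) + ‖T‖ₑ ^ 2 * ν X₀ᶜ * μ univ := by
        rw [lintegral_add_right _ measurable_const, lintegral_const]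
    _ = (∑' v, ∫⁻ s, ∫⁻ x, f v (s, x) ∂ν ∂μ) + ‖T‖ₑ ^ 2 * ν X₀ᶜ * μ univ := by
        rw [lintegral_tsum fun v => ((hfm v).lintegral_prod_right').aemeasurable]
    _ ≤ _ := by
        rw [← ENNReal.tsum_mul_left]
        refine add_le_add (ENNReal.tsum_le_tsum fun v => ?_) le_rfl
        refine (h2 v).trans_eq ?_
        rw [hζ]

theorem mult_param {S : Type*} [MeasurableSpace S] {μ : Measure S} {φ : S → E}
    {X₀ : Set (E ⧸ Λ)} {C₀ : Set E} (hC₀ : ∀ x ∈ X₀, sec Λ x ∈ C₀) {m : ℝ≥0∞}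
    (hm : ∀ s₀, μ {s | φ s * (φ s₀)⁻¹ ∈ (fun p : E × E => p.1 * p.2⁻¹) '' (C₀ ×ˢ C₀)} ≤ m)
    (x : E ⧸ Λ) (v : Λ) : μ {s | (coc Λ (φ s) x)⁻¹ = v ∧ φ s • x ∈ X₀} ≤ m := by
  by_cases h : ∃ s₀, (coc Λ (φ s₀) x)⁻¹ = v ∧ φ s₀ • x ∈ X₀
  · obtain ⟨s₀, h1, h2⟩ := h
    refine (measure_mono fun s hs => ?_).trans (hm s₀)
    obtain ⟨h3, h4⟩ := hs
    refine ⟨(sec Λ (φ s • x), sec Λ (φ s₀ • x)), ⟨hC₀ _ h4, hC₀ _ h2⟩, ?_⟩
    have e1 := sec_mul_coc Λ (φ s) x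
    have e2 := sec_mul_coc Λ (φ s₀) x
    have e3 : coc Λ (φ s) x = coc Λ (φ s₀) x := by
      rw [← inv_inj, h3, h1]
    rw [e3] at e1
    have e4 : sec Λ (φ s • x) = φ s * sec Λ x * (coc Λ (φ s₀) x : E)⁻¹ := by
      rw [← e1, mul_inv_cancel_right]
    have e5 : sec Λ (φ s₀ • x) = φ s₀ * sec Λ x * (coc Λ (φ s₀) x : E)⁻¹ := by
      rw [← e2, mul_inv_cancel_right]
    change sec Λ (φ s • x) * (sec Λ (φ s₀ • x))⁻¹ = φ s * (φ s₀)⁻¹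
    rw [e4, e5]
    group
  · have h0 : {s | (coc Λ (φ s) x)⁻¹ = v ∧ φ s • x ∈ X₀} = ∅ := by
      refine Set.eq_empty_of_forall_notMem fun s hs => h ⟨s, hs⟩
    rw [h0, measure_empty]
    exact zero_le

include hVa in
/-- (UC) for the induced picture. -/
theorem uc_of {Γ : Type} {W : Set (Lp K 2 ν →L[ℂ] Lp K 2 ν)}
    (hW : ∀ A : Set (E ⧸ Λ), MeasurableSet A → H790.ind ν K A ∈ W) {ω : K} (hω : ‖ω‖ ≤ 1)
    {m₀ : Set Γ → (K →L[ℂ] K)} (hm₀ : ∀ S, ‖m₀ S‖ ≤ 1) :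
    SD.UC (irep hν hVa) W (cst ν ω) fun S => (m₀ S).compLpL 2 ν := by
  intro δ hδ
  have h1 := (ENNReal.tendsto_toReal ENNReal.zero_ne_top).comp (coc_cont Λ ν hν)
  have h2 : Tendsto (fun g : E => 2 * Real.sqrt (ν.real {x : E ⧸ Λ | coc Λ g x ≠ 1}))
      (𝓝 1) (𝓝 0) := by
    have h3 := ((Real.continuous_sqrt.tendsto 0).comp h1).const_mul 2
    rw [Real.sqrt_zero, mul_zero] at h3
    exact h3
  have hinv : Tendsto (fun g : E => g⁻¹) (𝓝 1) (𝓝 1) := by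
    have := (continuous_inv (G := E)).tendsto 1
    rwa [inv_one] at this
  have h4 := (h2.comp hinv).eventually (gt_mem_nhds hδ)
  filter_upwards [h4] with g hg S B hB hB1 h
  have hBd : Dcp B := fun A hA => hB _ (hW A hA)
  have hζ := orbit_bdd hν hVa hBd hω h⁻¹
  rw [inv_inv] at hζ
  have hζ' : ∀ᵐ x ∂ν, ‖(B (iro hν V h (cst ν ω))) x‖ ≤ 1 := hζ.mono fun x hx => hx.trans hB1
  have h5 := const_comm hν hVa (m₀ S) g⁻¹ zero_le_one hζ'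
  rw [inv_inv] at h5
  change ‖(m₀ S).compLpL 2 ν (iro hν V g (B (iro hν V h (cst ν ω)))) -
    iro hν V g ((m₀ S).compLpL 2 ν (B (iro hν V h (cst ν ω))))‖ ≤ δ
  refine h5.trans ?_
  have h6 : 2 * ‖m₀ S‖ * 1 * Real.sqrt (ν.real {x : E ⧸ Λ | coc Λ g⁻¹ x ≠ 1}) ≤
      2 * Real.sqrt (ν.real {x : E ⧸ Λ | coc Λ g⁻¹ x ≠ 1}) := by
    have := hm₀ S
    have h7 := Real.sqrt_nonneg (ν.real {x : E ⧸ Λ | coc Λ g⁻¹ x ≠ 1})
    nlinarith
  exact h6.trans (le_of_lt hg)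

/-- The Hilbert-Schmidt count. -/
theorem hs_le {Γ S : Type} [Countable S] [Countable Γ] {T : S → K →L[ℂ] K} {d : Γ → K} {ω : K}
    (hO : Orthonormal ℂ fun p : Λ × S => T p.2 (V p.1 ω))
    (hpar : ∀ y : K, ‖y‖ₑ ^ 2 ≤ ∑' (k : Γ) (s : S), ‖⟪d k, T s y⟫_ℂ‖ₑ ^ 2)
    {B : Lp K 2 ν →L[ℂ] Lp K 2 ν} (hB : Dcp B)
    (hBT : ∀ s, B * (T s).compLpL 2 ν = (T s).compLpL 2 ν * B) :
    ∑' v : Λ, ‖B ((V v).compLpL 2 ν (cst ν ω))‖ₑ ^ 2 ≤
      ∑' k : Γ, ‖adjoint B (cst ν (d k))‖ₑ ^ 2 := by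
  refine le_trans (ENNReal.tsum_le_tsum fun v => ?_) (H368.tot_le (V := V) hO d hB hBT)
  have e1 : (V v).compLpL 2 ν (cst ν ω) = Lp.const 2 ν (V v ω) := by
    refine Lp.ext ?_
    have c2 : ⇑(Lp.const 2 ν (V v ω) : Lp K 2 ν) =ᵐ[ν] fun _ => V v ω := Lp.coeFn_const ..
    filter_upwards [(V v).coeFn_compLpL (p := 2) (cst ν ω : Lp K 2 ν), cst_ae (ν := ν) ω, c2]
      with x h1 h2 h3
    rw [h1, h2, h3]
  rw [e1, enorm_sq_Lp]
  exact lintegral_mono fun x => hpar _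

end gen

section elem

variable {k : Type} [Field k]

theorem un_add (s t : k) : SD.un s * SD.un t = SD.un (s + t) := by
  apply Subtype.ext
  exact Matrix.transvection_mul_transvection_same 0 1 (by decide) s t

theorem un_zero : SD.un (0 : k) = 1 := by
  apply Subtype.ext
  exact Matrix.transvection_zero 0 1

theorem un_inv (s : k) : (SD.un s)⁻¹ = SD.un (-s) := by
  rw [inv_eq_iff_mul_eq_one, un_add, add_neg_cancel, un_zero]

theorem un_entry (s : k) : (SD.un s).1 0 1 = s := by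
  change (Matrix.transvection 0 1 s : Matrix (Fin 3) (Fin 3) k) 0 1 = s
  rw [Matrix.transvection]
  simp [Matrix.single_apply]

theorem bw_un (w : kˣ) (s : k) : SD.bw w * SD.un s = SD.un (((w⁻¹ : kˣ) : k) ^ 3 * s) * SD.bw w := by
  have h : ((w⁻¹ : kˣ) : k) * (w : k) = 1 := by rw [← Units.val_mul]; simp
  apply Subtype.ext
  change Matrix.diagonal ![((w⁻¹ : kˣ) : k) ^ 2, (w : k), (w : k)] *
      (Matrix.transvection 0 1 s : Matrix (Fin 3) (Fin 3) k) =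
    (Matrix.transvection 0 1 (((w⁻¹ : kˣ) : k) ^ 3 * s) : Matrix (Fin 3) (Fin 3) k) *
      Matrix.diagonal ![((w⁻¹ : kˣ) : k) ^ 2, (w : k), (w : k)]
  have h2 : ((w⁻¹ : kˣ) : k) ^ 2 * s = ((w⁻¹ : kˣ) : k) ^ 3 * s * (w : k) := by
    calc ((w⁻¹ : kˣ) : k) ^ 2 * s = ((w⁻¹ : kˣ) : k) ^ 2 * s * (((w⁻¹ : kˣ) : k) * (w : k)) := by
          rw [h, mul_one]
      _ = ((w⁻¹ : kˣ) : k) ^ 3 * s * (w : k) := by ring
  ext i j
  rw [Matrix.diagonal_mul, Matrix.mul_diagonal]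
  rw [Matrix.transvection, Matrix.transvection, Matrix.add_apply, Matrix.add_apply]
  rw [Units.val_inv_eq_inv_val, inv_pow, inv_pow] at h2
  fin_cases i <;> fin_cases j <;> simp [Matrix.single_apply, Matrix.one_apply]
  exact h2

theorem bw_pow_un (w : kˣ) (N : ℕ) (s : k) :
    SD.bw w ^ N * SD.un s = SD.un (((w⁻¹ : kˣ) : k) ^ (3 * N) * s) * SD.bw w ^ N := by
  induction N generalizing s with
  | zero => simp
  | succ N ih =>
    rw [pow_succ, mul_assoc, bw_un, ← mul_assoc, ih, mul_assoc]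
    congr 2
    rw [mul_add, pow_add, mul_one]
    ring

/-- the orbit map -/
def oph (g : SD.G3 k) (w : kˣ) (N : ℕ) (s : k) : SD.G3 k := g * SD.bw w ^ N * SD.un s * g⁻¹

theorem oph_div (g : SD.G3 k) (w : kˣ) (N : ℕ) (s s₀ : k) :
    oph g w N s * (oph g w N s₀)⁻¹ =
      g * SD.un (((w⁻¹ : kˣ) : k) ^ (3 * N) * (s - s₀)) * g⁻¹ := by
  have e1 : SD.bw w ^ N * SD.un (s - s₀) * (SD.bw w ^ N)⁻¹ =
      SD.un (((w⁻¹ : kˣ) : k) ^ (3 * N) * (s - s₀)) := by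
    rw [bw_pow_un, mul_inv_cancel_right]
  rw [← e1, sub_eq_add_neg, ← un_add, ← un_inv, oph, oph]
  group

end elem

section real

open SD in
/-- (ORB) for the induced picture of a lattice in `SL_3(ℝ)`. -/
theorem orb_of [LocallyCompactSpace (G3 ℝ)] [SecondCountableTopology (G3 ℝ)] [T2Space (G3 ℝ)]
    [MeasurableSpace (G3 ℝ)] [BorelSpace (G3 ℝ)] {Λ : Subgroup (G3 ℝ)}
    [DiscreteTopology Λ] [MeasurableSpace (G3 ℝ ⧸ Λ)] [BorelSpace (G3 ℝ ⧸ Λ)]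
    {ν : Measure (G3 ℝ ⧸ Λ)} [IsProbabilityMeasure ν]
    (hν : ∀ g : G3 ℝ, ν.map (fun x => g • x) = ν) {K : Type} [NormedAddCommGroup K]
    [InnerProductSpace ℂ K] [CompleteSpace K] {V : Λ →* (K →L[ℂ] K)}
    (hVa : ∀ v, adjoint (V v) = V v⁻¹) [Countable Λ] {Γ S : Type} [Group Γ] [Countable Γ]
    [Countable S] {w : ℝˣ} {W : Set (Lp K 2 ν →L[ℂ] Lp K 2 ν)}
    (hW : ∀ A : Set (G3 ℝ ⧸ Λ), MeasurableSet A → H790.ind ν K A ∈ W) {T : S → K →L[ℂ] K}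
    (hWT : ∀ s, (T s).compLpL 2 ν ∈ W) {ω : K} (hω : ‖ω‖ ≤ 1)
    {lam : Γ →* (Lp K 2 ν →L[ℂ] Lp K 2 ν)} {d : Γ → K} (hd : ∀ k, lam k (cst ν ω) = cst ν (d k))
    (hO : Orthonormal ℂ fun p : Λ × S => T p.2 (V p.1 ω))
    (hpar : ∀ y : K, ‖y‖ₑ ^ 2 ≤ ∑' (k : Γ) (s : S), ‖⟪d k, T s y⟫_ℂ‖ₑ ^ 2)
    (htr : ∀ T', Cm W T' → TRN lam (cst ν ω) (adjoint T') = TRN lam (cst ν ω) T') :
    ORB (volume : Measure ℝ) w (irep hν hVa) lam W (cst ν ω) := by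
  intro g δ hδ
  obtain ⟨X₀, hX₀c, hX₀m, hX₀⟩ := exists_compact_large Λ ν (half_pos hδ)
  obtain ⟨C₀, hC₀, hsC₀⟩ := sec_bdd Λ X₀ hX₀c
  have hCC : IsCompact ((fun p : G3 ℝ × G3 ℝ => p.1 * p.2⁻¹) '' (C₀ ×ˢ C₀)) :=
    (hC₀.prod hC₀).image (by fun_prop)
  have hent : Continuous fun h : G3 ℝ => (g⁻¹ * h * g).1 0 1 := by
    have h1 : Continuous fun h : G3 ℝ => (g⁻¹ * h * g).1 :=
      continuous_subtype_val.comp (by fun_prop)
    exact (continuous_apply_apply 0 1).comp h1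
  obtain ⟨r, hr⟩ := hCC.exists_bound_of_continuousOn hent.continuousOn
  have hr0 : ∀ s s₀ : ℝ, ∀ N, oph g w N s * (oph g w N s₀)⁻¹ ∈
      (fun p : G3 ℝ × G3 ℝ => p.1 * p.2⁻¹) '' (C₀ ×ˢ C₀) →
      ‖s - s₀‖ ≤ |r| * ‖(w : ℝ)‖ ^ (3 * N) := by
    intro s s₀ N hs
    have h1 := hr _ hs
    rw [oph_div] at h1
    have e1 : (g⁻¹ * (g * SD.un (((w⁻¹ : ℝˣ) : ℝ) ^ (3 * N) * (s - s₀)) * g⁻¹) * g).1 0 1 =
        ((w⁻¹ : ℝˣ) : ℝ) ^ (3 * N) * (s - s₀) := by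
      have : g⁻¹ * (g * SD.un (((w⁻¹ : ℝˣ) : ℝ) ^ (3 * N) * (s - s₀)) * g⁻¹) * g =
          SD.un (((w⁻¹ : ℝˣ) : ℝ) ^ (3 * N) * (s - s₀)) := by group
      rw [this, un_entry]
    rw [e1, norm_mul, norm_pow] at h1
    have hw : ‖((w⁻¹ : ℝˣ) : ℝ)‖ * ‖(w : ℝ)‖ = 1 := by
      rw [← norm_mul, ← Units.val_mul]; simp
    calc ‖s - s₀‖ = (‖((w⁻¹ : ℝˣ) : ℝ)‖ * ‖(w : ℝ)‖) ^ (3 * N) * ‖s - s₀‖ := by
          rw [hw, one_pow, one_mul]
      _ = (‖((w⁻¹ : ℝˣ) : ℝ)‖ ^ (3 * N) * ‖s - s₀‖) * ‖(w : ℝ)‖ ^ (3 * N) := by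
          rw [mul_pow]; ring
      _ ≤ |r| * ‖(w : ℝ)‖ ^ (3 * N) := by
          gcongr
          exact h1.trans (le_abs_self r)
  refine ⟨2 * |r|, fun N T' hT' hT'1 => ?_⟩
  have hTd : Dcp T' := fun A hA => hT' _ (hW A hA)
  obtain ⟨μ, hμ⟩ : ∃ μ : Measure ℝ, μ = volume.restrict (Metric.closedBall (0 : ℝ) 1) := ⟨_, rfl⟩
  haveI : IsFiniteMeasure μ := by
    rw [hμ]
    exact ⟨by rw [Measure.restrict_apply_univ]; exact measure_closedBall_lt_top⟩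
  have hμu : μ univ = ENNReal.ofReal 2 := by
    rw [hμ, Measure.restrict_apply_univ, Real.volume_closedBall, mul_one]
  have hφm : Measurable (oph g w N) := by
    have h1 : Continuous fun s : ℝ => (oph g w N s : G3 ℝ) := by
      have h3 : Continuous fun s : ℝ => (SD.un s : G3 ℝ).1 := by
        simp only [SD.un, Matrix.SpecialLinearGroup.transvection_coe]
        refine continuous_const.add ?_
        refine continuous_pi fun a => continuous_pi fun b => ?_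
        simp only [Matrix.single_apply]
        split_ifs
        · exact continuous_id
        · exact continuous_const
      have h2 : Continuous fun s : ℝ => (SD.un s : G3 ℝ) := continuous_induced_rng.2 h3
      unfold oph
      exact (continuous_const.mul h2).mul continuous_const
    exact h1.measurable
  have hm : ∀ (x : G3 ℝ ⧸ Λ) (v : Λ), μ {s | (coc Λ (oph g w N s) x)⁻¹ = v ∧
      oph g w N s • x ∈ X₀} ≤ ENNReal.ofReal (2 * |r| * ‖(w : ℝ)‖ ^ (3 * N)) := by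
    refine mult_param hsC₀ fun s₀ => ?_
    calc μ {s | oph g w N s * (oph g w N s₀)⁻¹ ∈
          (fun p : G3 ℝ × G3 ℝ => p.1 * p.2⁻¹) '' (C₀ ×ˢ C₀)}
        ≤ μ (Metric.closedBall s₀ (|r| * ‖(w : ℝ)‖ ^ (3 * N))) := by
          refine measure_mono fun s hs => ?_
          rw [Metric.mem_closedBall, dist_eq_norm]
          exact hr0 s s₀ N hs
      _ ≤ volume (Metric.closedBall s₀ (|r| * ‖(w : ℝ)‖ ^ (3 * N))) := by
          rw [hμ]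
          exact Measure.restrict_apply_le _ _
      _ = _ := by
          rw [Real.volume_closedBall]
          congr 1
          ring
  have h1 := main_param hν hVa hφm hTd hω hX₀m hm
  have h2 := hs_le (V := V) hO hpar hTd (fun s => hT' _ (hWT s))
  have h3 : ∑' k : Γ, ‖adjoint T' (cst ν (d k))‖ₑ ^ 2 = TRN lam (cst ν ω) T' := by
    rw [← htr T' hT', TRN]
    simp_rw [hd]
  rw [h3] at h2
  have h4 : ‖T'‖ₑ ^ 2 * ν X₀ᶜ * μ univ ≤ ENNReal.ofReal δ := by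
    have a1 : ‖T'‖ₑ ≤ 1 := by
      rw [← ofReal_norm, ← ENNReal.ofReal_one]
      exact ENNReal.ofReal_le_ofReal hT'1
    calc ‖T'‖ₑ ^ 2 * ν X₀ᶜ * μ univ ≤ 1 ^ 2 * ENNReal.ofReal (δ / 2) * ENNReal.ofReal 2 := by
          rw [hμu]
          gcongr
          rw [← ofReal_measureReal]
          exact ENNReal.ofReal_le_ofReal hX₀
      _ = ENNReal.ofReal δ := by
          rw [one_pow, one_mul, ← ENNReal.ofReal_mul (by positivity)]
          congr 1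
          ring
  have h5 : ∫⁻ s in Metric.closedBall (0 : ℝ) 1,
      ‖T' (irep hν hVa (g * bw w ^ N * un s * g⁻¹)⁻¹ (cst ν ω))‖ₑ ^ 2 =
      ∫⁻ s, ‖T' (iro hν V (oph g w N s)⁻¹ (cst ν ω))‖ₑ ^ 2 ∂μ := by
    rw [hμ]
    rfl
  rw [h5]
  refine h1.trans (add_le_add ?_ h4)
  gcongr

end real

end Vale.Agent.P092.H103
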