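import Vale.Agent.P092.H34.PicD
import Vale.Agent.P092.H368.MsI
import Vale.Agent.P092.H103.Orb

/-!
P092 (helper103), Team D, block [D-PICI]: the concrete fields `Ms`, `TrM`, `UC`, `ORB` of `SD/Defs`
for the concrete picture of `H34/PicD`, both legs.
-/

set_option linter.all false

open scoped InnerProductSpace ENNReal
open MeasureTheory Filter Topology ContinuousLinearMap

namespace Vale.Agent.P092.H103

open Vale.Agent.P092.H160 Vale.Agent.P092.SR Vale.Agent.P092.H839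
open Vale.Agent.P092.RC (Cm TRN KK pic con lam₁ lam₂ XX Om pic_eq lam₁_eq lam₂_eq)

/-! ### the fibre -/

section fibre

variable {Γ Λ : Type} [Group Γ] [Group Λ] {α : Γ →* (Ell2 Λ →L[ℂ] Ell2 Λ)} (hα : Frame α)

theorem RR_ap (g h : Γ) (v : Ell2 (Λ × Λ)) : RR₁ α g (RR₂ α h v) = RR α (g, h) v := by
  rw [RR_eq]; rfl

theorem RR_ap' (g h : Γ) (v : Ell2 (Λ × Λ)) : RR₂ α h (RR₁ α g v) = RR α (g, h) v := by
  rw [RR_eq, comm_RR]; rfl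

include hα

theorem orth_RR : Orthonormal ℂ fun p : Γ × Γ => RR₁ α p.1 (RR₂ α p.2 (dl 1 : Ell2 (Λ × Λ))) := by
  have h1 : (fun p : Γ × Γ => RR₁ α p.1 (RR₂ α p.2 (dl 1 : Ell2 (Λ × Λ)))) =
      fun p => RR α p (dl 1) := funext fun p => RR_ap _ _ _
  rw [h1]
  exact (regRep_RR hα).orthonormal

theorem orth_RR' : Orthonormal ℂ fun p : Γ × Γ => RR₂ α p.1 (RR₁ α p.2 (dl 1 : Ell2 (Λ × Λ))) := by
  have h1 : (fun p : Γ × Γ => RR₂ α p.1 (RR₁ α p.2 (dl 1 : Ell2 (Λ × Λ)))) =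
      (fun p => RR α p (dl 1)) ∘ Prod.swap := funext fun p => RR_ap' _ _ _
  rw [h1]
  exact (regRep_RR hα).orthonormal.comp _ Prod.swap_injective

theorem total_RR (v : Ell2 (Λ × Λ)) (h : ∀ γ s, ⟪RR₁ α γ (RR₂ α s (dl 1)), v⟫_ℂ = 0) : v = 0 :=
  (regRep_RR hα).total v fun p => by rw [← RR_ap p.1 p.2]; exact h _ _

theorem total_RR' (v : Ell2 (Λ × Λ)) (h : ∀ γ s, ⟪RR₂ α γ (RR₁ α s (dl 1)), v⟫_ℂ = 0) : v = 0 :=
  (regRep_RR hα).total v fun p => by rw [← RR_ap' p.1 p.2]; exact h _ _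

/-- the basis of the first leg -/
noncomputable def bF₁ : HilbertBasis (Γ × Γ) ℂ (Ell2 (Λ × Λ)) :=
  (H368.exists_basis (orth_RR hα) (total_RR hα)).choose

/-- the basis of the second leg -/
noncomputable def bF₂ : HilbertBasis (Γ × Γ) ℂ (Ell2 (Λ × Λ)) :=
  (H368.exists_basis (orth_RR' hα) (total_RR' hα)).choose

theorem bF₁_ap (γ s : Γ) : bF₁ hα (γ, s) = RR₁ α γ (RR₂ α s (dl 1)) :=
  (H368.exists_basis (orth_RR hα) (total_RR hα)).choose_spec γ s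

theorem bF₂_ap (γ s : Γ) : bF₂ hα (γ, s) = RR₂ α γ (RR₁ α s (dl 1)) :=
  (H368.exists_basis (orth_RR' hα) (total_RR' hα)).choose_spec γ s

/-- Parseval -/
theorem pars (y : Ell2 (Λ × Λ)) :
    HasSum (fun p : Γ × Γ => ‖⟪RR α p (dl 1), y⟫_ℂ‖ ^ 2) (‖y‖ ^ 2) := by
  have h1 := (regRep_RR hα).hasSum_inner y y
  have h3 := Complex.hasSum_re h1
  have h4 : (⟪y, y⟫_ℂ).re = ‖y‖ ^ 2 := by
    rw [inner_self_eq_norm_sq_to_K]; norm_cast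
  rw [h4] at h3
  have h5 : (fun p : Γ × Γ => ‖⟪RR α p (dl 1), y⟫_ℂ‖ ^ 2) =
      fun p => (⟪y, RR α p (dl 1)⟫_ℂ * ⟪RR α p (dl 1), y⟫_ℂ).re := by
    funext p
    rw [← inner_conj_symm y, ← Complex.normSq_eq_conj_mul_self, Complex.normSq_eq_norm_sq,
      Complex.ofReal_re]
  rw [h5]; exact h3

theorem pars_enn (y : Ell2 (Λ × Λ)) :
    ∑' p : Γ × Γ, ‖⟪RR α p (dl 1), y⟫_ℂ‖ₑ ^ 2 = ‖y‖ₑ ^ 2 := by
  have h0 := pars hα y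
  have h1 := ENNReal.ofReal_tsum_of_nonneg (f := fun p : Γ × Γ => ‖⟪RR α p (dl 1), y⟫_ℂ‖ ^ 2)
    (fun p => by positivity) h0.summable
  rw [h0.tsum_eq] at h1
  rw [← ofReal_norm, ← ENNReal.ofReal_pow (norm_nonneg _), h1]
  refine tsum_congr fun p => ?_
  rw [← ofReal_norm, ← ENNReal.ofReal_pow (norm_nonneg _)]

theorem pars₁ (y : Ell2 (Λ × Λ)) :
    ‖y‖ₑ ^ 2 ≤ ∑' (k : Γ) (s : Γ), ‖⟪RR₁ α k (dl 1), RR₂ α s y⟫_ℂ‖ₑ ^ 2 := by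
  rw [← pars_enn hα y, ENNReal.tsum_prod' (f := fun p : Γ × Γ => ‖⟪RR α p (dl 1), y⟫_ℂ‖ₑ ^ 2)]
  refine le_of_eq (tsum_congr fun k => ?_)
  rw [← (Equiv.inv Γ).tsum_eq]
  refine tsum_congr fun s => ?_
  change ‖⟪RR α (k, s⁻¹) (dl 1), y⟫_ℂ‖ₑ ^ 2 = _
  rw [← RR_ap' k s⁻¹, ← adjoint_inner_right, adj_RR₂ hα, inv_inv]

theorem pars₂ (y : Ell2 (Λ × Λ)) :
    ‖y‖ₑ ^ 2 ≤ ∑' (k : Γ) (s : Γ), ‖⟪RR₂ α k (dl 1), RR₁ α s y⟫_ℂ‖ₑ ^ 2 := by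
  rw [← pars_enn hα y, ← (Equiv.prodComm Γ Γ).tsum_eq,
    ENNReal.tsum_prod' (f := fun p : Γ × Γ => ‖⟪RR α (Equiv.prodComm Γ Γ p) (dl 1), y⟫_ℂ‖ₑ ^ 2)]
  refine le_of_eq (tsum_congr fun k => ?_)
  rw [← (Equiv.inv Γ).tsum_eq]
  refine tsum_congr fun s => ?_
  change ‖⟪RR α (s⁻¹, k) (dl 1), y⟫_ℂ‖ₑ ^ 2 = _
  rw [← RR_ap s⁻¹ k, ← adjoint_inner_right, adj_RR₁ hα, inv_inv]

omit hα in
theorem inner_of_supp {x y : Ell2 (Λ × Λ)} (hx : ∀ p : Λ × Λ, p.1 ≠ p.2 → x p = 0)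
    (hy : ∀ p : Λ × Λ, p.1 ≠ p.2 ∨ p = (1, 1) ∨ y p = 0) :
    ⟪x, y⟫_ℂ = (starRingEnd ℂ) (x (1, 1)) * y (1, 1) := by
  rw [lp.inner_eq_tsum, tsum_eq_single (1, 1)]
  · rw [RCLike.inner_apply, mul_comm]
  · intro p hp
    rw [RCLike.inner_apply]
    rcases hy p with h | h | h
    · rw [hx p h]; simp
    · exact absurd h hp
    · rw [h]; simp

open scoped Classical in
theorem coef_VV (u : Γ) : (VV α u (dl 1) : Ell2 (Λ × Λ)) (1, 1) = if u = 1 then 1 else 0 := by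
  change Del (α u) (dl 1) (1, 1) = _
  rw [Del_dl, if_pos rfl]
  change α u (dl 1) 1 = _
  by_cases h : u = 1
  · subst h
    rw [if_pos rfl, map_one]
    change (dl 1 : Ell2 Λ) 1 = 1
    rw [dl_apply, if_pos rfl]
  · rw [if_neg h]
    have := hα.reg.inner_zero u h
    rwa [inner_dl] at this

theorem supp_VV (u : Γ) (p : Λ × Λ) (hp : p.1 ≠ p.2) :
    (VV α u (dl 1) : Ell2 (Λ × Λ)) p = 0 := by
  change Del (α u) (dl 1) p = _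
  rw [Del_dl, if_neg hp]

open scoped Classical in
theorem coef_RR₂ (u : Γ) : (RR₂ α u (dl 1) : Ell2 (Λ × Λ)) (1, 1) = if u = 1 then 1 else 0 := by
  by_cases h : u = 1
  · subst h
    rw [if_pos rfl, map_one]
    change (dl 1 : Ell2 (Λ × Λ)) (1, 1) = 1
    rw [dl_apply, if_pos (show ((1 : Λ), (1 : Λ)) = 1 from rfl)]
  · rw [if_neg h]
    have h1 := (regRep_RR hα).inner_zero (1, u) (fun e => h (Prod.mk.inj e).2)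
    rw [inner_dl, ← RR₂_of_RR] at h1
    exact h1

open scoped Classical in
theorem coef_RR₁ (u : Γ) : (RR₁ α u (dl 1) : Ell2 (Λ × Λ)) (1, 1) = if u = 1 then 1 else 0 := by
  by_cases h : u = 1
  · subst h
    rw [if_pos rfl, map_one]
    change (dl 1 : Ell2 (Λ × Λ)) (1, 1) = 1
    rw [dl_apply, if_pos (show ((1 : Λ), (1 : Λ)) = 1 from rfl)]
  · rw [if_neg h]
    have h1 := (regRep_RR hα).inner_zero (u, 1) (fun e => h (Prod.mk.inj e).1)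
    rw [inner_dl, ← RR₁_of_RR] at h1
    exact h1

omit hα in
theorem supp_RR₂ (u : Γ) (p : Λ × Λ) : p.1 ≠ p.2 ∨ p = (1, 1) ∨
    (RR₂ α u (dl 1) : Ell2 (Λ × Λ)) p = 0 := by
  classical
  rcases p with ⟨a, b⟩
  by_cases hab : a = b
  · subst hab
    right
    by_cases ha : a = 1
    · left; rw [ha]
    · right
      change tens 1 (JJ (α u)) (dl ((1 : Λ), (1 : Λ))) (a, a) = 0
      rw [tens_dl, tv_apply]
      change (dl 1 : Ell2 Λ) a * _ = 0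
      rw [dl_apply, if_neg ha, zero_mul]
  · left; exact hab

omit hα in
theorem supp_RR₁ (u : Γ) (p : Λ × Λ) : p.1 ≠ p.2 ∨ p = (1, 1) ∨
    (RR₁ α u (dl 1) : Ell2 (Λ × Λ)) p = 0 := by
  classical
  rcases p with ⟨a, b⟩
  by_cases hab : a = b
  · subst hab
    right
    by_cases ha : a = 1
    · left; rw [ha]
    · right
      change tens (JJ (α u)) 1 (dl ((1 : Λ), (1 : Λ))) (a, a) = 0
      rw [tens_dl, tv_apply]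
      change _ * (dl 1 : Ell2 Λ) a = 0
      rw [dl_apply, if_neg ha, mul_zero]
  · left; exact hab

open scoped Classical in
theorem inner_VR₂ (u s : Γ) : ⟪VV α u (dl 1), RR₂ α s (dl 1)⟫_ℂ =
    if u = 1 ∧ s = 1 then 1 else 0 := by
  rw [inner_of_supp (supp_VV hα u) (supp_RR₂ s), coef_VV hα, coef_RR₂ hα]
  by_cases hu : u = 1 <;> by_cases hs : s = 1 <;> simp [hu, hs]

open scoped Classical in
theorem inner_VR₁ (u s : Γ) : ⟪VV α u (dl 1), RR₁ α s (dl 1)⟫_ℂ =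
    if u = 1 ∧ s = 1 then 1 else 0 := by
  rw [inner_of_supp (supp_VV hα u) (supp_RR₁ s), coef_VV hα, coef_RR₁ hα]
  by_cases hu : u = 1 <;> by_cases hs : s = 1 <;> simp [hu, hs]

omit hα in
open scoped Classical in
theorem orth_gen {R V : Γ →* (Ell2 (Λ × Λ) →L[ℂ] Ell2 (Λ × Λ))}
    (hR : ∀ g, adjoint (R g) = R g⁻¹) (hV : ∀ g, adjoint (V g) = V g⁻¹)
    (hc : ∀ g h, V g * R h = R h * V g) {ω : Ell2 (Λ × Λ)}
    (hi : ∀ u s, ⟪V u ω, R s ω⟫_ℂ = if u = 1 ∧ s = 1 then 1 else 0) :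
    Orthonormal ℂ fun p : Γ × Γ => R p.2 (V p.1 ω) := by
  rw [orthonormal_iff_ite]
  rintro ⟨v, s⟩ ⟨v', s'⟩
  change ⟪R s (V v ω), R s' (V v' ω)⟫_ℂ = _
  have e1 : R s (V v ω) = V v (R s ω) :=
    congrArg (fun T : Ell2 (Λ × Λ) →L[ℂ] Ell2 (Λ × Λ) => T ω) (hc v s).symm
  have e2 : ⟪R s (V v ω), R s' (V v' ω)⟫_ℂ = ⟪V (v'⁻¹ * v) ω, R (s⁻¹ * s') ω⟫_ℂ := by
    rw [← adjoint_inner_right, hR]
    have e3 : R s⁻¹ (R s' (V v' ω)) = V v' (R (s⁻¹ * s') ω) := by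
      have e4 : R s⁻¹ (R s' (V v' ω)) = R (s⁻¹ * s') (V v' ω) := by rw [map_mul]; rfl
      rw [e4]
      exact congrArg (fun T : Ell2 (Λ × Λ) →L[ℂ] Ell2 (Λ × Λ) => T ω) (hc v' (s⁻¹ * s')).symm
    rw [e3, ← adjoint_inner_left, hV]
    have e5 : V v'⁻¹ (V v ω) = V (v'⁻¹ * v) ω := by rw [map_mul]; rfl
    rw [e5]
  rw [e2, hi]
  refine if_congr ?_ rfl rfl
  rw [inv_mul_eq_one, inv_mul_eq_one, Prod.mk.injEq]
  exact ⟨fun h => ⟨h.1.symm, h.2⟩, fun h => ⟨h.1.symm, h.2⟩⟩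

theorem orth_VR₂ : Orthonormal ℂ fun p : Γ × Γ => RR₂ α p.2 (VV α p.1 (dl 1 : Ell2 (Λ × Λ))) :=
  orth_gen (adj_RR₂ hα) (adj_VV hα) (comm_VV₂ hα) (inner_VR₂ hα)

theorem orth_VR₁ : Orthonormal ℂ fun p : Γ × Γ => RR₁ α p.2 (VV α p.1 (dl 1 : Ell2 (Λ × Λ))) :=
  orth_gen (adj_RR₁ hα) (adj_VV hα) (comm_VV₁ hα) (inner_VR₁ hα)

end fibre

/-! ### the picture -/

section pic

variable {E : Type} [Group E] [TopologicalSpace E] [IsTopologicalGroup E] [LocallyCompactSpace E]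
  [SecondCountableTopology E] [T2Space E] [MeasurableSpace E] [BorelSpace E]
  {Γ : Subgroup E} [DiscreteTopology Γ] [MeasurableSpace (E ⧸ Γ)] [BorelSpace (E ⧸ Γ)]
  {ν : Measure (E ⧸ Γ)} [IsProbabilityMeasure ν] [Countable Γ]
  (hν : ∀ g : E, ν.map (fun x => g • x) = ν)
  {Λ : Type} [Group Λ] {α : Γ →* (Ell2 Λ →L[ℂ] Ell2 Λ)} (hα : Frame α)

/-- the multiplication operators of the first leg -/
noncomputable def mS₁ (ν : Measure (E ⧸ Γ)) (hα : Frame α) (S : Set Γ) : KK ν Λ →L[ℂ] KK ν Λ :=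
  H368.mm ν (bF₁ hα) Prod.fst S

/-- the multiplication operators of the second leg -/
noncomputable def mS₂ (ν : Measure (E ⧸ Γ)) (hα : Frame α) (S : Set Γ) : KK ν Λ →L[ℂ] KK ν Λ :=
  H368.mm ν (bF₂ hα) Prod.fst S

theorem ms₁ : SD.Ms (lam₁ ν α) (XX ν Λ ∪ Set.range (lam₂ ν α)) (Om ν Λ) (mS₁ ν hα) := by
  refine H368.ms_inst (bF₁ hα) (bF₁_ap hα) (fun g h => comm_RR g h) (fun γ => rfl)
    (fun A hA => Or.inl ⟨A, hA, rfl⟩) (fun s => Or.inr ⟨s, rfl⟩) ?_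
  rintro w (⟨A, hA, rfl⟩ | ⟨s, rfl⟩)
  · exact Or.inl ⟨A, hA, rfl⟩
  · exact Or.inr ⟨s, rfl⟩

theorem ms₂ : SD.Ms (lam₂ ν α) (XX ν Λ ∪ Set.range (lam₁ ν α)) (Om ν Λ) (mS₂ ν hα) := by
  refine H368.ms_inst (bF₂ hα) (bF₂_ap hα) (fun g h => (comm_RR h g).symm) (fun γ => rfl)
    (fun A hA => Or.inl ⟨A, hA, rfl⟩) (fun s => Or.inr ⟨s, rfl⟩) ?_
  rintro w (⟨A, hA, rfl⟩ | ⟨s, rfl⟩)
  · exact Or.inl ⟨A, hA, rfl⟩
  · exact Or.inr ⟨s, rfl⟩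

theorem norm_dl_one : ‖(dl 1 : Ell2 (Λ × Λ))‖ ≤ 1 := (norm_dl 1).le

theorem uc₁ : SD.UC (pic hν hα) (XX ν Λ ∪ Set.range (lam₂ ν α)) (Om ν Λ) (mS₁ ν hα) :=
  uc_of hν (adj_VV hα) (fun A hA => Or.inl ⟨A, hA, rfl⟩) norm_dl_one
    (m₀ := H368.m0 (bF₁ hα) Prod.fst) fun S => H368.m0_norm S

theorem uc₂ : SD.UC (pic hν hα) (XX ν Λ ∪ Set.range (lam₁ ν α)) (Om ν Λ) (mS₂ ν hα) :=
  uc_of hν (adj_VV hα) (fun A hA => Or.inl ⟨A, hA, rfl⟩) norm_dl_one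
    (m₀ := H368.m0 (bF₂ hα) Prod.fst) fun S => H368.m0_norm S

/-- elements of the fixed algebra are fields with values in the commutant of the target -/
theorem exists_fld_mm (hα : Frame α) {Y : KK ν Λ →L[ℂ] KK ν Λ}
    (hY : ∀ A, MeasurableSet A → Y * H790.ind ν _ A = H790.ind ν _ A * Y)
    (hY1 : ∀ g, Y * lam₁ ν α g = lam₁ ν α g * Y) (hY2 : ∀ g, Y * lam₂ ν α g = lam₂ ν α g * Y) :
    ∃ A : E ⧸ Γ → Ell2 (Λ × Λ) →L[ℂ] Ell2 (Λ × Λ), H790.Fld Y A ∧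
      ∀ᵐ x ∂ν, Cmm (RR α) (A x) := by
  obtain ⟨A, -, -, hA⟩ := H34.Dcm.exists_fld (bF₁ hα) (T := Y) hY
  refine ⟨A, hA, ?_⟩
  have h1 : ∀ᵐ x ∂ν, ∀ p : Γ × Γ, A x * RR α p = RR α p * A x := by
    rw [ae_all_iff]
    rintro ⟨g, h⟩
    have e1 : Y * (RR α (g, h)).compLpL 2 ν = (RR α (g, h)).compLpL 2 ν * Y := by
      rw [RR_eq, H790.comp_mul]
      change Y * (lam₁ ν α g * lam₂ ν α h) = lam₁ ν α g * lam₂ ν α h * Y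
      rw [← mul_assoc, hY1, mul_assoc, hY2, mul_assoc]
    have e2 : H790.Fld (Y * (RR α (g, h)).compLpL 2 ν) (fun x => A x * RR α (g, h)) :=
      hA.mul (H790.fld_comp _)
    have e3 : H790.Fld (Y * (RR α (g, h)).compLpL 2 ν) (fun x => RR α (g, h) * A x) := by
      rw [e1]
      exact (H790.fld_comp _).mul hA
    exact H34.Ind.fld_unique (bF₁ hα) e2 e3
  filter_upwards [h1] with x hx p
  exact hx p

theorem trM_gen (hα : Frame α) {Y Z : KK ν Λ →L[ℂ] KK ν Λ}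
    (hY : ∀ A, MeasurableSet A → Y * H790.ind ν _ A = H790.ind ν _ A * Y)
    (hZ : ∀ A, MeasurableSet A → Z * H790.ind ν _ A = H790.ind ν _ A * Z)
    (hY1 : ∀ g, Y * lam₁ ν α g = lam₁ ν α g * Y) (hZ1 : ∀ g, Z * lam₁ ν α g = lam₁ ν α g * Z)
    (hY2 : ∀ g, Y * lam₂ ν α g = lam₂ ν α g * Y) (hZ2 : ∀ g, Z * lam₂ ν α g = lam₂ ν α g * Z) :
    ⟪Om ν Λ, Y (Z (Om ν Λ))⟫_ℂ = ⟪Om ν Λ, Z (Y (Om ν Λ))⟫_ℂ := by
  obtain ⟨A, hA, hAc⟩ := exists_fld_mm hα hY hY1 hY2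
  obtain ⟨B, hB, hBc⟩ := exists_fld_mm hα hZ hZ1 hZ2
  rw [L2.inner_def, L2.inner_def]
  refine integral_congr_ae ?_
  filter_upwards [hA (Z (Om ν Λ)), hA (Om ν Λ), hB (Y (Om ν Λ)), hB (Om ν Λ), hAc, hBc,
    Lp.coeFn_const (p := 2) (μ := ν) (dl 1 : Ell2 (Λ × Λ))] with x a1 a2 a3 a4 a5 a6 a7
  have a7' : (Om ν Λ : KK ν Λ) x = dl 1 := a7
  rw [a1, a3, a2, a4, a7']
  exact (regRep_RR hα).trace_comm a5 a6

theorem trM₁ (hα : Frame α) :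
    SD.TrM (lam₁ ν α) (XX ν Λ ∪ Set.range (lam₂ ν α)) (Om ν Λ) := by
  rintro Y ⟨hY, hY1⟩ Z ⟨hZ, hZ1⟩
  exact trM_gen hα (fun A hA => hY _ (Or.inl ⟨A, hA, rfl⟩)) (fun A hA => hZ _ (Or.inl ⟨A, hA, rfl⟩))
    hY1 hZ1 (fun g => hY _ (Or.inr ⟨g, rfl⟩)) (fun g => hZ _ (Or.inr ⟨g, rfl⟩))

theorem trM₂ (hα : Frame α) :
    SD.TrM (lam₂ ν α) (XX ν Λ ∪ Set.range (lam₁ ν α)) (Om ν Λ) := by
  rintro Y ⟨hY, hY1⟩ Z ⟨hZ, hZ1⟩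
  exact trM_gen hα (fun A hA => hY _ (Or.inl ⟨A, hA, rfl⟩)) (fun A hA => hZ _ (Or.inl ⟨A, hA, rfl⟩))
    (fun g => hY _ (Or.inr ⟨g, rfl⟩)) (fun g => hZ _ (Or.inr ⟨g, rfl⟩)) hY1 hZ1

theorem con_cst (R : Ell2 (Λ × Λ) →L[ℂ] Ell2 (Λ × Λ)) (v : Ell2 (Λ × Λ)) :
    R.compLpL 2 ν (cst ν v) = cst ν (R v) := by
  refine Lp.ext ?_
  filter_upwards [H790.fld_comp (μ := ν) R (cst ν v), cst_ae (ν := ν) v, cst_ae (ν := ν) (R v)]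
    with x h1 h2 h3
  rw [h1, h2, h3]

theorem cm_adj {K : Type} [NormedAddCommGroup K] [InnerProductSpace ℂ K] [CompleteSpace K]
    {W : Set (K →L[ℂ] K)} (hW : ∀ w ∈ W, adjoint w ∈ W) {T : K →L[ℂ] K} (hT : Cm W T) :
    Cm W (adjoint T) := by
  intro w hw
  have h1 := congrArg star (hT _ (hW w hw))
  rw [star_mul, star_mul, star_eq_adjoint, star_eq_adjoint, adjoint_adjoint] at h1
  exact h1.symm

theorem adj_mem₂ (hα : Frame α) :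
    ∀ w ∈ XX ν Λ ∪ Set.range (lam₂ ν α), adjoint w ∈ XX ν Λ ∪ Set.range (lam₂ ν α) := by
  rintro w (⟨A, hA, rfl⟩ | ⟨s, rfl⟩)
  · exact Or.inl ⟨A, hA, H790.adjoint_ind hA⟩
  · refine Or.inr ⟨s⁻¹, ?_⟩
    change (RR₂ α s⁻¹).compLpL 2 ν = adjoint ((RR₂ α s).compLpL 2 ν)
    rw [H790.comp_adjoint, adj_RR₂ hα]

theorem adj_mem₁ (hα : Frame α) :
    ∀ w ∈ XX ν Λ ∪ Set.range (lam₁ ν α), adjoint w ∈ XX ν Λ ∪ Set.range (lam₁ ν α) := by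
  rintro w (⟨A, hA, rfl⟩ | ⟨s, rfl⟩)
  · exact Or.inl ⟨A, hA, H790.adjoint_ind hA⟩
  · refine Or.inr ⟨s⁻¹, ?_⟩
    change (RR₁ α s⁻¹).compLpL 2 ν = adjoint ((RR₁ α s).compLpL 2 ν)
    rw [H790.comp_adjoint, adj_RR₁ hα]

theorem orth_RR₂₁ (hα : Frame α) :
    Orthonormal ℂ fun p : Γ × Γ => RR₂ α p.2 (RR₁ α p.1 (dl 1 : Ell2 (Λ × Λ))) := by
  have h1 : (fun p : Γ × Γ => RR₂ α p.2 (RR₁ α p.1 (dl 1 : Ell2 (Λ × Λ)))) =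
      fun p => RR α p (dl 1) := funext fun p => RR_ap' _ _ _
  rw [h1]
  exact (regRep_RR hα).orthonormal

theorem orth_RR₁₂ (hα : Frame α) :
    Orthonormal ℂ fun p : Γ × Γ => RR₁ α p.2 (RR₂ α p.1 (dl 1 : Ell2 (Λ × Λ))) := by
  have h1 : (fun p : Γ × Γ => RR₁ α p.2 (RR₂ α p.1 (dl 1 : Ell2 (Λ × Λ)))) =
      (fun p => RR α p (dl 1)) ∘ Prod.swap := funext fun p => RR_ap _ _ _
  rw [h1]
  exact (regRep_RR hα).orthonormal.comp _ Prod.swap_injective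

theorem trn_le₁ (hα : Frame α) {B : KK ν Λ →L[ℂ] KK ν Λ}
    (hB : Cm (XX ν Λ ∪ Set.range (lam₂ ν α)) B) :
    TRN (lam₁ ν α) (Om ν Λ) B ≤ TRN (lam₁ ν α) (Om ν Λ) (adjoint B) := by
  have h1 := hs_le (ν := ν) (V := RR₁ α) (T := fun s => RR₂ α s)
    (d := fun k => RR₁ α k (dl 1)) (orth_RR₂₁ hα) (pars₁ hα) (B := B)
    (fun A hA => hB _ (Or.inl ⟨A, hA, rfl⟩)) (fun s => hB _ (Or.inr ⟨s, rfl⟩))
  refine h1.trans (le_of_eq (tsum_congr fun k => ?_))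
  rw [← con_cst]
  rfl

theorem trn_le₂ (hα : Frame α) {B : KK ν Λ →L[ℂ] KK ν Λ}
    (hB : Cm (XX ν Λ ∪ Set.range (lam₁ ν α)) B) :
    TRN (lam₂ ν α) (Om ν Λ) B ≤ TRN (lam₂ ν α) (Om ν Λ) (adjoint B) := by
  have h1 := hs_le (ν := ν) (V := RR₂ α) (T := fun s => RR₁ α s)
    (d := fun k => RR₂ α k (dl 1)) (orth_RR₁₂ hα) (pars₂ hα) (B := B)
    (fun A hA => hB _ (Or.inl ⟨A, hA, rfl⟩)) (fun s => hB _ (Or.inr ⟨s, rfl⟩))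
  refine h1.trans (le_of_eq (tsum_congr fun k => ?_))
  rw [← con_cst]
  rfl

/-- the trace number is invariant under adjoints -/
theorem trn_adj₁ (hα : Frame α) {T : KK ν Λ →L[ℂ] KK ν Λ}
    (hT : Cm (XX ν Λ ∪ Set.range (lam₂ ν α)) T) :
    TRN (lam₁ ν α) (Om ν Λ) (adjoint T) = TRN (lam₁ ν α) (Om ν Λ) T := by
  have h1 := trn_le₁ hα (cm_adj (adj_mem₂ hα) hT)
  rw [adjoint_adjoint] at h1
  exact le_antisymm h1 (trn_le₁ hα hT)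

theorem trn_adj₂ (hα : Frame α) {T : KK ν Λ →L[ℂ] KK ν Λ}
    (hT : Cm (XX ν Λ ∪ Set.range (lam₁ ν α)) T) :
    TRN (lam₂ ν α) (Om ν Λ) (adjoint T) = TRN (lam₂ ν α) (Om ν Λ) T := by
  have h1 := trn_le₂ hα (cm_adj (adj_mem₁ hα) hT)
  rw [adjoint_adjoint] at h1
  exact le_antisymm h1 (trn_le₂ hα hT)

end pic

section orb

variable [LocallyCompactSpace (SD.G3 ℝ)] [SecondCountableTopology (SD.G3 ℝ)] [T2Space (SD.G3 ℝ)]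
  [MeasurableSpace (SD.G3 ℝ)] [BorelSpace (SD.G3 ℝ)] {Γ : Subgroup (SD.G3 ℝ)}
  [DiscreteTopology Γ] [MeasurableSpace (SD.G3 ℝ ⧸ Γ)] [BorelSpace (SD.G3 ℝ ⧸ Γ)]
  {ν : Measure (SD.G3 ℝ ⧸ Γ)} [IsProbabilityMeasure ν] [Countable Γ]
  (hν : ∀ g : SD.G3 ℝ, ν.map (fun x => g • x) = ν)
  {Λ : Type} [Group Λ] {α : Γ →* (Ell2 Λ →L[ℂ] Ell2 Λ)} (hα : Frame α)

theorem orb₁ (w : ℝˣ) : SD.ORB (volume : Measure ℝ) w (pic hν hα) (lam₁ ν α)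
    (XX ν Λ ∪ Set.range (lam₂ ν α)) (Om ν Λ) :=
  orb_of hν (adj_VV hα) (fun A hA => Or.inl ⟨A, hA, rfl⟩) (T := fun s => RR₂ α s)
    (fun s => Or.inr ⟨s, rfl⟩) norm_dl_one (d := fun k => RR₁ α k (dl 1))
    (fun k => con_cst (RR₁ α k) (dl 1)) (orth_VR₂ hα) (pars₁ hα) fun T hT => trn_adj₁ hα hT

theorem orb₂ (w : ℝˣ) : SD.ORB (volume : Measure ℝ) w (pic hν hα) (lam₂ ν α)
    (XX ν Λ ∪ Set.range (lam₁ ν α)) (Om ν Λ) :=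
  orb_of hν (adj_VV hα) (fun A hA => Or.inl ⟨A, hA, rfl⟩) (T := fun s => RR₁ α s)
    (fun s => Or.inr ⟨s, rfl⟩) norm_dl_one (d := fun k => RR₂ α k (dl 1))
    (fun k => con_cst (RR₂ α k) (dl 1)) (orth_VR₁ hα) (pars₂ hα) fun T hT => trn_adj₂ hα hT

end orb

end Vale.Agent.P092.H103
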