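import Vale.Agent.P092.H103.Lat2
import Vale.Agent.P092.H132.Ract
import Vale.Agent.P092.H933.HM3

/-!
P092 (helper103), team C, block [C-A1]: decomposable operators on `L²(E / Λ; K)`, with values in the
commutant of the regular representation `ρ`, which commute with the induced representation of a set
`R` having the Moore property, are scalar.
-/

set_option linter.all false

open scoped InnerProductSpace ENNReal
open Set Filter Topology MeasureTheory ContinuousLinearMap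

namespace Vale.Agent.P092.H103

open Vale.Agent.P092.H790 Vale.Agent.P092.H85 Vale.Agent.P092.H160

/-- Vectors fixed by `R` in a unitary representation of `E` are fixed by `E`. -/
def MooreSet (E : Type) [Group E] [TopologicalSpace E] (R : Set E) : Prop :=
  ∀ (𝓗 : Type) [NormedAddCommGroup 𝓗] [InnerProductSpace ℂ 𝓗] [CompleteSpace 𝓗]
    (σ : E →* (𝓗 →L[ℂ] 𝓗)), H933.URep σ → ∀ ξ : 𝓗, (∀ q ∈ R, σ q ξ = ξ) → ∀ g, σ g ξ = ξ

section ae

variable {E : Type} [Group E] [TopologicalSpace E] [IsTopologicalGroup E] [LocallyCompactSpace E]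
  [SecondCountableTopology E] [T2Space E] [MeasurableSpace E] [BorelSpace E]
  {Λ : Subgroup E} [DiscreteTopology Λ] [MeasurableSpace (E ⧸ Λ)] [BorelSpace (E ⧸ Λ)]
  {ν : Measure (E ⧸ Λ)} [IsProbabilityMeasure ν] (hν : ∀ g : E, ν.map (fun x => g • x) = ν)
  {K : Type} [NormedAddCommGroup K] [InnerProductSpace ℂ K] [CompleteSpace K]
  {π : Λ →* (K →L[ℂ] K)} (hπ : ∀ g, adjoint (π g) = π g⁻¹) [Countable Λ]

include hν in
/-- Measurable functions on `E / Λ` which are invariant, for each `g`, almost everywhere, are almost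
everywhere constant. -/
theorem ae_const {Y : Type*} [MetricSpace Y] {f : E ⧸ Λ → Y} (hfm : StronglyMeasurable f)
    (hall : ∀ g : E, ∀ᵐ x ∂ν, f (g • x) = f x) : ∃ c, ∀ᵐ x ∂ν, f x = c := by
  haveI hcl : IsClosed (Λ : Set E) := Subgroup.isClosed_of_discrete
  have hsm : Measurable fun p : E × (E ⧸ Λ) => p.1 • p.2 := continuous_smul.measurable
  have hNm : MeasurableSet {p : E × (E ⧸ Λ) | f (p.1 • p.2) = f p.2} :=
    StronglyMeasurable.measurableSet_eq_fun (hfm.comp_measurable hsm)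
      (hfm.comp_measurable measurable_snd)
  set m : Measure E := Measure.haar with hm
  have h2 : ∀ᵐ x ∂ν, ∀ᵐ g ∂m, f (g • x) = f x :=
    (Measure.ae_ae_comm (μ := m) (ν := ν) hNm).1 (Eventually.of_forall hall)
  obtain ⟨x₀, hx₀⟩ := h2.exists
  refine ⟨f x₀, ?_⟩
  have hZm : MeasurableSet {p : E × (E ⧸ Λ) | f (p.1 • p.2) = f x₀} :=
    StronglyMeasurable.measurableSet_eq_fun (hfm.comp_measurable hsm) stronglyMeasurable_const
  have h3 : ∀ x : E ⧸ Λ, ∀ᵐ g ∂m, f (g • x) = f x₀ := by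
    intro x
    obtain ⟨a, ha⟩ : ∃ a : E, a • x₀ = x := MulAction.exists_smul_eq E x₀ x
    rw [ae_iff] at hx₀ ⊢
    have h4 := (measure_mul_right_null m a (s := {g | ¬ f (g • x₀) = f x₀})).2 hx₀
    have e : {g : E | ¬ f (g • x) = f x₀} = (fun g => g * a) ⁻¹' {g | ¬ f (g • x₀) = f x₀} := by
      ext g
      simp only [mem_setOf_eq, mem_preimage]
      rw [mul_smul, ha]
    rw [e]
    exact h4
  have h4 : ∀ᵐ g ∂m, ∀ᵐ x ∂ν, f (g • x) = f x₀ :=
    (Measure.ae_ae_comm (μ := m) (ν := ν) (p := fun g x => f (g • x) = f x₀) hZm).2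
      (Eventually.of_forall h3)
  haveI : NeZero m := ⟨by
    rw [hm]
    exact NeZero.ne _⟩
  obtain ⟨g, hg⟩ := h4.exists
  have h5 := ae_comp (mpres hν g⁻¹) hg
  filter_upwards [h5] with x hx
  rwa [smul_inv_smul] at hx

include hπ in
/-- An invariant vector of the induced representation has invariant values. -/
theorem fixed_ae (η : Lp K 2 ν) (hη : ∀ g, iro hν π g η = η) :
    ∀ᵐ x ∂ν, ∀ γ, π γ (η x) = η x := by
  obtain ⟨f, hf⟩ : ∃ f : E ⧸ Λ → K, f = ⇑η := ⟨_, rfl⟩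
  have hfm : StronglyMeasurable f := by rw [hf]; exact Lp.stronglyMeasurable η
  haveI hcl : IsClosed (Λ : Set E) := Subgroup.isClosed_of_discrete
  have hsm : Measurable fun p : E × (E ⧸ Λ) => p.1 • p.2 := continuous_smul.measurable
  have hcm : ∀ v : Λ, MeasurableSet {p : E × (E ⧸ Λ) | coc Λ p.1 p.2 = v} := by
    intro v
    have e : {p : E × (E ⧸ Λ) | coc Λ p.1 p.2 = v} =
        (fun p : E × (E ⧸ Λ) => (sec Λ (p.1 • p.2))⁻¹ * p.1 * sec Λ p.2) ⁻¹' {(v : E)} := by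
      ext p
      simp [Subtype.ext_iff, coc_coe]
    rw [e]
    have h1 : Measurable fun p : E × (E ⧸ Λ) => (sec Λ (p.1 • p.2))⁻¹ * p.1 * sec Λ p.2 :=
      ((((sec_meas Λ).comp hsm).inv.mul measurable_fst).mul ((sec_meas Λ).comp measurable_snd))
    exact h1 (measurableSet_singleton _)
  have hNm : MeasurableSet {p : E × (E ⧸ Λ) | f (p.1 • p.2) = π (coc Λ p.1 p.2) (f p.2)} := by
    have e : {p : E × (E ⧸ Λ) | f (p.1 • p.2) = π (coc Λ p.1 p.2) (f p.2)} =
        ⋃ v : Λ, ({p : E × (E ⧸ Λ) | coc Λ p.1 p.2 = v} ∩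
          {p : E × (E ⧸ Λ) | f (p.1 • p.2) = π v (f p.2)}) := by
      ext p
      constructor
      · intro hp
        exact mem_iUnion.2 ⟨coc Λ p.1 p.2, rfl, hp⟩
      · intro hp
        obtain ⟨v, hv1, hv2⟩ := mem_iUnion.1 hp
        have hv1' : coc Λ p.1 p.2 = v := hv1
        change f (p.1 • p.2) = π (coc Λ p.1 p.2) (f p.2)
        rw [hv1']
        exact hv2
    rw [e]
    refine MeasurableSet.iUnion fun v => (hcm v).inter ?_
    have s1 : StronglyMeasurable fun p : E × (E ⧸ Λ) => f (p.1 • p.2) := hfm.comp_measurable hsm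
    have s2 : StronglyMeasurable fun p : E × (E ⧸ Λ) => π v (f p.2) :=
      (π v).continuous.comp_stronglyMeasurable (hfm.comp_measurable measurable_snd)
    exact StronglyMeasurable.measurableSet_eq_fun s1 s2
  have hall : ∀ g : E, ∀ᵐ x ∂ν, f (g • x) = π (coc Λ g x) (f x) := by
    intro g
    have h1 := iro_ae hν hπ g η
    rw [hη g, ← hf] at h1
    have h2 := ae_comp (mpres hν g) h1
    filter_upwards [h2] with x hx
    rw [inv_smul_smul] at hx
    exact hx
  set m : Measure E := Measure.haar with hm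
  have h2 : ∀ᵐ x ∂ν, ∀ᵐ g ∂m, f (g • x) = π (coc Λ g x) (f x) :=
    (Measure.ae_ae_comm (μ := m) (ν := ν) hNm).1 (Eventually.of_forall hall)
  rw [← hf]
  filter_upwards [h2] with x hx γ
  set σ : E := sec Λ x with hσ
  set k : E := σ * (γ : E) * σ⁻¹ with hk
  have hkx : k • x = x := by
    have e1 : ((σ : E) : E ⧸ Λ) = x := sec_coe Λ x
    rw [← e1]
    change ((k * σ : E) : E ⧸ Λ) = _
    rw [hk, inv_mul_cancel_right]
    rw [QuotientGroup.eq]
    have : (σ * (γ : E))⁻¹ * σ = ((γ⁻¹ : Λ) : E) := by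
      rw [Subgroup.coe_inv]; group
    rw [this]
    exact (γ⁻¹).2
  have hck : coc Λ k x = γ := by
    apply Subtype.ext
    rw [coc_coe, hkx, ← hσ, hk]
    group
  have hx' : ∀ᵐ g ∂m, f ((g * k) • x) = π (coc Λ (g * k) x) (f x) := by
    rw [ae_iff] at hx ⊢
    have := (measure_mul_right_null m k (s := {g | ¬ f (g • x) = π (coc Λ g x) (f x)})).2 hx
    exact this
  haveI : NeZero m := ⟨by
    rw [hm]
    exact NeZero.ne _⟩
  obtain ⟨g, hg1, hg2⟩ := (hx.and hx').exists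
  rw [mul_smul, hkx, coc_mul, hkx, hck, map_mul, hg1] at hg2
  have h5 : π (coc Λ g x)⁻¹ (π (coc Λ g x) (f x)) =
      π (coc Λ g x)⁻¹ ((π (coc Λ g x) * π γ) (f x)) := by rw [hg2]
  have h6 : ∀ w, π (coc Λ g x)⁻¹ (π (coc Λ g x) w) = w := by
    intro w
    have : (π (coc Λ g x)⁻¹ * π (coc Λ g x)) w = w := by
      rw [← map_mul, inv_mul_cancel, map_one]; rfl
    exact this
  rw [h6] at h5
  have h7 : π (coc Λ g x)⁻¹ ((π (coc Λ g x) * π γ) (f x)) = π γ (f x) := h6 _
  rw [h7] at h5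
  exact h5.symm

end ae

section cjr

variable {Γ Λ K : Type} [Group Γ] [Group Λ] [NormedAddCommGroup K] [InnerProductSpace ℂ K]
  [CompleteSpace K] {ρ : Γ →* (K →L[ℂ] K)} {ω : K}

/-- The conjugation representation `m ω ↦ V m V* ω` on the space of the regular representation. -/
noncomputable def cjr (h : RegRep ρ ω) (V : Λ →* (K →L[ℂ] K)) (hc : ∀ v, Cmm ρ (V v)) :
    Λ →* (K →L[ℂ] K) where
  toFun v := V v * H132.jop h (V v)
  map_one' := by rw [map_one, H132.jop_one, mul_one]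
  map_mul' a b := by
    rw [map_mul, H132.jop_mul]
    calc V a * V b * (H132.jop h (V a) * H132.jop h (V b))
        = V a * (V b * H132.jop h (V a)) * H132.jop h (V b) := by simp only [mul_assoc]
      _ = V a * (H132.jop h (V a) * V b) * H132.jop h (V b) := by
          rw [H132.jop_comm h (hc a) (hc b)]
      _ = _ := by simp only [mul_assoc]

theorem cjr_apply (h : RegRep ρ ω) (V : Λ →* (K →L[ℂ] K)) (hc : ∀ v, Cmm ρ (V v)) (v : Λ) :
    cjr h V hc v = V v * H132.jop h (V v) := rfl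

theorem cjr_apply' (h : RegRep ρ ω) (V : Λ →* (K →L[ℂ] K)) (hc : ∀ v, Cmm ρ (V v)) (v : Λ) :
    cjr h V hc v = H132.jop h (V v) * V v := by
  rw [cjr_apply, H132.jop_comm h (hc v) (hc v)]

theorem cjr_adj (h : RegRep ρ ω) {V : Λ →* (K →L[ℂ] K)} (hVa : ∀ v, adjoint (V v) = V v⁻¹)
    (hc : ∀ v, Cmm ρ (V v)) (v : Λ) : adjoint (cjr h V hc v) = cjr h V hc v⁻¹ := by
  rw [cjr_apply, cjr_apply', ← star_eq_adjoint, star_mul, star_eq_adjoint, star_eq_adjoint,
    H132.adjoint_jop, hVa]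

theorem cjr_omega (h : RegRep ρ ω) {V : Λ →* (K →L[ℂ] K)} (hVa : ∀ v, adjoint (V v) = V v⁻¹)
    (hc : ∀ v, Cmm ρ (V v)) (v : Λ) : cjr h V hc v ω = ω := by
  rw [cjr_apply, mul_ap, H132.jop_omega h (hc v), hVa, ← mul_ap, ← map_mul, mul_inv_cancel,
    map_one]
  rfl

/-- An operator `A` of the commutant of `ρ`, with `A ω` fixed by the conjugation representation,
commutes with `V`. -/
theorem cmm_of_fix (h : RegRep ρ ω) {V : Λ →* (K →L[ℂ] K)} (hVa : ∀ v, adjoint (V v) = V v⁻¹)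
    (hc : ∀ v, Cmm ρ (V v)) {A : K →L[ℂ] K} (hA : Cmm ρ A)
    (hf : ∀ v, cjr h V hc v (A ω) = A ω) : Cmm V A := by
  intro v
  have e1 : V v⁻¹ ω = H132.jop h (V v) ω := by rw [H132.jop_omega h (hc v), hVa]
  have h1 : V v * A * V v⁻¹ = A := by
    refine h.ext_cmm (((hc v).mul hA).mul (hc v⁻¹)) hA ?_
    rw [mul_ap, e1, mul_ap, ← mul_ap A, ← H132.jop_comm h (hc v) hA, mul_ap, ← mul_ap (V v)]
    exact hf v
  calc A * V v = V v * A * V v⁻¹ * V v := by rw [h1]
    _ = V v * A := by rw [mul_assoc, ← map_mul, inv_mul_cancel, map_one, mul_one]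

end cjr

section a1

variable {E : Type} [Group E] [TopologicalSpace E] [IsTopologicalGroup E] [LocallyCompactSpace E]
  [SecondCountableTopology E] [T2Space E] [MeasurableSpace E] [BorelSpace E]
  {Λ : Subgroup E} [DiscreteTopology Λ] [MeasurableSpace (E ⧸ Λ)] [BorelSpace (E ⧸ Λ)]
  {ν : Measure (E ⧸ Λ)} [IsProbabilityMeasure ν] (hν : ∀ g : E, ν.map (fun x => g • x) = ν)
  {Γ K : Type} [Group Γ] [NormedAddCommGroup K] [InnerProductSpace ℂ K] [CompleteSpace K]
  {ρ : Γ →* (K →L[ℂ] K)} {ω : K} [Countable Λ]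

/-- The operator commutes with the multiplications by indicator functions. -/
def Dcp (T : Lp K 2 ν →L[ℂ] Lp K 2 ν) : Prop :=
  ∀ A : Set (E ⧸ Λ), MeasurableSet A → T * H790.ind ν K A = H790.ind ν K A * T

theorem set_eq_of_ind {ξ η : Lp K 2 ν} {I : Type*} [Countable I] {k : E ⧸ Λ → I}
    (hk : ∀ i, MeasurableSet {x | k x = i})
    (h : ∀ i, H790.ind ν K {x | k x = i} ξ = H790.ind ν K {x | k x = i} η) : ξ = η := by
  refine Lp.ext ?_
  have h1 : ∀ᵐ x ∂ν, ∀ i, ({x | k x = i}.indicator ξ : E ⧸ Λ → K) x =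
      ({x | k x = i}.indicator η : E ⧸ Λ → K) x := by
    refine ae_all_iff.2 fun i => ?_
    filter_upwards [ind_ae (hk i) ξ, ind_ae (hk i) η] with x h2 h3
    rw [← h2, ← h3, h i]
  filter_upwards [h1] with x hx
  have h2 := hx (k x)
  rwa [Set.indicator_of_mem (show x ∈ {y | k y = k x} from rfl),
    Set.indicator_of_mem (show x ∈ {y | k y = k x} from rfl)] at h2

/-- A decomposable operator which commutes with the constant fields `B v` commutes with the fields
`x ↦ B (k x)`. -/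
theorem Dcp.fld {T : Lp K 2 ν →L[ℂ] Lp K 2 ν} (hT : Dcp T) {I : Type*} [Countable I]
    {k : E ⧸ Λ → I} (hk : ∀ i, MeasurableSet {x | k x = i}) {B : I → K →L[ℂ] K}
    (hB : ∀ i, T * (B i).compLpL 2 ν = (B i).compLpL 2 ν * T) {S : Lp K 2 ν →L[ℂ] Lp K 2 ν}
    (hS : Fld S fun x => B (k x)) : T * S = S * T := by
  have key : ∀ i (ξ : Lp K 2 ν), H790.ind ν K {x | k x = i} (S ξ) =
      H790.ind ν K {x | k x = i} ((B i).compLpL 2 ν ξ) := by
    intro i ξ
    refine Lp.ext ?_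
    filter_upwards [ind_ae (hk i) (S ξ), ind_ae (hk i) ((B i).compLpL 2 ν ξ), hS ξ,
      (B i).coeFn_compLpL (p := 2) ξ] with x h1 h2 h3 h4
    rw [h1, h2]
    by_cases hx : k x = i
    · rw [Set.indicator_of_mem (show x ∈ {y | k y = i} from hx),
        Set.indicator_of_mem (show x ∈ {y | k y = i} from hx), h3, h4, hx]
    · rw [Set.indicator_of_notMem (show x ∉ {y | k y = i} from hx),
        Set.indicator_of_notMem (show x ∉ {y | k y = i} from hx)]
  ext1 ξ
  refine set_eq_of_ind hk fun i => ?_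
  have e1 := congrArg (fun X : Lp K 2 ν →L[ℂ] Lp K 2 ν => X (S ξ)) (hT _ (hk i))
  have e2 := congrArg (fun X : Lp K 2 ν →L[ℂ] Lp K 2 ν => X ((B i).compLpL 2 ν ξ)) (hT _ (hk i))
  have e3 := congrArg (fun X : Lp K 2 ν →L[ℂ] Lp K 2 ν => X ξ) (hB i)
  change T (H790.ind ν K {x | k x = i} (S ξ)) = H790.ind ν K {x | k x = i} (T (S ξ)) at e1
  change T (H790.ind ν K {x | k x = i} ((B i).compLpL 2 ν ξ)) =
    H790.ind ν K {x | k x = i} (T ((B i).compLpL 2 ν ξ)) at e2
  change T ((B i).compLpL 2 ν ξ) = (B i).compLpL 2 ν (T ξ) at e3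
  change H790.ind ν K {x | k x = i} (T (S ξ)) = H790.ind ν K {x | k x = i} (S (T ξ))
  rw [← e1, key i ξ, e2, e3, key i (T ξ)]

include hν in
/-- **[C-A1]** -/
theorem a1 (h : RegRep ρ ω) {V : Λ →* (K →L[ℂ] K)} (hVa : ∀ v, adjoint (V v) = V v⁻¹)
    (hc : ∀ v, Cmm ρ (V v)) (hirr : ∀ A : K →L[ℂ] K, Cmm ρ A → Cmm V A → ∃ c : ℂ, A = c • 1)
    {R : Set E} (hM : MooreSet E R) {T : Lp K 2 ν →L[ℂ] Lp K 2 ν} (hT : Dcp T)
    (hTρ : ∀ s, T * (ρ s).compLpL 2 ν = (ρ s).compLpL 2 ν * T)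
    (hTq : ∀ q ∈ R, T * iro hν V q = iro hν V q * T) : ∃ c : ℂ, T = c • 1 := by
  have hja : ∀ v, adjoint (cjr h V hc v) = cjr h V hc v⁻¹ := fun v => cjr_adj h hVa hc v
  -- constant fields
  obtain ⟨Ω, hΩ⟩ : ∃ Ω : Lp K 2 ν, Ω = Lp.const 2 ν ω := ⟨_, rfl⟩
  have hΩae : ∀ᵐ x ∂ν, Ω x = ω := by
    rw [hΩ]; exact Lp.coeFn_const ..
  obtain ⟨w, hw⟩ : ∃ w : Lp K 2 ν, w = T Ω := ⟨_, rfl⟩
  -- Claim 1
  have c1 : ∀ v : Λ, T * (H132.jop h (V v)).compLpL 2 ν = (H132.jop h (V v)).compLpL 2 ν * T := by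
    intro v
    refine H132.comm_of_slices (𝒮 := Set.range ρ) ?_ fun Y hY => ?_
    · rintro _ ⟨s, rfl⟩
      exact hTρ s
    · exact (H132.jop_comm h (hc v) fun g => hY _ ⟨g, rfl⟩).symm
  have hjb : ∀ v : Λ, ‖H132.jop h (V v)‖ ≤ 1 := by
    intro v
    refine ContinuousLinearMap.opNorm_le_bound _ zero_le_one fun x => ?_
    rw [H132.jop_apply, H132.norm_jj, Vale.Agent.P092.H885.u_norm hVa, H132.norm_jj, one_mul]
  -- the field of the modular conjugates of the cocycle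
  have hkm : ∀ (q : E) (v : Λ), MeasurableSet {x : E ⧸ Λ | coc Λ q (q⁻¹ • x) = v} := by
    intro q v
    exact (smul_meas Λ q⁻¹) (coc_meas Λ q v)
  have hθ : ∀ q : E, ∃ S : Lp K 2 ν →L[ℂ] Lp K 2 ν,
      Fld S fun x => H132.jop h (V (coc Λ q (q⁻¹ • x))) := by
    intro q
    refine ⟨_, fop_spec (C := 1) (fun y => ?_) fun x => hjb _⟩
    exact aesm_countable (F := fun v _ => H132.jop h (V v) y)
      (k := fun x : E ⧸ Λ => coc Λ q (q⁻¹ • x)) (hkm q) fun v => aestronglyMeasurable_const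
  have hfix : ∀ q ∈ R, iro hν (cjr h V hc) q w = w := by
    intro q hq
    obtain ⟨S, hS⟩ := hθ q
    have h1 : T * S = S * T := hT.fld (hkm q) c1 hS
    have h2 : ∀ ξ : Lp K 2 ν, iro hν (cjr h V hc) q ξ = S (iro hν V q ξ) := by
      intro ξ
      refine Lp.ext ?_
      filter_upwards [iro_ae hν hja q ξ, hS (iro hν V q ξ), iro_ae hν hVa q ξ] with x a1 a2 a3
      rw [a1, a2, a3, cjr_apply']
      rfl
    have h3 : iro hν (cjr h V hc) q Ω = Ω := by
      refine Lp.ext ?_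
      filter_upwards [iro_ae hν hja q Ω, hΩae, ae_comp (mpres hν q⁻¹) hΩae] with x a1 a2 a3
      rw [a1, a2, a3, cjr_omega h hVa hc]
    have e1 := congrArg (fun X : Lp K 2 ν →L[ℂ] Lp K 2 ν => X Ω) (hTq q hq)
    change T (iro hν V q Ω) = iro hν V q (T Ω) at e1
    have e2 := congrArg (fun X : Lp K 2 ν →L[ℂ] Lp K 2 ν => X (iro hν V q Ω)) h1
    change T (S (iro hν V q Ω)) = S (T (iro hν V q Ω)) at e2
    rw [h2, hw, ← e1, ← e2, ← h2, h3]
  have hfixE : ∀ g, iro hν (cjr h V hc) g w = w := by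
    have hcr := irep_crep hν hja
    have hU : H933.URep (irep hν hja) :=
      { iso := fun g ξ => Vale.Agent.P092.H885.u_norm hcr.adj g ξ
        cont := fun ξ => hcr.cont ξ }
    exact hM (Lp K 2 ν) (irep hν hja) hU w hfix
  have hwae := fixed_ae hν hja w hfixE
  have hwint : Integrable w ν := (Lp.memLp w).integrable (by norm_num)
  -- integrals
  have hsc : ∀ A : Set (E ⧸ Λ), MeasurableSet A → ∃ c : ℂ, ∫ x in A, w x ∂ν = c • ω := by
    intro A hA
    obtain ⟨L, hL⟩ : ∃ L : K →L[ℂ] K, L = adjoint (H132.isl A hA (measure_ne_top ν A)) ∘L T ∘L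
      H132.isl univ MeasurableSet.univ (measure_ne_top ν univ) := ⟨_, rfl⟩
    have hL1 : ∀ u u', ⟪u', L u⟫_ℂ = ⟪H132.isl A hA (measure_ne_top ν A) u',
        T (H132.isl univ MeasurableSet.univ (measure_ne_top ν univ) u)⟫_ℂ := by
      intro u u'
      rw [hL]
      change ⟪u', adjoint (H132.isl A hA (measure_ne_top ν A)) (T _)⟫_ℂ = _
      rw [adjoint_inner_right]
      rfl
    have hLρ : Cmm ρ L := by
      intro s
      ext1 u
      refine ext_inner_left ℂ fun u' => ?_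
      change ⟪u', L (ρ s u)⟫_ℂ = ⟪u', ρ s (L u)⟫_ℂ
      have e3 := congrArg (fun X : Lp K 2 ν →L[ℂ] Lp K 2 ν =>
        X (H132.isl univ MeasurableSet.univ (measure_ne_top ν univ) u)) (hTρ s)
      change T ((ρ s).compLpL 2 ν _) = (ρ s).compLpL 2 ν (T _) at e3
      rw [hL1, ← H132.comp_isl (ρ s), e3, h.inner_right s u', hL1, ← H132.comp_isl (ρ s⁻¹),
        ← h.adj, ← comp_adjoint, adjoint_inner_left]
    have hΩ' : H132.isl univ MeasurableSet.univ (measure_ne_top ν univ) ω = Ω := by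
      refine Lp.ext ?_
      rw [H132.isl_apply]
      filter_upwards [indicatorConstLp_coeFn (p := 2) (hs := MeasurableSet.univ)
        (hμs := measure_ne_top ν (univ : Set (E ⧸ Λ))) (c := ω), hΩae] with x a1 a2
      rw [a1, a2, Set.indicator_univ]
    have hLω : L ω = ∫ x in A, w x ∂ν := by
      refine ext_inner_left ℂ fun u' => ?_
      rw [hL1, hΩ', ← hw, H132.isl_apply, L2.inner_indicatorConstLp_eq_inner_setIntegral]
    have hLf : ∀ v, cjr h V hc v (L ω) = L ω := by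
      intro v
      rw [hLω, ← ContinuousLinearMap.integral_comp_comm _ hwint.integrableOn]
      refine integral_congr_ae (ae_restrict_of_ae ?_)
      filter_upwards [hwae] with x hx
      exact hx v
    obtain ⟨c, hc'⟩ := hirr L hLρ (cmm_of_fix h hVa hc hLρ hLf)
    refine ⟨c, ?_⟩
    rw [← hLω, hc']
    rfl
  have hwω : ∀ᵐ x ∂ν, w x = ⟪ω, w x⟫_ℂ • ω := by
    have hint2 : Integrable (fun x => ⟪ω, w x⟫_ℂ) ν := hwint.const_inner ω
    have hint3 : Integrable (fun x => ⟪ω, w x⟫_ℂ • ω) ν := hint2.smul_const ω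
    refine Integrable.ae_eq_of_forall_setIntegral_eq _ _ hwint hint3 fun A hA _ => ?_
    obtain ⟨c, hc'⟩ := hsc A hA
    have e1 : ∫ x in A, ⟪ω, w x⟫_ℂ • ω ∂ν = (∫ x in A, ⟪ω, w x⟫_ℂ ∂ν) • ω :=
      integral_smul_const _ _
    have e2 : ∫ x in A, ⟪ω, w x⟫_ℂ ∂ν = ⟪ω, ∫ x in A, w x ∂ν⟫_ℂ :=
      integral_inner hwint.integrableOn ω
    rw [e1, e2, hc', inner_smul_right, inner_self_eq_norm_sq_to_K, h.norm_one]
    simp
  -- the coefficient is constant
  obtain ⟨c, hcc⟩ : ∃ c : ℂ, ∀ᵐ x ∂ν, ⟪ω, w x⟫_ℂ = c := by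
    have hms : StronglyMeasurable fun x : E ⧸ Λ => ⟪ω, w x⟫_ℂ :=
      (innerSL ℂ ω).continuous.comp_stronglyMeasurable (Lp.stronglyMeasurable w)
    refine ae_const hν hms fun g => ?_
    have h1 := iro_ae hν hja g w
    rw [hfixE g] at h1
    have h2 := ae_comp (mpres hν g) h1
    filter_upwards [h2, hwae] with x hx hx2
    rw [inv_smul_smul] at hx
    rw [hx, hx2]
  have hwc : w = c • Ω := by
    refine Lp.ext ?_
    filter_upwards [hwω, hcc, hΩae, Lp.coeFn_smul c Ω] with x a1 a2 a3 a4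
    rw [a4, Pi.smul_apply, a3, a1, a2]
  refine ⟨c, ?_⟩
  refine H132.ext_isl fun A hA hμ k => ?_
  have hlin : T ∘L H132.isl A hA hμ = c • H132.isl A hA hμ := by
    refine ContinuousLinearMap.ext_on (s := Set.range fun g => ρ g ω) ?_ ?_
    · have h1 := h.basis.dense_span
      rw [← Submodule.dense_iff_topologicalClosure_eq_top] at h1
      have e : (Set.range fun g => ρ g ω) = Set.range h.basis := by
        congr 1
        funext g
        exact (h.basis_apply g).symm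
      rw [e]
      exact h1
    · rintro _ ⟨g, rfl⟩
      change T (H132.isl A hA hμ (ρ g ω)) = c • H132.isl A hA hμ (ρ g ω)
      have e1 : H132.isl A hA hμ (ρ g ω) = H790.ind ν K A ((ρ g).compLpL 2 ν Ω) := by
        refine Lp.ext ?_
        rw [H132.isl_apply]
        filter_upwards [indicatorConstLp_coeFn (p := 2) (hs := hA) (hμs := hμ) (c := ρ g ω),
          ind_ae hA ((ρ g).compLpL 2 ν Ω), (ρ g).coeFn_compLpL (p := 2) Ω, hΩae]
          with x a1 a2 a3 a4
        rw [a1, a2]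
        by_cases hx : x ∈ A
        · rw [Set.indicator_of_mem hx, Set.indicator_of_mem hx, a3, a4]
        · rw [Set.indicator_of_notMem hx, Set.indicator_of_notMem hx]
      have e2 := congrArg (fun X : Lp K 2 ν →L[ℂ] Lp K 2 ν => X ((ρ g).compLpL 2 ν Ω)) (hT A hA)
      have e3 := congrArg (fun X : Lp K 2 ν →L[ℂ] Lp K 2 ν => X Ω) (hTρ g)
      change T (H790.ind ν K A ((ρ g).compLpL 2 ν Ω)) =
        H790.ind ν K A (T ((ρ g).compLpL 2 ν Ω)) at e2
      change T ((ρ g).compLpL 2 ν Ω) = (ρ g).compLpL 2 ν (T Ω) at e3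
      rw [e1, e2, e3, ← hw, hwc, map_smul, map_smul]
  have h5 := congrArg (fun X : K →L[ℂ] Lp K 2 ν => X k) hlin
  exact h5

end a1

section inst

variable {n : Type} [Fintype n] [DecidableEq n] {k : Type} [NontriviallyNormedField k]

open Matrix Matrix.SpecialLinearGroup in
/-- One root group has the Moore property in `SL_n(k)`. -/
theorem mooreSet_root {i j : n} (hij : i ≠ j) :
    MooreSet (SpecialLinearGroup n k) (Set.range fun s : k => SpecialLinearGroup.transvection hij s) := by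
  intro 𝓗 _ _ _ σ hσ ξ hξ
  have hker := (hσ.len ξ).eq_top hij (fun t => by
    rw [H933.Len.mem_ker, hξ _ ⟨t, rfl⟩, sub_self, norm_zero])
  intro s
  have : s ∈ (hσ.len ξ).ker := by rw [hker]; trivial
  rw [H933.Len.mem_ker] at this
  exact sub_eq_zero.1 (norm_eq_zero.1 this)

theorem MooreSet.mono {E : Type} [Group E] [TopologicalSpace E] {R R' : Set E}
    (h : MooreSet E R) (hR : R ⊆ R') : MooreSet E R' :=
  fun 𝓗 _ _ _ σ hσ ξ hξ => h 𝓗 σ hσ ξ fun q hq => hξ q (hR hq)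

end inst

end Vale.Agent.P092.H103
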