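import Vale.Agent.P092.H103.FSet
import Vale.Agent.P092.H160.Comm

/-!
Amplified frames: the image of `Γ` under an isomorphism `L(Γ) → p M_n(L(Λ)) p`. A bounded operator
which commutes with the frame and is fixed by `p` is determined by its matrix trace along
conjugations.
-/

set_option linter.all false

open scoped InnerProductSpace
open Filter Topology ContinuousLinearMap
open Vale.Agent.P092.H160

namespace Vale.Agent.P092.H103

variable {Γ Λ I : Type} [Group Γ] [Group Λ] [Fintype I]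

/-- An amplified frame. -/
structure AF (α : Γ → (Ell2 (I × Λ) →L[ℂ] Ell2 (I × Λ))) : Prop where
  mul : ∀ g h, α (g * h) = α g * α h
  adj : ∀ g, adjoint (α g) = α g⁻¹
  comm : ∀ g, Eqv (FS.mat I Λ).R (FS.mat I Λ).R (α g)
  tr0 : ∀ g, g ≠ 1 → (FS.mat I Λ).tr (α g) = 0
  exp : ∀ X, Eqv (FS.mat I Λ).R (FS.mat I Λ).R X → α 1 * X = X → X * α 1 = X →
    ∃ a : Γ → ℂ, ∀ i, HasSum (fun g => a g • α g (dl (i, 1))) (X (dl (i, 1)))
  ne : α 1 ≠ 0

theorem hs_congr {β : Type} {f g : β → ℂ} {a : ℂ} (h : ∀ b, f b = g b) (hf : HasSum f a) :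
    HasSum g a := (funext h) ▸ hf

theorem Eqv.comp {K Z Z' Z'' : Type} {R : K → (Ell2 Z →L[ℂ] Ell2 Z)}
    {R' : K → (Ell2 Z' →L[ℂ] Ell2 Z')} {R'' : K → (Ell2 Z'' →L[ℂ] Ell2 Z'')}
    {A : Ell2 Z →L[ℂ] Ell2 Z'} {B : Ell2 Z' →L[ℂ] Ell2 Z''} (hB : Eqv R' R'' B)
    (hA : Eqv R R' A) : Eqv R R'' (B ∘L A) := fun x v => by
  rw [comp_apply, comp_apply, hA, hB]

theorem Eqv.mul {K Z : Type} {R : K → (Ell2 Z →L[ℂ] Ell2 Z)}
    {A B : Ell2 Z →L[ℂ] Ell2 Z} (hB : Eqv R R B) (hA : Eqv R R A) : Eqv R R (B * A) :=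
  hB.comp hA

theorem Eqv.add {K Z Z' : Type} {R : K → (Ell2 Z →L[ℂ] Ell2 Z)}
    {R' : K → (Ell2 Z' →L[ℂ] Ell2 Z')} {A B : Ell2 Z →L[ℂ] Ell2 Z'} (hA : Eqv R R' A)
    (hB : Eqv R R' B) : Eqv R R' (A + B) := fun x v => by
  rw [ContinuousLinearMap.add_apply, ContinuousLinearMap.add_apply, hA, hB, map_add]

theorem Eqv.sub {K Z Z' : Type} {R : K → (Ell2 Z →L[ℂ] Ell2 Z)}
    {R' : K → (Ell2 Z' →L[ℂ] Ell2 Z')} {A B : Ell2 Z →L[ℂ] Ell2 Z'} (hA : Eqv R R' A)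
    (hB : Eqv R R' B) : Eqv R R' (A - B) := fun x v => by
  rw [ContinuousLinearMap.sub_apply, ContinuousLinearMap.sub_apply, hA, hB, map_sub]

theorem Eqv.smul {K Z Z' : Type} {R : K → (Ell2 Z →L[ℂ] Ell2 Z)}
    {R' : K → (Ell2 Z' →L[ℂ] Ell2 Z')} {A : Ell2 Z →L[ℂ] Ell2 Z'} (c : ℂ) (hA : Eqv R R' A) :
    Eqv R R' (c • A) := fun x v => by
  rw [ContinuousLinearMap.smul_apply, ContinuousLinearMap.smul_apply, hA, map_smul]

theorem Eqv.sum {K Z Z' ι : Type} {R : K → (Ell2 Z →L[ℂ] Ell2 Z)}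
    {R' : K → (Ell2 Z' →L[ℂ] Ell2 Z')} {A : ι → (Ell2 Z →L[ℂ] Ell2 Z')} (F : Finset ι)
    (hA : ∀ i ∈ F, Eqv R R' (A i)) : Eqv R R' (∑ i ∈ F, A i) := fun x v => by
  rw [ContinuousLinearMap.sum_apply, ContinuousLinearMap.sum_apply, map_sum]
  exact Finset.sum_congr rfl fun i hi => hA i hi x v

namespace AF

variable {α : Γ → (Ell2 (I × Λ) →L[ℂ] Ell2 (I × Λ))} (hα : AF α)

include hα

theorem pp : α 1 * α 1 = α 1 := by rw [← hα.mul, mul_one]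
theorem p_adj : adjoint (α 1) = α 1 := by rw [hα.adj, inv_one]
theorem p_mul (g : Γ) : α 1 * α g = α g := by rw [← hα.mul, one_mul]
theorem mul_p (g : Γ) : α g * α 1 = α g := by rw [← hα.mul, mul_one]

theorem pp_apply (v : Ell2 (I × Λ)) : α 1 (α 1 v) = α 1 v :=
  congrArg (fun T : Ell2 (I × Λ) →L[ℂ] Ell2 (I × Λ) => T v) hα.pp
theorem p_mul_apply (g : Γ) (v : Ell2 (I × Λ)) : α 1 (α g v) = α g v :=
  congrArg (fun T : Ell2 (I × Λ) →L[ℂ] Ell2 (I × Λ) => T v) (hα.p_mul g)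
theorem mul_p_apply (g : Γ) (v : Ell2 (I × Λ)) : α g (α 1 v) = α g v :=
  congrArg (fun T : Ell2 (I × Λ) →L[ℂ] Ell2 (I × Λ) => T v) (hα.mul_p g)
theorem mul_apply (g h : Γ) (v : Ell2 (I × Λ)) : α (g * h) v = α g (α h v) :=
  congrArg (fun T : Ell2 (I × Λ) →L[ℂ] Ell2 (I × Λ) => T v) (hα.mul g h)
theorem inv_apply (g : Γ) (v : Ell2 (I × Λ)) : α g⁻¹ (α g v) = α 1 v := by
  rw [← hα.mul_apply, inv_mul_cancel]
theorem apply_inv (g : Γ) (v : Ell2 (I × Λ)) : α g (α g⁻¹ v) = α 1 v := by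
  rw [← hα.mul_apply, mul_inv_cancel]

theorem inner_left (g : Γ) (u v : Ell2 (I × Λ)) : ⟪α g u, v⟫_ℂ = ⟪u, α g⁻¹ v⟫_ℂ := by
  rw [← hα.adj, adjoint_inner_right]

theorem inner_right (g : Γ) (u v : Ell2 (I × Λ)) : ⟪u, α g v⟫_ℂ = ⟪α g⁻¹ u, v⟫_ℂ := by
  rw [← hα.adj, adjoint_inner_left]

theorem p_left (u v : Ell2 (I × Λ)) : ⟪α 1 u, v⟫_ℂ = ⟪u, α 1 v⟫_ℂ := by
  rw [hα.inner_left, inv_one]

theorem inner_map (g : Γ) (u v : Ell2 (I × Λ)) : ⟪α g u, α g v⟫_ℂ = ⟪u, α 1 v⟫_ℂ := by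
  rw [hα.inner_left, hα.inv_apply]

theorem expAdj {X : Ell2 (I × Λ) →L[ℂ] Ell2 (I × Λ)} (hX : Eqv (FS.mat I Λ).R (FS.mat I Λ).R X)
    {a : Γ → ℂ} (ha : ∀ i, HasSum (fun g => a g • α g (dl (i, 1))) (X (dl (i, 1)))) (k : I) :
    HasSum (fun g => (starRingEnd ℂ) (a g) • adjoint (α g) (dl (k, 1)))
      (adjoint X (dl (k, 1))) := by
  have key : ∀ F : Finset Γ, ‖adjoint X (dl (k, 1)) -
      ∑ g ∈ F, (starRingEnd ℂ) (a g) • adjoint (α g) (dl (k, 1))‖ ^ 2 ≤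
      ∑ i, ‖X (dl (i, 1)) - ∑ g ∈ F, a g • α g (dl (i, 1))‖ ^ 2 := by
    intro F
    set D : Ell2 (I × Λ) →L[ℂ] Ell2 (I × Λ) := X - ∑ g ∈ F, a g • α g with hD
    have hDe : Eqv (FS.mat I Λ).R (FS.mat I Λ).R D :=
      hX.sub (Eqv.sum F fun g _ => (hα.comm g).smul _)
    have h1 := (FS.mat I Λ).tr_swap (FS.mat I Λ) hDe hDe
    simp only [inner_self_eq_norm_sq_to_K] at h1
    have h2 : ∑ j : I, ‖D (dl ((FS.mat I Λ).base j))‖ ^ 2 =
        ∑ j : I, ‖adjoint D (dl ((FS.mat I Λ).base j))‖ ^ 2 := by exact_mod_cast h1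
    have h3 : ∀ i, D (dl ((FS.mat I Λ).base i)) =
        X (dl (i, 1)) - ∑ g ∈ F, a g • α g (dl (i, 1)) := by
      intro i
      rw [hD, ContinuousLinearMap.sub_apply, ContinuousLinearMap.sum_apply]
      rfl
    have h4 : adjoint D (dl ((FS.mat I Λ).base k)) = adjoint X (dl (k, 1)) -
        ∑ g ∈ F, (starRingEnd ℂ) (a g) • adjoint (α g) (dl (k, 1)) := by
      rw [hD, map_sub, map_sum, ContinuousLinearMap.sub_apply, ContinuousLinearMap.sum_apply]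
      congr 1
      refine Finset.sum_congr rfl fun g _ => ?_
      rw [map_smulₛₗ]
      rfl
    rw [← h4]
    refine (Finset.single_le_sum (f := fun j => ‖adjoint D (dl ((FS.mat I Λ).base j))‖ ^ 2)
      (fun _ _ => by positivity) (Finset.mem_univ k)).trans ?_
    rw [← h2]
    exact (Finset.sum_congr rfl fun i _ => by rw [h3]).le
  have hlim : Tendsto (fun F : Finset Γ => ∑ i, ‖X (dl (i, 1)) -
      ∑ g ∈ F, a g • α g (dl (i, 1))‖ ^ 2) atTop (𝓝 0) := by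
    have h1 : Tendsto (fun F : Finset Γ => ∑ i, ‖X (dl (i, 1)) -
      ∑ g ∈ F, a g • α g (dl (i, 1))‖ ^ 2) atTop (𝓝 (∑ i : I, (0 : ℝ))) := by
      refine tendsto_finsetSum _ fun i _ => ?_
      have h2 : Tendsto (fun F : Finset Γ => ∑ g ∈ F, a g • α g (dl (i, 1))) atTop
        (𝓝 (X (dl (i, 1)))) := ha i
      have h3 := ((tendsto_const_nhds (x := X (dl (i, 1)))).sub h2).norm.pow 2
      rw [sub_self, norm_zero, zero_pow two_ne_zero] at h3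
      exact h3
    simpa using h1
  have h1 : Tendsto (fun F : Finset Γ => ‖adjoint X (dl (k, 1)) -
      ∑ g ∈ F, (starRingEnd ℂ) (a g) • adjoint (α g) (dl (k, 1))‖ ^ 2) atTop (𝓝 0) :=
    squeeze_zero (fun _ => by positivity) key hlim
  have h2 := (Real.continuous_sqrt.tendsto 0).comp h1
  rw [Real.sqrt_zero] at h2
  change Tendsto (fun F : Finset Γ => ∑ g ∈ F, (starRingEnd ℂ) (a g) •
    adjoint (α g) (dl (k, 1))) atTop (𝓝 (adjoint X (dl (k, 1))))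
  rw [tendsto_iff_norm_sub_tendsto_zero]
  refine h2.congr fun F => ?_
  rw [Function.comp_apply, Real.sqrt_sq (norm_nonneg _), norm_sub_rev]

/-- Operators in the commutant of the frame commute with the corner algebra. -/
theorem bicomm {B X : Ell2 (I × Λ) →L[ℂ] Ell2 (I × Λ)} (hB : ∀ g, B * α g = α g * B)
    (hX : Eqv (FS.mat I Λ).R (FS.mat I Λ).R X) (h1 : α 1 * X = X) (h2 : X * α 1 = X) :
    B * X = X * B := by
  obtain ⟨a, ha⟩ := hα.exp X hX h1 h2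
  have key : ∀ {B : Ell2 (I × Λ) →L[ℂ] Ell2 (I × Λ)}, (∀ g, B * α g = α g * B) → ∀ i,
      B (X (dl (i, 1))) = X (B (dl (i, 1))) := by
    intro B hB i
    apply ext_inner_dl
    rintro ⟨k, u⟩
    rw [← inner_dl, ← inner_dl]
    have e1 := ((ha i).mapL B).mapL (innerSL ℂ (dl (k, u) : Ell2 (I × Λ)))
    have e2 := hα.expAdj hX ha k
    have e3 := e2.mapL ((FS.mat I Λ).R u⁻¹)
    have e4 : (FS.mat I Λ).R u⁻¹ (adjoint X (dl (k, 1))) = adjoint X (dl (k, u)) := by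
      rw [FS.mat_dl k u, (FS.mat I Λ).eqv_adjoint (FS.mat I Λ) hX]
    have e5 : HasSum (fun g => a g * ⟪adjoint (α g) (dl (k, u)), B (dl (i, 1))⟫_ℂ)
        ⟪adjoint X (dl (k, u)), B (dl (i, 1))⟫_ℂ := by
      rw [e4] at e3
      have e6 := (e3.mapL (innerSL ℂ (B (dl (i, 1)))))
      have e7 := (Complex.hasSum_conj').mpr e6
      simp only [innerSL_apply_apply, inner_conj_symm] at e7
      refine hs_congr (fun g => ?_) e7
      rw [map_smul, inner_smul_left, Complex.conj_conj, FS.mat_dl k u,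
        (FS.mat I Λ).eqv_adjoint (FS.mat I Λ) (hα.comm g)]
    have e8 : HasSum (fun g => a g * ⟪adjoint (α g) (dl (k, u)), B (dl (i, 1))⟫_ℂ)
        ⟪dl (k, u), B (X (dl (i, 1)))⟫_ℂ := by
      refine hs_congr (fun g => ?_) e1
      rw [map_smul, innerSL_apply_apply, inner_smul_right]
      have e9 : B (α g (dl (i, 1))) = α g (B (dl (i, 1))) :=
        congrArg (fun T : Ell2 (I × Λ) →L[ℂ] Ell2 (I × Λ) => T (dl (i, 1))) (hB g)
      rw [e9, adjoint_inner_left]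
    rw [e8.unique e5, adjoint_inner_left]
  apply op_ext
  rintro ⟨i, t⟩
  have hB' : ∀ g, (B * (FS.mat I Λ).R t⁻¹) * α g = α g * (B * (FS.mat I Λ).R t⁻¹) := by
    intro g
    have h3 : (FS.mat I Λ).R t⁻¹ * α g = α g * (FS.mat I Λ).R t⁻¹ := by
      ext1 v
      exact (hα.comm g t⁻¹ v).symm
    rw [mul_assoc, h3, ← mul_assoc, hB, mul_assoc]
  have h3 := key hB' i
  change B (X (dl (i, t))) = X (B (dl (i, t)))
  rw [FS.mat_dl i t, hX]
  exact h3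

end AF

end Vale.Agent.P092.H103
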