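import Vale.Agent.P092.H103.Bhm2
import Vale.Agent.P092.H761.CoarseD
import Vale.Agent.P092.H931.Trans
import Vale.Agent.P092.H655.Tor
import Vale.Agent.P092.H515.LatSl
import Vale.Agent.P092.H933.TgtLoc
import Vale.Agent.P092.H793.KapSL

/-!
P092, project B: the block [FIN], `FinStmt`.
-/

set_option linter.all false

open scoped InnerProductSpace ENNReal
open Set Filter Topology MeasureTheory ContinuousLinearMap

namespace Vale.Agent.P092.H103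

open Vale.Agent.P092.H85 Vale.Agent.P092.H160 Vale.Agent.P092.H553 Cnj

/-! ### Transport to the basis of `Λ` -/

theorem finN_transport {Γ Λ H H' : Type} [Group Γ] [Group Λ] [Group H] [Group H']
    [TopologicalSpace H] [TopologicalSpace H'] {α : Γ →* (Ell2 Λ →L[ℂ] Ell2 Λ)} (hα : Frame α)
    (pr : Γ →* H) (pr' : Γ →* H')
    (h : SR.FinN pr pr' (H931.V (H931.dual_frame hα)) (rhoH.comp (MonoidHom.inl Γ Γ))
      (Set.range (rhoH.comp (MonoidHom.inr Γ Γ)))) :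
    SR.FinN pr pr' (SR.VV α) (SR.RR₁ α) (Set.range (SR.RR₂ α)) := by
  obtain ⟨K', K, h1, h2, x, ⟨q1, q2, q3⟩, x0, xne, ζ, hζ, hs⟩ := h
  refine ⟨K', K, h1, h2, H931.tra hα x, ⟨fun g hg => ?_, fun g hg => ?_, ?_⟩, H931.tra_pos hα x0,
    H931.tra_ne_zero hα xne, H931.WW hα ζ, ?_, ?_⟩
  · rw [← H931.tra_V hα]
    exact H931.tra_comm hα (q1 g hg)
  · rw [← H931.tra_rho₁ hα]
    exact H931.tra_comm hα (q2 g hg)
  · rintro a ⟨b, rfl⟩
    rw [← H931.tra_rho₂ hα]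
    exact H931.tra_comm hα (q3 _ ⟨b, rfl⟩)
  · intro h0
    apply hζ
    rw [← norm_eq_zero, ← H931.norm_WW hα, h0, norm_zero]
  · refine hs.congr fun q => ?_
    obtain ⟨u, hu⟩ : ∃ u, u = rhoH.comp (MonoidHom.inl Γ Γ) (q.out)⁻¹ ζ := ⟨_, rfl⟩
    have h3 : SR.RR₁ α (q.out)⁻¹ (H931.WW hα ζ) = H931.WW hα u := by
      have h4 := H931.WW_rho hα (q.out)⁻¹ 1 ζ
      rw [map_one] at h4
      rw [hu]
      exact h4.symm
    rw [← hu, h3, H931.tra_WW]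
    congr 1
    rw [← adjoint_inner_right]
    congr 1
    have h5 := congrArg (fun X : Ell2 (Γ × Γ) →L[ℂ] Ell2 (Γ × Γ) => X (x u)) (H931.adjWW_WW hα)
    exact h5.symm

/-! ### The group `Γ` in its own basis -/

section gam

variable {G₁ G₂ : Type} [Group G₁] [TopologicalSpace G₁] [IsTopologicalGroup G₁]
  [LocallyCompactSpace G₁] [SecondCountableTopology G₁] [T2Space G₁] [MeasurableSpace G₁]
  [BorelSpace G₁] [Group G₂] [TopologicalSpace G₂] [IsTopologicalGroup G₂]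
  [LocallyCompactSpace G₂] [SecondCountableTopology G₂] [T2Space G₂] [MeasurableSpace G₂]
  [BorelSpace G₂] {r₁ r₂ : ℕ}
  {Γ : Subgroup (G₁ × G₂)} [DiscreteTopology Γ] [MeasurableSpace ((G₁ × G₂) ⧸ Γ)]
  [BorelSpace ((G₁ × G₂) ⧸ Γ)] {ν : Measure ((G₁ × G₂) ⧸ Γ)} [IsProbabilityMeasure ν]
  (hν : ∀ g : G₁ × G₂, ν.map (fun x => g • x) = ν)
  {Λ : Type} [Group Λ] {β : Λ →* (Ell2 Γ →L[ℂ] Ell2 Γ)}

/-- the first projection -/
abbrev q₁ (Γ : Subgroup (G₁ × G₂)) : Γ →* G₁ := (MonoidHom.fst G₁ G₂).comp Γ.subtype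

/-- the second projection -/
abbrev q₂ (Γ : Subgroup (G₁ × G₂)) : Γ →* G₂ := (MonoidHom.snd G₁ G₂).comp Γ.subtype

theorem vr_delta (hβ : Frame β) : VR (H931.V hβ) :=
  ⟨fun v => H931.V_adj hβ v, fun v s => H931.V_rho hβ v s⟩

include hν in
/-- **[FIN] in the `Γ`-basis.** -/
theorem fin_gamma (hβ : Frame β) (C₁ : H701.HChain G₁ r₁) (C₂ : H701.HChain G₂ r₂)
    (hr₁ : 0 < r₁) (hr₂ : 0 < r₂) (h₁ : H515.Tgt G₁ r₁) (h₂ : H515.Tgt G₂ r₂)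
    (hb₁ : Tendsto (C₁.b ⟨0, hr₁⟩) atTop (cocompact G₁))
    (hb₂ : Tendsto (C₂.b ⟨0, hr₂⟩) atTop (cocompact G₂))
    (ho₁ : CptOpenBasis G₁) (ho₂ : CptOpenBasis G₂) (hw₁ : WFix G₁) (hw₂ : WFix G₂) :
    (SR.FinN (q₁ Γ) (q₁ Γ) (H931.V hβ) (rhoH.comp (MonoidHom.inl Γ Γ))
        (Set.range (rhoH.comp (MonoidHom.inr Γ Γ))) ∨
      SR.FinN (q₁ Γ) (q₂ Γ) (H931.V hβ) (rhoH.comp (MonoidHom.inl Γ Γ))
        (Set.range (rhoH.comp (MonoidHom.inr Γ Γ)))) ∧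
    (SR.FinN (q₂ Γ) (q₁ Γ) (H931.V hβ) (rhoH.comp (MonoidHom.inl Γ Γ))
        (Set.range (rhoH.comp (MonoidHom.inr Γ Γ))) ∨
      SR.FinN (q₂ Γ) (q₂ Γ) (H931.V hβ) (rhoH.comp (MonoidHom.inl Γ Γ))
        (Set.range (rhoH.comp (MonoidHom.inr Γ Γ)))) := by
  haveI : Countable Γ := H790.countable_of_discrete Γ
  constructor
  · obtain ⟨s, hs, h⟩ := H761.s1_delta_snd Γ ν hν hβ C₁ C₂ hr₂ h₁ h₂
    have hb : Tendsto (fun N => C₂.b ⟨0, hr₂⟩ (s N)) atTop (cocompact G₂) :=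
      hb₂.comp hs.tendsto_atTop
    rcases h with ⟨C, hC, h⟩ | ⟨C, hC, h⟩
    · exact Or.inl (finN_of_mass (Ga := G₁) (Gb := G₂) hν (vr_delta hβ) ho₁ hw₂ ho₁
        (MulEquiv.refl (G₁ × G₂)) continuous_id (q₁ Γ) hC hb (by norm_num : (0 : ℝ) < 1 / 3) h)
    · exact Or.inr (finN_of_mass (Ga := G₁) (Gb := G₂) hν (vr_delta hβ) ho₁ hw₂ ho₂
        (MulEquiv.refl (G₁ × G₂)) continuous_id (q₂ Γ) hC hb (by norm_num : (0 : ℝ) < 1 / 3) h)
  · obtain ⟨s, hs, h⟩ := H761.s1_delta_fst Γ ν hν hβ C₁ C₂ hr₁ h₁ h₂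
    have hb : Tendsto (fun N => C₁.b ⟨0, hr₁⟩ (s N)) atTop (cocompact G₁) :=
      hb₁.comp hs.tendsto_atTop
    rcases h with ⟨C, hC, h⟩ | ⟨C, hC, h⟩
    · exact Or.inl (finN_of_mass (Ga := G₂) (Gb := G₁) hν (vr_delta hβ) ho₂ hw₁ ho₁
        (MulEquiv.prodComm (M := G₂) (N := G₁)) continuous_swap (q₁ Γ) hC hb
        (by norm_num : (0 : ℝ) < 1 / 3) h)
    · exact Or.inr (finN_of_mass (Ga := G₂) (Gb := G₁) hν (vr_delta hβ) ho₂ hw₁ ho₂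
        (MulEquiv.prodComm (M := G₂) (N := G₁)) continuous_swap (q₂ Γ) hC hb
        (by norm_num : (0 : ℝ) < 1 / 3) h)

end gam

/-! ### `SL_n` of a non-archimedean local field -/

theorem cptOpen_sl {N : ℕ} {k : Type} [NontriviallyNormedField k] [IsUltrametricDist k]
    [ProperSpace k] : CptOpenBasis (Matrix.SpecialLinearGroup (Fin N) k) := by
  intro U hU
  obtain ⟨K, hK, hKU⟩ := H793.basis_sl U hU
  exact ⟨K, hK.2, hK.1, hKU⟩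

/-- **[FIN]** -/
theorem finStmt : SR.FinStmt := by
  intro n₁ n₂ k₁ k₂ _ _ _ _ _ _ Γ hn₁ hn₂ hL hd₁ hd₂ hicc Λ _ α hα
  obtain ⟨m₁, rfl⟩ : ∃ m, n₁ = m + 1 := ⟨n₁ - 1, by omega⟩
  obtain ⟨m₂, rfl⟩ : ∃ m, n₂ = m + 1 := ⟨n₂ - 1, by omega⟩
  haveI hdisc : DiscreteTopology Γ := hL.disc
  letI : MeasurableSpace ((Matrix.SpecialLinearGroup (Fin (m₁ + 1)) k₁ ×
    Matrix.SpecialLinearGroup (Fin (m₂ + 1)) k₂) ⧸ Γ) := borel _
  haveI : BorelSpace ((Matrix.SpecialLinearGroup (Fin (m₁ + 1)) k₁ ×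
    Matrix.SpecialLinearGroup (Fin (m₂ + 1)) k₂) ⧸ Γ) := ⟨rfl⟩
  letI : MeasurableSpace (Matrix.SpecialLinearGroup (Fin (m₁ + 1)) k₁) := borel _
  haveI : BorelSpace (Matrix.SpecialLinearGroup (Fin (m₁ + 1)) k₁) := ⟨rfl⟩
  letI : MeasurableSpace (Matrix.SpecialLinearGroup (Fin (m₂ + 1)) k₂) := borel _
  haveI : BorelSpace (Matrix.SpecialLinearGroup (Fin (m₂ + 1)) k₂) := ⟨rfl⟩
  haveI : LocallyCompactSpace (Matrix.SpecialLinearGroup (Fin (m₁ + 1)) k₁) :=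
    H303.locallyCompact_SL
  haveI : LocallyCompactSpace (Matrix.SpecialLinearGroup (Fin (m₂ + 1)) k₂) :=
    H303.locallyCompact_SL
  haveI : SecondCountableTopology (Matrix.SpecialLinearGroup (Fin (m₁ + 1)) k₁) :=
    H303.secondCountable_SL
  haveI : SecondCountableTopology (Matrix.SpecialLinearGroup (Fin (m₂ + 1)) k₂) :=
    H303.secondCountable_SL
  obtain ⟨ν, hν1, hν⟩ := H515.IsLattice.exists_prob (Λ := Γ) ⟨hL.disc, hL.covol⟩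
  haveI := hν1
  have hk₁ : H933.LocK k₁ := H933.LocK.ultra inferInstance
  have hk₂ : H933.LocK k₂ := H933.LocK.ultra inferInstance
  have key := fin_gamma hν (H931.dual_frame hα) (H701.slChain k₁ m₁) (H701.slChain k₂ m₂)
    (by omega) (by omega) (H933.tgt_sl_loc hk₁ m₁) (H933.tgt_sl_loc hk₂ m₂)
    (H655.tendsto_slChain k₁ m₁ ⟨0, by omega⟩) (H655.tendsto_slChain k₂ m₂ ⟨0, by omega⟩)
    cptOpen_sl cptOpen_sl (wfix_sl hk₁ (by omega)) (wfix_sl hk₂ (by omega))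
  exact ⟨key.1.imp (finN_transport hα _ _) (finN_transport hα _ _),
    key.2.imp (finN_transport hα _ _) (finN_transport hα _ _)⟩

end Vale.Agent.P092.H103
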