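import Vale.Agent.P092.H103.Cnj2
import Vale.Agent.P092.H103.Bhm
import Vale.Agent.P092.SR.Blocks
import Vale.Agent.P092.H538.Proj

/-!
P092, project B: from the non-escape of mass along a sequence tending to infinity in one factor to
a nonzero positive operator at the level of compact open subgroups of the other factor, which is
integrable over the target.
-/

set_option linter.all false

open scoped InnerProductSpace ENNReal
open Set Filter Topology MeasureTheory ContinuousLinearMap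

namespace Vale.Agent.P092.H103

open Vale.Agent.P092.H85 Vale.Agent.P092.H160 Vale.Agent.P092.H553 Cnj

section fin

variable {G : Type} [Group G]

/-- finitely many cosets -/
theorem finite_cosets {H : Type} [Group H] [TopologicalSpace H] [IsTopologicalGroup H]
    {K : Subgroup H} (hK : IsOpen (K : Set H)) (φ : G →* H) {C : Set H} (hC : IsCompact C) :
    {p : G ⧸ K.comap φ | ∃ x : G, φ x ∈ C ∧ p = ((x⁻¹ : G) : G ⧸ K.comap φ)}.Finite := by
  haveI : DiscreteTopology (H ⧸ K) := QuotientGroup.discreteTopology hK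
  obtain ⟨f, hf⟩ : ∃ f : G ⧸ K.comap φ → H ⧸ K, ∀ g : G, f (g : G ⧸ K.comap φ) = ((φ g : H) : H ⧸ K) :=
    ⟨Quotient.lift (fun g : G => ((φ g : H) : H ⧸ K)) (fun a b hab => by
      have h1 : a⁻¹ * b ∈ K.comap φ := QuotientGroup.leftRel_apply.1 hab
      rw [QuotientGroup.eq, ← map_inv, ← map_mul]
      exact h1), fun g => rfl⟩
  have hfi : Function.Injective f := by
    intro p p' h
    induction p using QuotientGroup.induction_on with | _ a
    induction p' using QuotientGroup.induction_on with | _ b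
    rw [hf, hf, QuotientGroup.eq, ← map_inv, ← map_mul] at h
    rw [QuotientGroup.eq]
    exact h
  have h1 : ((fun h : H => ((h : H) : H ⧸ K)) '' C⁻¹).Finite := by
    have h2 : IsCompact ((fun h : H => ((h : H) : H ⧸ K)) '' C⁻¹) :=
      hC.inv.image QuotientGroup.continuous_mk
    exact h2.finite_of_discrete
  refine (h1.preimage hfi.injOn).subset ?_
  rintro p ⟨x, hx, rfl⟩
  refine ⟨(φ x)⁻¹, ?_, ?_⟩
  · rw [Set.mem_inv, inv_inv]; exact hx
  · rw [hf, map_inv]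

end fin

section main

variable {Ga Gb : Type} [Group Ga] [TopologicalSpace Ga] [IsTopologicalGroup Ga]
  [LocallyCompactSpace Ga] [SecondCountableTopology Ga] [T2Space Ga] [MeasurableSpace Ga]
  [BorelSpace Ga] [Group Gb] [TopologicalSpace Gb] [IsTopologicalGroup Gb]
  [LocallyCompactSpace Gb] [SecondCountableTopology Gb] [T2Space Gb] [MeasurableSpace Gb]
  [BorelSpace Gb]
  {E : Type} [Group E] [TopologicalSpace E] [IsTopologicalGroup E] [LocallyCompactSpace E]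
  [SecondCountableTopology E] [T2Space E] [MeasurableSpace E] [BorelSpace E]
  {Γ : Subgroup E} [DiscreteTopology Γ] [MeasurableSpace (E ⧸ Γ)]
  [BorelSpace (E ⧸ Γ)] {ν : Measure (E ⧸ Γ)} [IsProbabilityMeasure ν]
  (hν : ∀ g : E, ν.map (fun x => g • x) = ν) [Countable Γ]
  {Q : Type} [Group Q] {V : Γ →* (Ell2 (Γ × Q) →L[ℂ] Ell2 (Γ × Q))} (hV : VR V)
  {H' : Type} [Group H'] [TopologicalSpace H'] [IsTopologicalGroup H']

/-- the source place -/
def srcP (Γ : Subgroup E) (e : Ga × Gb ≃* E) : Γ →* Ga :=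
  (MonoidHom.fst Ga Gb).comp (e.symm.toMonoidHom.comp Γ.subtype)

include hν hV in
/-- **[GLUE-B]** -/
theorem finN_of_mass (hGa : CptOpenBasis Ga) (hGb : WFix Gb) (hH' : CptOpenBasis H')
    (e : Ga × Gb ≃* E) (he : Continuous e) (q : Γ →* H') {C : Set H'} (hC : IsCompact C)
    {b : ℕ → Gb} (hb : Tendsto b atTop (cocompact Gb)) {c : ℝ} (hc : 0 < c)
    (hm : ∀ N, c ≤ ∫ y, ∑' x : Γ × Q, H538.ind (fun x : Γ × Q => q x.1 ∈ C) x *
      ‖V (coc Γ (e (1, b N)) y) (dl 1) x‖ ^ 2 ∂ν) :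
    SR.FinN (srcP Γ e) q V (rhoH.comp (MonoidHom.inl Γ Q))
      (Set.range (rhoH.comp (MonoidHom.inr Γ Q))) := by
  obtain ⟨K, hK1, hK2, -⟩ := hH' Set.univ univ_mem
  obtain ⟨φ, hφ⟩ : ∃ φ : Γ × Q →* H', φ = q.comp (MonoidHom.fst Γ Q) := ⟨_, rfl⟩
  obtain ⟨S, hS⟩ : ∃ S : Subgroup (Γ × Q), S = K.comap φ := ⟨_, rfl⟩
  have hfin : {p : (Γ × Q) ⧸ S | ∃ x : Γ × Q, φ x ∈ C ∧
      p = ((x⁻¹ : Γ × Q) : (Γ × Q) ⧸ S)}.Finite := by
    subst hS
    exact finite_cosets hK1 φ hC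
  obtain ⟨F, hF⟩ : ∃ F : Finset ((Γ × Q) ⧸ S), ∀ x : Γ × Q, φ x ∈ C →
      ((x⁻¹ : Γ × Q) : (Γ × Q) ⧸ S) ∈ F := ⟨hfin.toFinset, fun x hx => by
        rw [Set.Finite.mem_toFinset]; exact ⟨x, hx, rfl⟩⟩
  have hiF : ∀ x : Γ × Q, H538.ind (fun x : Γ × Q => q x.1 ∈ C) x ≤ iF S F x⁻¹ := by
    intro x
    unfold H538.ind iF
    by_cases hx : q x.1 ∈ C
    · rw [if_pos hx, if_pos (hF x (by rw [hφ]; exact hx))]
    · rw [if_neg hx]
      split_ifs <;> norm_num
  -- the vectors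
  obtain ⟨f, hf⟩ : ∃ f, f = zF S F := ⟨_, rfl⟩
  obtain ⟨f', hf'⟩ : ∃ f' : Ell2 (((Γ × Q) ⧸ S) × (Γ × Q)),
      f' = dl (((1 : Γ × Q) : (Γ × Q) ⧸ S), ou S ((1 : Γ × Q) : (Γ × Q) ⧸ S)) := ⟨_, rfl⟩
  have hcoef : ∀ d, ⟪f', cpi S hV d f⟫_ℂ = ((msF S F (V d) : ℝ) : ℂ) := fun d => by
    rw [hf, hf']; exact coef_zF S hV F d
  have hm' : ∀ N, c ≤ ‖∫ x, ⟪f', cpi S hV (coc Γ (e (1, b N)) x) f⟫_ℂ ∂ν‖ := by
    intro N
    have h1 : ∫ x, ⟪f', cpi S hV (coc Γ (e (1, b N)) x) f⟫_ℂ ∂ν =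
        ((∫ x, msF S F (V (coc Γ (e (1, b N)) x)) ∂ν : ℝ) : ℂ) := by
      refine Eq.trans ?_ (integral_ofReal (𝕜 := ℂ)
        (f := fun x => msF S F (V (coc Γ (e (1, b N)) x))))
      refine integral_congr_ae (Eventually.of_forall fun x => ?_)
      exact hcoef _
    have h2 : Integrable (fun x => msF S F (V (coc Γ (e (1, b N)) x))) ν := by
      have h3 := (coef_int hν (adjoint_cpi S hV) f f' (e (1, b N))).re
      refine h3.congr (Eventually.of_forall fun x => ?_)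
      have h4 := congrArg Complex.re (hcoef (coc Γ (e (1, b N)) x))
      rw [Complex.ofReal_re] at h4
      exact h4
    rw [h1, Complex.norm_real, Real.norm_eq_abs]
    refine (hm N).trans (le_trans ?_ (le_abs_self _))
    refine integral_mono_of_nonneg (Eventually.of_forall fun x => ?_) h2
      (Eventually.of_forall fun x => ?_)
    · exact tsum_nonneg fun y => mul_nonneg (H538.ind_nonneg _ _) (by positivity)
    · exact msF_le S F _ (fun y => H538.ind_nonneg _ _) hiF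
  obtain ⟨L, w, hL1, hL2, -, hw1, hw2, hw3⟩ := exists_fix_td hν (adjoint_cpi S hV) hGa univ_mem hGb e
    he f f' hb hc hm' (𝒞 := ctr S) isClosed_ctr convex_ctr zero_mem_ctr
    (fun v w hw => cpi_mem S hV v hw) (by rw [hf]; exact zF_mem S F)
  obtain ⟨T, hT1, hT2, hT3, hT4⟩ := exists_comm S hV hw1 hw2 (P := fun γ : Γ =>
    (e.symm (γ : E)).1 ∈ L) hw3
  have hst : ∀ A B : Ell2 (Γ × Q) →L[ℂ] Ell2 (Γ × Q), adjoint (A * B) = adjoint B * adjoint A :=
    fun A B => by rw [← star_eq_adjoint, star_mul]; rfl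
  have hcomm : ∀ (A B : Ell2 (Γ × Q) →L[ℂ] Ell2 (Γ × Q)), A * T = T * A → B * T = T * B →
      adjoint A = B → adjoint T * T * A = A * (adjoint T * T) := by
    intro A B h1 h2 h3
    have h4 : adjoint T * A = A * adjoint T := by
      have h5 := congrArg adjoint h2
      rw [hst, hst, ← h3, adjoint_adjoint] at h5
      exact h5
    rw [mul_assoc, ← h1, ← mul_assoc, h4, mul_assoc]
  have hrs : ∀ s ∈ S, rho s * T = T * rho s := fun s hs => (hT1 s hs).symm
  refine ⟨L, K, ⟨hL2, hL1⟩, ⟨hK2, hK1⟩, adjoint T * T, ⟨fun g hg => ?_, fun g hg => ?_, ?_⟩, ?_, ?_,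
    dl 1, ?_, ?_⟩
  · exact hcomm (V g) (V g⁻¹) (hT4 g hg) (hT4 g⁻¹ (by
      have h5 : (e.symm ((g⁻¹ : Γ) : E)).1 = ((e.symm (g : E)).1)⁻¹ := by
        rw [Subgroup.coe_inv, map_inv]; rfl
      change (e.symm ((g⁻¹ : Γ) : E)).1 ∈ L
      rw [h5]
      exact L.inv_mem hg)) (hV.adj g)
  · have h6 : ((g, 1) : Γ × Q) ∈ S := by
      rw [hS, hφ]; exact hg
    have h7 : rhoH.comp (MonoidHom.inl Γ Q) g = rho ((g, 1) : Γ × Q) := rfl
    rw [h7]
    exact hcomm (rho (g, 1)) (rho (g, 1)⁻¹) (hrs _ h6) (hrs _ (S.inv_mem h6)) (adjoint_rho _)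
  · rintro a ⟨y, rfl⟩
    have h6 : ((1, y) : Γ × Q) ∈ S := by
      rw [hS, hφ]
      change q 1 ∈ K
      rw [map_one]; exact K.one_mem
    have h7 : rhoH.comp (MonoidHom.inr Γ Q) y = rho ((1, y) : Γ × Q) := rfl
    rw [h7]
    exact hcomm (rho (1, y)) (rho (1, y)⁻¹) (hrs _ h6) (hrs _ (S.inv_mem h6)) (adjoint_rho _)
  · rw [← star_eq_adjoint]
    exact star_mul_self_nonneg T
  · rw [← star_eq_adjoint]
    intro h
    exact hT3 ((CStarRing.star_mul_self_eq_zero_iff T).1 h)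
  · intro h
    have h8 : ‖(dl 1 : Ell2 (Γ × Q))‖ = 1 := norm_dl 1
    rw [h, norm_zero] at h8
    exact zero_ne_one h8
  · obtain ⟨j, hj⟩ : ∃ j : Γ ⧸ K.comap q → (Γ × Q) ⧸ S, j = fun p => (((p.out, 1) : Γ × Q) :
      (Γ × Q) ⧸ S) := ⟨_, rfl⟩
    have hji : Function.Injective j := by
      intro p p' h
      rw [hj] at h
      simp only at h
      rw [QuotientGroup.eq, hS, hφ] at h
      rw [← QuotientGroup.out_eq' p, ← QuotientGroup.out_eq' p', QuotientGroup.eq]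
      exact h
    have h9 := (hasSum_sl w).summable.comp_injective hji
    refine h9.congr fun p => ?_
    have h10 : rhoH.comp (MonoidHom.inl Γ Q) (p.out)⁻¹ (dl 1) = (dl (p.out, 1) : Ell2 (Γ × Q)) := by
      change rho (((p.out)⁻¹, 1) : Γ × Q) (dl 1) = _
      rw [rho_dl]
      congr 1
      refine Prod.ext ?_ ?_ <;> simp
    rw [h10]
    have h11 : ⟪(dl (p.out, 1) : Ell2 (Γ × Q)), (adjoint T * T) (dl (p.out, 1))⟫_ℂ =
        ((‖T (dl (p.out, 1))‖ ^ 2 : ℝ) : ℂ) := by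
      change ⟪(dl (p.out, 1) : Ell2 (Γ × Q)), adjoint T (T (dl (p.out, 1)))⟫_ℂ = _
      rw [adjoint_inner_right, inner_self_eq_norm_sq_to_K]
      norm_cast
    rw [h11, Complex.ofReal_re]
    have h12 := hT1.dl' (p.out, 1)
    rw [h12, norm_rho, ← hT2, Function.comp_apply, hj]

end main

end Vale.Agent.P092.H103
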