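import Vale.Agent.P092.H103.Side

/-!
The projection onto the translates of the range of an intertwiner.
-/

set_option linter.all false

open scoped InnerProductSpace
open Filter Topology ContinuousLinearMap
open Vale.Agent.P092.H160

namespace Vale.Agent.P092.H103

variable {Γ Λ K' I Y Z J : Type} [Group Γ] [Group Λ] [Group K'] [Fintype I]

/-- the graph embedding `s ↦ (s, ι' s)` -/
def dgl (ι' : Λ →* K') : Λ →* Λ × K' := (MonoidHom.id Λ).prod ι'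

theorem dgl_apply (ι' : Λ →* K') (s : Λ) : dgl ι' s = (s, ι' s) := rfl

theorem dgl_inj (ι' : Λ →* K') : Function.Injective (dgl ι') := fun s t h =>
  congrArg Prod.fst h

theorem dgl_icc (hΛ : ∀ s : Λ, s ≠ 1 → Set.Infinite {y : Λ | ∃ h, y = h * s * h⁻¹})
    {ι' : Λ →* K'} (hι : ∀ x : K', x ≠ 1 → Set.Infinite {y | ∃ s : Λ, y = ι' s * x * (ι' s)⁻¹})
    (x : Λ × K') (hx : x ≠ 1) :
    Set.Infinite {y | ∃ s : Λ, y = dgl ι' s * x * (dgl ι' s)⁻¹} := by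
  intro hfin
  obtain ⟨a, b⟩ := x
  have h1 : a = 1 := by
    by_contra h
    refine hΛ a h ((hfin.image Prod.fst).subset ?_)
    rintro _ ⟨h, rfl⟩
    exact ⟨_, ⟨h, rfl⟩, rfl⟩
  have h2 : b = 1 := by
    by_contra h
    refine hι b h ((hfin.image Prod.snd).subset ?_)
    rintro _ ⟨h, rfl⟩
    exact ⟨_, ⟨h, rfl⟩, rfl⟩
  exact hx (by rw [h1, h2]; rfl)

theorem dgl_mem {ι' : Λ →* K'} {k : K'} (h : ((1 : Λ), k) ∈ Set.range (dgl ι')) : k = 1 := by
  obtain ⟨s, hs⟩ := h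
  rw [dgl_apply, Prod.mk.injEq] at hs
  rw [← hs.2, hs.1, map_one]

/-- The induced action. -/
def ind (ι' : Λ →* K') (f0 : FS Λ Y I) : FS (Λ × K') (K' × Y) I where
  act :=
    { toFun := fun x => Equiv.prodCongr ((Equiv.mulRight (ι' x.1)⁻¹).trans (Equiv.mulLeft x.2))
        (f0.act x.1)
      map_one' := by
        refine Equiv.ext fun z => Prod.ext ?_ ?_
        · change 1 * (z.1 * (ι' 1)⁻¹) = z.1
          rw [map_one, inv_one, mul_one, one_mul]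
        · change f0.act 1 z.2 = z.2
          rw [map_one]; rfl
      map_mul' := fun x y => by
        refine Equiv.ext fun z => Prod.ext ?_ ?_
        · change (x.2 * y.2) * (z.1 * (ι' (x.1 * y.1))⁻¹) =
            x.2 * ((y.2 * (z.1 * (ι' y.1)⁻¹)) * (ι' x.1)⁻¹)
          rw [map_mul, mul_inv_rev]
          simp only [mul_assoc]
        · change f0.act (x.1 * y.1) z.2 = f0.act x.1 (f0.act y.1 z.2)
          rw [map_mul]; rfl }
  base i := (1, f0.base i)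
  bij := by
    constructor
    · rintro ⟨i, ⟨a, b⟩⟩ ⟨j, ⟨c, d⟩⟩ h
      have h1 : f0.act a (f0.base i) = f0.act c (f0.base j) := congrArg Prod.snd h
      have h2 : b * (1 * (ι' a)⁻¹) = d * (1 * (ι' c)⁻¹) := congrArg Prod.fst h
      have h3 := f0.bij.1 (a₁ := (i, a)) (a₂ := (j, c)) h1
      rw [Prod.mk.injEq] at h3
      obtain ⟨rfl, rfl⟩ := h3
      rw [mul_left_inj] at h2
      rw [h2]
    · rintro ⟨k, y⟩
      obtain ⟨⟨i, a⟩, h⟩ := f0.bij.2 y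
      refine ⟨(i, (a, k * ι' a)), Prod.ext ?_ h⟩
      change k * ι' a * (1 * (ι' a)⁻¹) = k
      rw [one_mul, mul_assoc, mul_inv_cancel, mul_one]

theorem ind_act (ι' : Λ →* K') (f0 : FS Λ Y I) (x : Λ × K') (k : K') (y : Y) :
    (ind ι' f0).act x (k, y) = (x.2 * (k * (ι' x.1)⁻¹), f0.act x.1 y) := rfl

theorem ind_base (ι' : Λ →* K') (f0 : FS Λ Y I) (i : I) :
    (ind ι' f0).base i = (1, f0.base i) := rfl

section big

variable {α : Γ → (Ell2 (I × Λ) →L[ℂ] Ell2 (I × Λ))} (hα : AF α)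
  {f : FS (Λ × K') Z J} {ι' : Λ →* K'} {A : Γ → (Ell2 Z →L[ℂ] Ell2 Z)}
  {S : Ell2 (I × Λ) →L[ℂ] Ell2 Z}

theorem re_inner_self {H : Type} [NormedAddCommGroup H] [InnerProductSpace ℂ H] (v : H) :
    ⟪v, v⟫_ℂ = ((‖v‖ ^ 2 : ℝ) : ℂ) := by
  rw [inner_self_eq_norm_sq_to_K]
  push_cast
  rfl

theorem sum_bound (horth : ∀ (k : K'), k ≠ 1 → ∀ v, adjoint S (f.R (1, k) (S v)) = 0)
    (v : Ell2 Z) (F : Finset K') :
    ∑ k ∈ F, ‖adjoint S (f.R (1, k)⁻¹ v)‖ ^ 2 ≤ ‖S‖ ^ 2 * ‖v‖ ^ 2 := by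
  classical
  set u : K' → Ell2 (I × Λ) := fun k => adjoint S (f.R (1, k)⁻¹ v) with hu
  set w : Ell2 Z := ∑ k ∈ F, f.R (1, k) (S (u k)) with hw
  set a : ℝ := ∑ k ∈ F, ‖u k‖ ^ 2 with ha
  have h1 : ⟪v, w⟫_ℂ = (a : ℂ) := by
    rw [hw, inner_sum, ha]
    push_cast
    refine Finset.sum_congr rfl fun k _ => ?_
    rw [f.R_right, ← adjoint_inner_left S]
    change ⟪u k, u k⟫_ℂ = _
    rw [re_inner_self]
    push_cast
    rfl
  have h2 : ⟪w, w⟫_ℂ = ((∑ k ∈ F, ‖S (u k)‖ ^ 2 : ℝ) : ℂ) := by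
    have e1 : ⟪w, w⟫_ℂ = ∑ k ∈ F, ∑ l ∈ F, ⟪f.R (1, k) (S (u k)), f.R (1, l) (S (u l))⟫_ℂ := by
      rw [hw, sum_inner]
      exact Finset.sum_congr rfl fun k _ => inner_sum _ _ _
    rw [e1]
    push_cast
    refine Finset.sum_congr rfl fun k hk => ?_
    rw [Finset.sum_eq_single k]
    · rw [f.R_inner, re_inner_self]
      push_cast
      rfl
    · intro l _ hl
      rw [f.R_left, ← f.R_mul_apply, ← adjoint_inner_right S]
      have e2 : ((1, k)⁻¹ * (1, l) : Λ × K') = (1, k⁻¹ * l) := by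
        rw [Prod.inv_mk, Prod.mk_mul_mk, inv_one, one_mul]
      rw [e2, horth _ (fun h => hl (inv_mul_eq_one.mp h).symm), inner_zero_right]
    · intro h
      exact absurd hk h
  rw [re_inner_self] at h2
  have h3 : ‖w‖ ^ 2 = ∑ k ∈ F, ‖S (u k)‖ ^ 2 := by exact_mod_cast h2
  have h4 : ‖w‖ ^ 2 ≤ ‖S‖ ^ 2 * a := by
    rw [h3, ha, Finset.mul_sum]
    refine Finset.sum_le_sum fun k _ => ?_
    rw [← mul_pow]
    exact pow_le_pow_left₀ (norm_nonneg _) (S.le_opNorm _) 2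
  have ha0 : 0 ≤ a := Finset.sum_nonneg fun _ _ => by positivity
  have h5 : a ≤ ‖v‖ * ‖w‖ := by
    have := norm_inner_le_norm (𝕜 := ℂ) v w
    rw [h1, Complex.norm_real, Real.norm_of_nonneg ha0] at this
    exact this
  change a ≤ _
  rcases ha0.eq_or_lt with h0 | h0
  · rw [← h0]; positivity
  · have h6 : a ^ 2 ≤ (‖v‖ * ‖w‖) ^ 2 := pow_le_pow_left₀ ha0 h5 2
    have h7 : a * a ≤ (‖S‖ ^ 2 * ‖v‖ ^ 2) * a := by
      calc a * a = a ^ 2 := by ring
        _ ≤ (‖v‖ * ‖w‖) ^ 2 := h6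
        _ = ‖v‖ ^ 2 * ‖w‖ ^ 2 := by ring
        _ ≤ ‖v‖ ^ 2 * (‖S‖ ^ 2 * a) := by gcongr
        _ = _ := by ring
    exact le_of_mul_le_mul_right h7 h0

theorem bes_W (horth : ∀ (k : K'), k ≠ 1 → ∀ v, adjoint S (f.R (1, k) (S v)) = 0) :
    Bes ‖S‖ (fun q : K' × (I × Λ) => f.R (1, q.1) (S (dl q.2))) := by
  classical
  intro s v
  have h1 : ∀ q : K' × (I × Λ), ⟪f.R (1, q.1) (S (dl q.2)), v⟫_ℂ =
      adjoint S (f.R (1, q.1)⁻¹ v) q.2 := by
    intro q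
    rw [f.R_left, ← adjoint_inner_right, inner_dl]
  have h2 : s ⊆ (s.image Prod.fst) ×ˢ (s.image Prod.snd) := by
    intro q hq
    rw [Finset.mem_product]
    exact ⟨Finset.mem_image_of_mem _ hq, Finset.mem_image_of_mem _ hq⟩
  have h3 : ∑ q ∈ s, ‖⟪f.R (1, q.1) (S (dl q.2)), v⟫_ℂ‖ ^ 2 =
      ∑ q ∈ s, ‖adjoint S (f.R (1, q.1)⁻¹ v) q.2‖ ^ 2 :=
    Finset.sum_congr rfl fun q _ => by rw [h1]
  have h4 : ∑ q ∈ s, ‖adjoint S (f.R (1, q.1)⁻¹ v) q.2‖ ^ 2 ≤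
      ∑ q ∈ (s.image Prod.fst) ×ˢ (s.image Prod.snd),
        ‖adjoint S (f.R (1, q.1)⁻¹ v) q.2‖ ^ 2 :=
    Finset.sum_le_sum_of_subset_of_nonneg h2 (fun _ _ _ => by positivity)
  have h5 : ∑ q ∈ (s.image Prod.fst) ×ˢ (s.image Prod.snd),
        ‖adjoint S (f.R (1, q.1)⁻¹ v) q.2‖ ^ 2 =
      ∑ k ∈ s.image Prod.fst, ∑ y ∈ s.image Prod.snd,
        ‖adjoint S (f.R (1, k)⁻¹ v) y‖ ^ 2 := Finset.sum_product _ _ _
  have h6 : ∑ k ∈ s.image Prod.fst, ∑ y ∈ s.image Prod.snd,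
        ‖adjoint S (f.R (1, k)⁻¹ v) y‖ ^ 2 ≤
      ∑ k ∈ s.image Prod.fst, ‖adjoint S (f.R (1, k)⁻¹ v)‖ ^ 2 :=
    Finset.sum_le_sum fun k _ => sum_sq_le (adjoint S (f.R (1, k)⁻¹ v)) (s.image Prod.snd)
  rw [h3]
  exact h4.trans (h5.le.trans (h6.trans (sum_bound horth v (s.image Prod.fst))))

/-- The operator `δ_(k,y) ↦ R(1,k) S δ_y`. -/
noncomputable def Wop (horth : ∀ (k : K'), k ≠ 1 → ∀ v, adjoint S (f.R (1, k) (S v)) = 0) :
    Ell2 (K' × (I × Λ)) →L[ℂ] Ell2 Z := opOf (bes_W horth)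

variable (horth : ∀ (k : K'), k ≠ 1 → ∀ v, adjoint S (f.R (1, k) (S v)) = 0)

theorem Wop_dl (k : K') (y : I × Λ) : Wop horth (dl (k, y)) = f.R (1, k) (S (dl y)) :=
  opOf_dl _ _

theorem Wop_tv (k : K') (u : Ell2 (I × Λ)) : Wop horth (tv (dl k) u) = f.R (1, k) (S u) := by
  have h : Wop horth ∘L tvr (dl k) = f.R (1, k) ∘L S := by
    apply op_ext
    intro y
    rw [comp_apply, comp_apply, tvr_apply, ← dl_prod, Wop_dl]
  exact congrArg (fun L : Ell2 (I × Λ) →L[ℂ] Ell2 Z => L u) h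

theorem Wop_adj (w : Ell2 Z) (k : K') (y : I × Λ) :
    adjoint (Wop horth) w (k, y) = adjoint S (f.R (1, k)⁻¹ w) y := by
  rw [← inner_dl, adjoint_inner_right, Wop_dl, f.R_left, ← adjoint_inner_right, inner_dl]

theorem Wop_adj_dl {c : ℂ} (hc : ∀ v, adjoint S (S v) = c • α 1 v) (k : K')
    (u : Ell2 (I × Λ)) :
    adjoint (Wop horth) (Wop horth (tv (dl k) u)) = c • tv (dl k) (α 1 u) := by
  classical
  apply ext_inner_dl
  rintro ⟨k', y⟩
  rw [Wop_adj, Wop_tv, ← f.R_mul_apply]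
  have e2 : ((1, k')⁻¹ * (1, k) : Λ × K') = (1, k'⁻¹ * k) := by
    rw [Prod.inv_mk, Prod.mk_mul_mk, inv_one, one_mul]
  rw [e2]
  change _ = c * ((dl k : Ell2 K') k' * α 1 u y)
  by_cases h : k' = k
  · subst h
    have e3 : ((1, k'⁻¹ * k') : Λ × K') = 1 := by rw [inv_mul_cancel]; rfl
    rw [e3, f.R_one_apply, hc, dl_self, one_mul]
    rfl
  · rw [horth _ (fun h' => h (inv_mul_eq_one.mp h')), dl_ne h, zero_mul, mul_zero]
    rfl

theorem Wop_eqv (hS : ∀ s v, S ((FS.mat I Λ).R s v) = f.R (dgl ι' s) (S v)) :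
    Eqv (ind ι' (FS.mat I Λ)).R f.R (Wop horth) := by
  intro x v
  have h : Wop horth ∘L (ind ι' (FS.mat I Λ)).R x = f.R x ∘L Wop horth := by
    apply op_ext
    rintro ⟨k, y⟩
    rw [comp_apply, comp_apply, FS.R_dl, ind_act, Wop_dl, Wop_dl, ← FS.R_dl, hS,
      ← f.R_mul_apply, ← f.R_mul_apply]
    congr 2
    rw [dgl_apply]
    refine Prod.ext ?_ ?_
    · change 1 * x.1 = x.1 * 1
      rw [one_mul, mul_one]
    · change x.2 * (k * (ι' x.1)⁻¹) * ι' x.1 = x.2 * k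
      group
  exact congrArg (fun L : Ell2 (K' × (I × Λ)) →L[ℂ] Ell2 Z => L v) h

theorem Wop_A (hA : Tgt f A) (hSA : ∀ g v, S (α g v) = A g (S v)) (g : Γ)
    (v : Ell2 (K' × (I × Λ))) : A g (Wop horth v) = Wop horth (ampR K' (α g) v) := by
  have h : A g ∘L Wop horth = Wop horth ∘L ampR K' (α g) := by
    apply op_ext
    rintro ⟨k, y⟩
    rw [comp_apply, comp_apply, dl_prod, ampR_tv, Wop_tv, Wop_tv, hA.comm, hSA]
  exact congrArg (fun L : Ell2 (K' × (I × Λ)) →L[ℂ] Ell2 Z => L v) h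

theorem ampR_adj {X Y Z : Type} (S : Ell2 Y →L[ℂ] Ell2 Z) :
    adjoint (ampR X S) = ampR X (adjoint S) := by
  rw [eq_comm, ContinuousLinearMap.eq_adjoint_iff]
  intro u v
  have h1 : HasSum (fun x => ⟪adjoint S (sl u x), sl v x⟫_ℂ) ⟪ampR X (adjoint S) u, v⟫_ℂ := by
    have h := hasSum_inner' (ampR X (adjoint S) u) v
    refine h.prod_fiberwise fun x => ?_
    exact hasSum_inner' (adjoint S (sl u x)) (sl v x)
  have h2 : HasSum (fun x => ⟪sl u x, S (sl v x)⟫_ℂ) ⟪u, ampR X S v⟫_ℂ := by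
    have h := hasSum_inner' u (ampR X S v)
    refine h.prod_fiberwise fun x => ?_
    exact hasSum_inner' (sl u x) (S (sl v x))
  simp only [adjoint_inner_left] at h1
  exact h1.unique h2

/-- The projection onto the span of the translates of the range of an intertwiner. -/
theorem exists_E [Fintype J] (hα : AF α) (hA : Tgt f A)
    (hΛ : ∀ s : Λ, s ≠ 1 → Set.Infinite {y : Λ | ∃ h, y = h * s * h⁻¹})
    (hι : ∀ x : K', x ≠ 1 → Set.Infinite {y | ∃ s : Λ, y = ι' s * x * (ι' s)⁻¹})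
    (hS : It α f (dgl ι') A S) (hS0 : S ≠ 0) :
    ∃ E : Ell2 Z →L[ℂ] Ell2 Z, Eqv f.R f.R E ∧ (∀ g v, A g (E v) = E (A g v)) ∧
      (∀ v, E (E v) = E v) ∧ adjoint E = E ∧ (∀ v, A 1 (E v) = E v) ∧
      (∀ w, (∀ x u, ⟪f.R x (S u), w⟫_ℂ = 0) → E w = 0) ∧ f.tr E = (dm α : ℂ) := by
  have hicc := dgl_icc hΛ hι
  have horth : ∀ (k : K'), k ≠ 1 → ∀ v, adjoint S (f.R (1, k) (S v)) = 0 := fun k hk v =>
    hS.coef_zero hα hA (dgl_inj ι') hicc hS (fun h => hk (dgl_mem h)) v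
  obtain ⟨c, hc⟩ := hS.coef_one hα hA (dgl_inj ι') hicc hS
  -- `c` is real and nonzero
  have hS1 : ∀ v, ⟪S v, S v⟫_ℂ = c * ((‖α 1 v‖ ^ 2 : ℝ) : ℂ) := by
    intro v
    rw [← adjoint_inner_right, hc, inner_smul_right, ← re_inner_self, hα.p_left, hα.pp_apply]
  obtain ⟨v₀, hv₀⟩ : ∃ v, S v ≠ 0 := by
    by_contra h
    push Not at h
    exact hS0 (ContinuousLinearMap.ext h)
  have hp0 : ‖α 1 v₀‖ ≠ 0 := by
    intro h
    apply hv₀
    rw [norm_eq_zero] at h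
    rw [← hS.p, h, map_zero]
  have hcr : c = ((‖S v₀‖ ^ 2 / ‖α 1 v₀‖ ^ 2 : ℝ) : ℂ) := by
    have h := hS1 v₀
    rw [re_inner_self] at h
    have h' : ((‖α 1 v₀‖ ^ 2 : ℝ) : ℂ) ≠ 0 := by
      exact_mod_cast pow_ne_zero 2 hp0
    rw [Complex.ofReal_div, h, mul_div_assoc, div_self h', mul_one]
  have hc0 : c ≠ 0 := by
    rw [hcr]
    have h1 : ‖S v₀‖ ≠ 0 := norm_ne_zero_iff.mpr hv₀
    have h2 : ‖S v₀‖ ^ 2 / ‖α 1 v₀‖ ^ 2 ≠ 0 :=
      div_ne_zero (pow_ne_zero 2 h1) (pow_ne_zero 2 hp0)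
    exact_mod_cast h2
  have hcc : (starRingEnd ℂ) c = c := by rw [hcr, Complex.conj_ofReal]
  set W := Wop horth with hW
  have hWW : ∀ v, adjoint W (W v) = c • ampR K' (α 1) v := by
    intro v
    have h : adjoint W ∘L W = c • ampR K' (α 1) := by
      apply op_ext
      rintro ⟨k, y⟩
      rw [comp_apply, dl_prod, hW, Wop_adj_dl horth hc, ContinuousLinearMap.smul_apply, ampR_tv]
    exact congrArg (fun L : Ell2 (K' × (I × Λ)) →L[ℂ] Ell2 (K' × (I × Λ)) => L v) h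
  have hWp : ∀ v, W (ampR K' (α 1) v) = W v := by
    intro v
    have h : W ∘L ampR K' (α 1) = W := by
      apply op_ext
      rintro ⟨k, y⟩
      rw [comp_apply, dl_prod, ampR_tv, hW, Wop_tv, Wop_tv, hS.p]
    exact congrArg (fun L : Ell2 (K' × (I × Λ)) →L[ℂ] Ell2 Z => L v) h
  have hWe : Eqv (ind ι' (FS.mat I Λ)).R f.R W := Wop_eqv horth hS.r
  have hWe' := (ind ι' (FS.mat I Λ)).eqv_adjoint f hWe
  have hWA : ∀ g v, A g (W v) = W (ampR K' (α g) v) := fun g v => Wop_A horth hA hS.a g v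
  have hWA' : ∀ g v, adjoint W (A g v) = ampR K' (α g) (adjoint W v) := by
    intro g v
    refine ext_inner_left ℂ fun u => ?_
    rw [adjoint_inner_right, ← adjoint_inner_left (A g), hA.adj, hWA, ← hα.adj, ← ampR_adj,
      ← adjoint_inner_right W, adjoint_inner_left]
  refine ⟨c⁻¹ • (W ∘L adjoint W), ?_, ?_, ?_, ?_, ?_, ?_, ?_⟩
  · exact (hWe.comp hWe').smul _
  · intro g v
    change A g (c⁻¹ • W (adjoint W v)) = c⁻¹ • W (adjoint W (A g v))
    rw [map_smul, hWA, hWA']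
  · intro v
    change c⁻¹ • W (adjoint W (c⁻¹ • W (adjoint W v))) = c⁻¹ • W (adjoint W v)
    rw [map_smul, map_smul, hWW, map_smul, hWp, smul_smul c⁻¹ c, inv_mul_cancel₀ hc0, one_smul]
  · rw [map_smulₛₗ, adjoint_comp, adjoint_adjoint, map_inv₀, hcc]
  · intro v
    change A 1 (c⁻¹ • W (adjoint W v)) = c⁻¹ • W (adjoint W v)
    rw [map_smul, hWA, hWp]
  · intro w hw
    change c⁻¹ • W (adjoint W w) = 0
    have h0 : adjoint W w = 0 := by
      refine eq_zero_of_inner_dl ?_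
      rintro ⟨k, y⟩
      rw [← inner_dl, adjoint_inner_right, hW, Wop_dl]
      exact hw _ _
    rw [h0, map_zero, smul_zero]
  · have h1 := (ind ι' (FS.mat I Λ)).tr_swap f hWe hWe
    unfold FS.tr
    have h2 : ∀ j, ⟪(dl (f.base j) : Ell2 Z), (c⁻¹ • (W ∘L adjoint W)) (dl (f.base j))⟫_ℂ =
        c⁻¹ * ⟪adjoint W (dl (f.base j)), adjoint W (dl (f.base j))⟫_ℂ := by
      intro j
      rw [ContinuousLinearMap.smul_apply, comp_apply, inner_smul_right, adjoint_inner_left]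
    rw [Finset.sum_congr rfl fun j _ => h2 j, ← Finset.mul_sum, ← h1]
    have h3 : ∀ i : I, ⟪W (dl ((ind ι' (FS.mat I Λ)).base i)),
        W (dl ((ind ι' (FS.mat I Λ)).base i))⟫_ℂ = c * ((‖α 1 (dl (i, 1))‖ ^ 2 : ℝ) : ℂ) := by
      intro i
      rw [ind_base, FS.mat_base, hW, Wop_dl, f.R_inner, hS1]
    rw [Finset.sum_congr rfl fun i _ => h3 i, ← Finset.mul_sum, ← mul_assoc,
      inv_mul_cancel₀ hc0, one_mul]
    unfold dm
    push_cast
    rfl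

/-- If the target has the same trace, the translates of the range are total. -/
theorem total_of_tr [Fintype J] (hα : AF α) (hA : Tgt f A)
    (hΛ : ∀ s : Λ, s ≠ 1 → Set.Infinite {y : Λ | ∃ h, y = h * s * h⁻¹})
    (hι : ∀ x : K', x ≠ 1 → Set.Infinite {y | ∃ s : Λ, y = ι' s * x * (ι' s)⁻¹})
    (hS : It α f (dgl ι') A S) (hS0 : S ≠ 0) (htr : f.tr (A 1) = (dm α : ℂ)) (w : Ell2 Z)
    (hw : A 1 w = w) (h : ∀ x u, ⟪f.R x (S u), w⟫_ℂ = 0) : w = 0 := by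
  obtain ⟨E, hE1, hE2, hE3, hE4, hE5, hE6, hE7⟩ := exists_E hα hA hΛ hι hS hS0
  set D : Ell2 Z →L[ℂ] Ell2 Z := A 1 - E with hD
  have hDe : Eqv f.R f.R D := (hA.comm 1).sub hE1
  have hEA : ∀ v, E (A 1 v) = E v := fun v => by rw [← hE2, hE5]
  have hAA : ∀ v, A 1 (A 1 v) = A 1 v := by
    intro v
    have h1 : A 1 * A 1 = A 1 := by rw [← hA.mul, mul_one]
    exact congrArg (fun T : Ell2 Z →L[ℂ] Ell2 Z => T v) h1
  have hDD : ∀ v, D (D v) = D v := by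
    intro v
    change A 1 (A 1 v - E v) - E (A 1 v - E v) = A 1 v - E v
    rw [map_sub, map_sub, hAA, hE5, hEA, hE3]
    abel
  have hDa : adjoint D = D := by
    rw [hD, map_sub, hA.adj, inv_one, hE4]
  have hD0 : ∀ j, D (dl (f.base j)) = 0 := by
    have h1 : f.tr D = 0 := by
      have h2 : f.tr D = f.tr (A 1) - f.tr E := by
        unfold FS.tr
        rw [← Finset.sum_sub_distrib]
        refine Finset.sum_congr rfl fun j _ => ?_
        rw [hD, ContinuousLinearMap.sub_apply, inner_sub_right]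
      rw [h2, htr, hE7, sub_self]
    have h3 : f.tr D = ((∑ j, ‖D (dl (f.base j))‖ ^ 2 : ℝ) : ℂ) := by
      unfold FS.tr
      push_cast
      refine Finset.sum_congr rfl fun j _ => ?_
      rw [← hDD, ← adjoint_inner_left D, hDa, hDD, re_inner_self]
      push_cast
      rfl
    rw [h3] at h1
    have h4 : ∑ j, ‖D (dl (f.base j))‖ ^ 2 = 0 := by exact_mod_cast h1
    intro j
    have h5 := (Finset.sum_eq_zero_iff_of_nonneg (fun _ _ => by positivity)).mp h4 j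
      (Finset.mem_univ j)
    exact norm_eq_zero.mp ((pow_eq_zero_iff two_ne_zero).mp h5)
  have hDz : D = 0 := f.ext_base f hDe (fun x v => by simp) fun j => by
    rw [hD0, ContinuousLinearMap.zero_apply]
  have h7 : A 1 w = E w := by
    have h8 : D w = 0 := by rw [hDz]; rfl
    exact sub_eq_zero.mp h8
  rw [← hw, h7]
  exact hE6 w h

/-- Multiplicity one. -/
theorem mult_one' [Fintype J] (hα : AF α) (hA : Tgt f A)
    (hΛ : ∀ s : Λ, s ≠ 1 → Set.Infinite {y : Λ | ∃ h, y = h * s * h⁻¹})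
    (hι : ∀ x : K', x ≠ 1 → Set.Infinite {y | ∃ s : Λ, y = ι' s * x * (ι' s)⁻¹})
    (hS : It α f (dgl ι') A S) (hS0 : S ≠ 0) (htr : f.tr (A 1) = (dm α : ℂ))
    {S' : Ell2 (I × Λ) →L[ℂ] Ell2 Z} (hS' : It α f (dgl ι') A S') : ∃ κ : ℂ, S' = κ • S := by
  have hicc := dgl_icc hΛ hι
  obtain ⟨c, hc⟩ := hS.coef_one hα hA (dgl_inj ι') hicc hS
  obtain ⟨c', hc'⟩ := hS.coef_one hα hA (dgl_inj ι') hicc hS'
  have hc0 : c ≠ 0 := by
    intro h0
    apply hS0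
    ext1 v
    have h1 : ⟪S v, S v⟫_ℂ = 0 := by
      rw [← adjoint_inner_right, hc, h0, zero_smul, inner_zero_right]
    rw [ContinuousLinearMap.zero_apply]
    exact inner_self_eq_zero.mp h1
  set D : Ell2 (I × Λ) →L[ℂ] Ell2 Z := S' - (c' / c) • S with hD
  have hDI : It α f (dgl ι') A D := by
    refine ⟨fun s v => ?_, fun g v => ?_, fun v => ?_⟩
    · rw [hD, ContinuousLinearMap.sub_apply, ContinuousLinearMap.sub_apply,
        ContinuousLinearMap.smul_apply, ContinuousLinearMap.smul_apply, hS.r, hS'.r, map_sub,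
        map_smul]
    · rw [hD, ContinuousLinearMap.sub_apply, ContinuousLinearMap.sub_apply,
        ContinuousLinearMap.smul_apply, ContinuousLinearMap.smul_apply, hS.a, hS'.a, map_sub,
        map_smul]
    · rw [hD, ContinuousLinearMap.sub_apply, ContinuousLinearMap.sub_apply,
        ContinuousLinearMap.smul_apply, ContinuousLinearMap.smul_apply, hS.p, hS'.p]
  have h0 : ∀ v, adjoint S (D v) = 0 := by
    intro v
    rw [hD, ContinuousLinearMap.sub_apply, ContinuousLinearMap.smul_apply, map_sub, map_smul, hc,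
      hc', smul_smul, div_mul_cancel₀ _ hc0, sub_self]
  have h1 : ∀ v, D v = 0 := by
    intro v
    refine total_of_tr hα hA hΛ hι hS hS0 htr (D v) ?_ fun x u => ?_
    · rw [← hDI.a, hDI.p]
    · have h2 : ⟪f.R x (S u), D v⟫_ℂ = ⟪u, adjoint S (f.R x⁻¹ (D v))⟫_ℂ := by
        rw [f.R_left, adjoint_inner_right]
      rw [h2]
      by_cases hx : x⁻¹ ∈ Set.range (dgl ι')
      · obtain ⟨s, hs⟩ := hx
        rw [← hs, ← hDI.r, h0, inner_zero_right]
      · rw [hS.coef_zero hα hA (dgl_inj ι') hicc hDI hx, inner_zero_right]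
  refine ⟨c' / c, ?_⟩
  ext1 v
  have h2 := h1 v
  rw [hD, ContinuousLinearMap.sub_apply] at h2
  exact sub_eq_zero.mp h2

end big

end Vale.Agent.P092.H103
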