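import Vale.Agent.P092.H103.Tra
import Vale.Agent.P092.H160.Assembly

/-!
The amplified frame of an isomorphism onto a corner.
-/

set_option linter.all false

open Filter Topology ContinuousLinearMap
open scoped InnerProductSpace ComplexOrder
open Vale.Agent.P092.H160

namespace Vale.Agent.P092.H103

variable {Γ Λ I : Type} [Group Γ] [Group Λ] [Fintype I]

/-- An isomorphism of `L(Γ)` onto a corner of the algebra of matrices over `L(Λ)`, as operators. -/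
structure COp (θ : LG Γ → (Ell2 (I × Λ) →L[ℂ] Ell2 (I × Λ))) : Prop where
  add : ∀ x y, θ (x + y) = θ x + θ y
  smul : ∀ (c : ℂ) x, θ (c • x) = c • θ x
  mul : ∀ x y, θ (x * y) = θ x * θ y
  st : ∀ x, θ (star x) = adjoint (θ x)
  comm : ∀ x, Eqv (FS.mat I Λ).R (FS.mat I Λ).R (θ x)
  inj : Function.Injective θ
  sur : ∀ X, Eqv (FS.mat I Λ).R (FS.mat I Λ).R X → θ 1 * X = X → X * θ 1 = X → ∃ x, θ x = X

variable {θ : LG Γ → (Ell2 (I × Λ) →L[ℂ] Ell2 (I × Λ))}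

theorem COp.oi (h : COp θ) : OI (LG Γ)
    {X | Eqv (FS.mat I Λ).R (FS.mat I Λ).R X ∧ θ 1 * X = X ∧ X * θ 1 = X} θ where
  lim T l L hT hL := by
    refine ⟨fun x η => ?_, ?_, ?_⟩
    · refine ext_inner_left ℂ fun ξ => ?_
      refine tendsto_nhds_unique (hL ξ _) ?_
      have h1 := hL ((FS.mat I Λ).R x⁻¹ ξ) η
      rw [← FS.R_right] at h1
      refine h1.congr fun i => ?_
      rw [(hT i).1, FS.R_right]
    · ext1 η
      refine ext_inner_left ℂ fun ξ => ?_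
      have h1 := hL (adjoint (θ 1) ξ) η
      rw [adjoint_inner_left] at h1
      refine tendsto_nhds_unique h1 ?_
      refine (hL ξ η).congr fun i => ?_
      rw [adjoint_inner_left]
      exact congrArg (fun A : Ell2 (I × Λ) →L[ℂ] Ell2 (I × Λ) => ⟪ξ, A η⟫_ℂ) (hT i).2.1.symm
    · ext1 η
      refine ext_inner_left ℂ fun ξ => ?_
      refine tendsto_nhds_unique (hL ξ (θ 1 η)) ?_
      refine (hL ξ η).congr fun i => ?_
      exact congrArg (fun A : Ell2 (I × Λ) →L[ℂ] Ell2 (I × Λ) => ⟪ξ, A η⟫_ℂ) (hT i).2.2.symm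
  mem x := ⟨h.comm x, by rw [← h.mul, one_mul], by rw [← h.mul, mul_one]⟩
  add := h.add
  inj := h.inj
  pos x hx := by
    obtain ⟨c, hc, hcx⟩ := H108.dc_LG.sqrt_mem x.2 hx
    have h1 : x = star (⟨c, hc⟩ : LG Γ) * ⟨c, hc⟩ := Subtype.ext hcx.symm
    rw [h1, h.mul, h.st]
    exact star_mul_self_nonneg (θ ⟨c, hc⟩)
  one := by
    have h1 : θ 1 * θ 1 = θ 1 := by rw [← h.mul, one_mul]
    have h2 : star (θ 1) = θ 1 := by
      rw [star_eq_adjoint, ← h.st, star_one]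
    have h3 : (1 - θ 1 : Ell2 (I × Λ) →L[ℂ] Ell2 (I × Λ)) = star (1 - θ 1) * (1 - θ 1) := by
      rw [star_sub, star_one, h2, mul_sub, mul_one, sub_mul, one_mul, h1, sub_self, sub_zero]
    rw [← sub_nonneg, h3]
    exact star_mul_self_nonneg _
  sur X hX hX0 := by
    obtain ⟨c, hc, hc2⟩ := H108.exists_sqrt hX0
    obtain ⟨hX1, hX2, hX3⟩ := hX
    have hcR : Eqv (FS.mat I Λ).R (FS.mat I Λ).R c := by
      intro x v
      have h1 := hc2 ((FS.mat I Λ).R x) (by ext1 v; exact (hX1 x v).symm)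
      exact (congrArg (fun A : Ell2 (I × Λ) →L[ℂ] Ell2 (I × Λ) => A v) h1).symm
    have hcp : θ 1 * c = c * θ 1 := hc2 _ (by rw [hX2, hX3])
    have hcc : c * θ 1 = c := by
      ext1 v
      have h1 : c (v - θ 1 v) = 0 := by
        have h2 : ⟪c (v - θ 1 v), c (v - θ 1 v)⟫_ℂ = ⟪v - θ 1 v, X (v - θ 1 v)⟫_ℂ := by
          rw [← hc]
          exact (adjoint_inner_right c _ _).symm
        have h3 : X (v - θ 1 v) = 0 := by
          rw [map_sub]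
          have h4 : X (θ 1 v) = X v :=
            congrArg (fun A : Ell2 (I × Λ) →L[ℂ] Ell2 (I × Λ) => A v) hX3
          rw [h4, sub_self]
        rw [h3, inner_zero_right] at h2
        exact inner_self_eq_zero.mp h2
      rw [map_sub, sub_eq_zero] at h1
      exact h1.symm
    obtain ⟨z, hz⟩ := h.sur c hcR (by rw [hcp, hcc]) hcc
    refine ⟨star z * z, ?_, star_mul_self_nonneg (z : Ell2 Γ →L[ℂ] Ell2 Γ)⟩
    rw [h.mul, h.st, hz, ← hc]
    rfl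

/-- the vectors of the trace -/
noncomputable def bv (I Λ : Type) [Group Λ] (i : I) : Ell2 (I × Λ) := dl (i, 1)

theorem phi_eq (x : LG Γ) : phi (bv I Λ) θ x = (FS.mat I Λ).tr (θ x) := rfl

theorem COp.phi_comm (h : COp θ) (x y : LG Γ) :
    phi (bv I Λ) θ (x * y) = phi (bv I Λ) θ (y * x) := by
  rw [phi_eq, phi_eq, h.mul, h.mul]
  exact (FS.mat I Λ).tr_comm (FS.mat I Λ) (h.comm y) (h.comm x)

theorem COp.tr_aux (h : COp θ)
    (hΓ : ∀ g : Γ, g ≠ 1 → Set.Infinite {y : Γ | ∃ h, y = h * g * h⁻¹}) (T : LG Γ)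
    (h1 : ‖(T : Ell2 Γ →L[ℂ] Ell2 Γ)‖ ≤ 1) (h0 : H160.tr T = 0) : phi (bv I Λ) θ T = 0 := by
  refine trace_fin H108.dc_LG h.oi h.mul h.st h.smul (dl 1)
    (fun T hT h => H108.eq_zero_of_dl hT h) (bv I Λ)
    (G := Γ) uu H108.star_uu_mul (fun g h => uu_mul g h) (fun g x => lam g (rho g x))
    (fun g => (lam g).continuous.comp (rho g).continuous)
    (fun g x => le_of_eq ((norm_rei _ _).trans (norm_rei _ _))) (fun g y => ?_)
    (fun ζ hζ hζ1 => H108.fixed_eq_zero hΓ hζ ((inner_dl 1 ζ).symm.trans hζ1))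
    h.phi_comm T h1 (fun g => ?_)
  · change lam g (rho g ((y : Ell2 Γ →L[ℂ] Ell2 Γ) (dl 1))) =
      lam g ((y : Ell2 Γ →L[ℂ] Ell2 Γ) ((star (lam g) : Ell2 Γ →L[ℂ] Ell2 Γ) (dl 1)))
    have h3 : (y : Ell2 Γ →L[ℂ] Ell2 Γ) (rho g (dl 1)) =
      rho g ((y : Ell2 Γ →L[ℂ] Ell2 Γ) (dl 1)) :=
      congrArg (fun A : Ell2 Γ →L[ℂ] Ell2 Γ => A (dl 1)) (LG_comm_rho y.2 g)
    rw [H160.star_lam, ← h3, rho_dl, lam_dl, one_mul, mul_one]
  · change H160.tr (uu g * T * star (uu g)) = 0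
    rw [H108.tr_comm, ← mul_assoc, H108.star_uu_mul, one_mul, h0]

theorem COp.tr_eq (h : COp θ)
    (hΓ : ∀ g : Γ, g ≠ 1 → Set.Infinite {y : Γ | ∃ h, y = h * g * h⁻¹}) (T : LG Γ) :
    (FS.mat I Λ).tr (θ T) = H160.tr T * (FS.mat I Λ).tr (θ 1) := by
  obtain ⟨S, hS⟩ : ∃ S : LG Γ, S = T - H160.tr T • 1 := ⟨_, rfl⟩
  have hS0 : H160.tr S = 0 := by
    rw [hS, sub_eq_add_neg, ← neg_one_smul ℂ (H160.tr T • (1 : LG Γ)), H108.tr_add, H108.tr_smul,
      H108.tr_smul, H108.tr_one]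
    ring
  obtain ⟨c, hc⟩ : ∃ c : ℝ, c = (‖(S : Ell2 Γ →L[ℂ] Ell2 Γ)‖ + 1)⁻¹ := ⟨_, rfl⟩
  have hn : 0 < ‖(S : Ell2 Γ →L[ℂ] Ell2 Γ)‖ + 1 := by positivity
  have hc0 : 0 < c := by rw [hc]; positivity
  have h1 := h.tr_aux hΓ ((c : ℂ) • S) (by
    change ‖(c : ℂ) • (S : Ell2 Γ →L[ℂ] Ell2 Γ)‖ ≤ 1
    rw [norm_smul, Complex.norm_real, Real.norm_of_nonneg hc0.le, hc, inv_mul_le_iff₀ hn]
    linarith) (by rw [H108.tr_smul, hS0, mul_zero])
  have hlin := phi_lin (bv I Λ) h.oi h.smul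
  have h1' : (c : ℂ) * phi (bv I Λ) θ S = 0 := by
    have h2 := hlin (c : ℂ) 0 S 0
    rw [zero_smul, add_zero, zero_mul, add_zero] at h2
    rw [← h2]
    exact h1
  have h2 : phi (bv I Λ) θ S = 0 := by
    rcases mul_eq_zero.mp h1' with h1 | h1
    · exact absurd (Complex.ofReal_eq_zero.1 h1) hc0.ne'
    · exact h1
  have h3 : T = (1 : ℂ) • S + H160.tr T • 1 := by rw [hS, one_smul]; abel
  have h4 := hlin 1 (H160.tr T) S 1
  rw [← h3, h2, mul_zero, zero_add] at h4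
  exact h4

theorem COp.norm_eq (h : COp θ)
    (hΓ : ∀ g : Γ, g ≠ 1 → Set.Infinite {y : Γ | ∃ h, y = h * g * h⁻¹}) (T : LG Γ) :
    ((∑ i : I, ‖θ T (dl (i, 1))‖ ^ 2 : ℝ) : ℂ) =
      ((‖(T : Ell2 Γ →L[ℂ] Ell2 Γ) (dl 1)‖ ^ 2 : ℝ) : ℂ) * (FS.mat I Λ).tr (θ 1) := by
  rw [norm_sq_eq_tr, ← h.tr_eq hΓ, h.mul, h.st]
  unfold FS.tr
  push_cast
  refine Finset.sum_congr rfl fun i _ => ?_
  change _ = ⟪(dl (i, 1) : Ell2 (I × Λ)), adjoint (θ T) (θ T (dl (i, 1)))⟫_ℂ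
  rw [adjoint_inner_right, re_inner_self]
  push_cast
  rfl

theorem COp.fc (h : COp θ) (s : Finset Γ) (c : Γ → ℂ) :
    θ (H160.fc s c) = ∑ g ∈ s, c g • θ (uu g) := by
  classical
  unfold H160.fc
  induction s using Finset.induction_on with
  | empty => rw [Finset.sum_empty, Finset.sum_empty, h.oi.zero]
  | insert a s ha ih => rw [Finset.sum_insert ha, Finset.sum_insert ha, h.add, h.smul, ih]

/-- The amplified frame of an isomorphism onto a corner. -/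
theorem COp.af (h : COp θ)
    (hΓ : ∀ g : Γ, g ≠ 1 → Set.Infinite {y : Γ | ∃ h, y = h * g * h⁻¹}) :
    AF (fun g => θ (uu g)) where
  mul g k := by rw [uu_mul, h.mul]
  adj g := by rw [← h.st, star_uu]
  comm g := h.comm _
  tr0 g hg := by
    rw [h.tr_eq hΓ]
    have h1 : H160.tr (uu g : LG Γ) = 0 := by
      change ⟪(dl 1 : Ell2 Γ), lam g (dl 1)⟫_ℂ = 0
      rw [lam_dl, mul_one, inner_dl, dl_ne (Ne.symm hg)]
    rw [h1, zero_mul]
  ne := by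
    rw [uu_one]
    intro h0
    have h1 : (1 : LG Γ) = 0 := h.inj (by rw [h0, h.oi.zero])
    have h2 := H108.tr_one (G := Γ)
    have h3 : H160.tr (0 : LG Γ) = 0 := by
      change ⟪(dl 1 : Ell2 Γ), (0 : Ell2 Γ →L[ℂ] Ell2 Γ) (dl 1)⟫_ℂ = 0
      rw [ContinuousLinearMap.zero_apply, inner_zero_right]
    rw [h1, h3] at h2
    exact zero_ne_one h2
  exp X hX h1 h2 := by
    rw [uu_one] at h1 h2
    obtain ⟨a, ha⟩ := h.sur X hX h1 h2
    refine ⟨fun g => (a : Ell2 Γ →L[ℂ] Ell2 Γ) (dl 1) g, fun i => ?_⟩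
    set c : Γ → ℂ := fun g => (a : Ell2 Γ →L[ℂ] Ell2 Γ) (dl 1) g with hc
    have hlim := hasSum_dl ((a : Ell2 Γ →L[ℂ] Ell2 Γ) (dl 1))
    have h3 : ∀ t : Finset Γ, ‖∑ g ∈ t, c g • θ (uu g) (dl (i, 1)) - X (dl (i, 1))‖ ^ 2 ≤
        ‖∑ g ∈ t, c g • dl g - (a : Ell2 Γ →L[ℂ] Ell2 Γ) (dl 1)‖ ^ 2 *
          ‖(FS.mat I Λ).tr (θ 1)‖ := by
      intro t
      have h4 := h.norm_eq hΓ (H160.fc t c - a)
      have h5 : ∀ j : I, θ (H160.fc t c - a) (dl (j, 1)) =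
          ∑ g ∈ t, c g • θ (uu g) (dl (j, 1)) - X (dl (j, 1)) := by
        intro j
        rw [h.oi.sub, h.fc, ha, ContinuousLinearMap.sub_apply, ContinuousLinearMap.sum_apply]
        rfl
      have h6 : ((H160.fc t c - a : LG Γ) : Ell2 Γ →L[ℂ] Ell2 Γ) (dl 1) =
          ∑ g ∈ t, c g • dl g - (a : Ell2 Γ →L[ℂ] Ell2 Γ) (dl 1) := by
        rw [← fc_dl]
        rfl
      rw [h6] at h4
      simp only [h5] at h4
      have h7 := congrArg norm h4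
      rw [norm_mul, Complex.norm_real, Complex.norm_real, Real.norm_of_nonneg
        (Finset.sum_nonneg fun _ _ => by positivity), Real.norm_of_nonneg (by positivity)] at h7
      rw [← h7]
      exact Finset.single_le_sum
        (f := fun j : I => ‖∑ g ∈ t, c g • θ (uu g) (dl (j, 1)) - X (dl (j, 1))‖ ^ 2)
        (fun _ _ => by positivity) (Finset.mem_univ i)
    have h4 : Tendsto (fun t : Finset Γ => ‖∑ g ∈ t, c g • dl g -
        (a : Ell2 Γ →L[ℂ] Ell2 Γ) (dl 1)‖ ^ 2 * ‖(FS.mat I Λ).tr (θ 1)‖) atTop (𝓝 0) := by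
      have h5 : Tendsto (fun t : Finset Γ => ‖∑ g ∈ t, c g • dl g -
        (a : Ell2 Γ →L[ℂ] Ell2 Γ) (dl 1)‖) atTop (𝓝 0) := tendsto_iff_norm_sub_tendsto_zero.mp hlim
      have h6 := (h5.pow 2).mul_const ‖(FS.mat I Λ).tr (θ 1)‖
      rw [zero_pow two_ne_zero, zero_mul] at h6
      exact h6
    have h5 := squeeze_zero (fun _ => by positivity) h3 h4
    have h6 := (Real.continuous_sqrt.tendsto 0).comp h5
    rw [Real.sqrt_zero] at h6
    change Tendsto (fun t : Finset Γ => ∑ g ∈ t, c g • θ (uu g) (dl (i, 1))) atTop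
      (𝓝 (X (dl (i, 1))))
    rw [tendsto_iff_norm_sub_tendsto_zero]
    refine h6.congr fun t => ?_
    rw [Function.comp_apply, Real.sqrt_sq (norm_nonneg _)]

end Vale.Agent.P092.H103
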