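import Vale.Agent.P092.H103.Can
import Vale.Agent.P092.H885.Decay

/-!
The dichotomy for amplified frames: canonical, or decay of the fourth power sums.
-/

set_option linter.all false

open scoped InnerProductSpace
open Filter Topology ContinuousLinearMap
open Vale.Agent.P092.H160
open Vale.Agent.P092.H885 (avg av IsKazhdanPair invSub kazhdan_moves orth_map u_norm gap_norm
  avg_translate soft_coeff)

namespace Vale.Agent.P092.H103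

section dec

variable {Γ Λ I : Type} [Group Γ] [Group Λ] [Fintype I]
  {α : Γ → (Ell2 (I × Λ) →L[ℂ] Ell2 (I × Λ))}

/-- the canonical form of an amplified frame -/
def CanF (α : Γ → (Ell2 (I × Λ) →L[ℂ] Ell2 (I × Λ))) : Prop :=
  ∃ (V : Ell2 Λ →L[ℂ] Ell2 (I × Λ)) (δ : Γ ≃* Λ) (χ : Γ →* Circle),
      Eqv (FS.reg Λ).R (FS.mat I Λ).R V ∧ adjoint V ∘L V = 1 ∧ V ∘L adjoint V = α 1 ∧
      ∀ g, α g = (χ g : ℂ) • (V ∘L lam (δ g) ∘L adjoint V)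

theorem frame_dich (hα : AF α)
    (hΓ : ∀ s : Γ, s ≠ 1 → Set.Infinite {y : Γ | ∃ h, y = h * s * h⁻¹})
    (hΛ : ∀ s : Λ, s ≠ 1 → Set.Infinite {y : Λ | ∃ h, y = h * s * h⁻¹}) :
    (dm α = 1 ∧ CanF α) ∨ (0 : Ell2 (I × Y3 I Λ)) ∈ KK α := by
  obtain ⟨T, hT, hTα, h | h⟩ := cub_dich hα
  · obtain ⟨y, hy⟩ := h
    exact Or.inl (canon_form hα hΓ hΛ hT hTα hy)
  · exact Or.inr h

/-- If the hull contains zero, the fourth power sums are not bounded below. -/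
theorem kk_lower (hα : AF α) (h0 : (0 : Ell2 (I × Y3 I Λ)) ∈ KK α) {c : ℝ} (hc : 0 < c)
    (h : ∀ g, c ≤ q4 α g) : False := by
  have hcl : IsClosed {v : Ell2 (I × Y3 I Λ) | c ≤ (⟪xf α 1, v⟫_ℂ).re} :=
    isClosed_le continuous_const (by fun_prop)
  have h1 : (0 : Ell2 (I × Y3 I Λ)) ∈ {v : Ell2 (I × Y3 I Λ) | c ≤ (⟪xf α 1, v⟫_ℂ).re} := by
    refine closure_minimal ?_ hcl h0
    rintro _ ⟨S, hS, rfl⟩
    have hcv : Cvx {S : Ell2 (I × Λ) →L[ℂ] Ell2 (Y3 I Λ) | c ≤ (⟪xf α 1, ev' S⟫_ℂ).re} := by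
      intro R hR R' hR' a b ha hb hab
      have hR1 : c ≤ (⟪xf α 1, ev' R⟫_ℂ).re := hR
      have hR2 : c ≤ (⟪xf α 1, ev' R'⟫_ℂ).re := hR'
      change c ≤ (⟪xf α 1, ev' ((a : ℂ) • R + (b : ℂ) • R')⟫_ℂ).re
      rw [map_add, map_smul, map_smul, inner_add_right, inner_smul_right, inner_smul_right,
        Complex.add_re, Complex.re_ofReal_mul, Complex.re_ofReal_mul]
      calc c = a * c + b * c := by rw [← add_mul, hab, one_mul]
        _ ≤ _ := by gcongr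
    refine hull_subset hcv ?_ hS
    rintro _ ⟨g, rfl⟩
    change c ≤ (⟪xf α 1, xf α g⟫_ℂ).re
    rw [xf_coeff' hα, Complex.ofReal_re]
    exact h g
  have h2 : c ≤ (⟪xf α 1, (0 : Ell2 (I × Y3 I Λ))⟫_ℂ).re := h1
  rw [inner_zero_right, Complex.zero_re] at h2
  linarith

theorem q4_re (hα : AF α) (g : Γ) :
    q4 α g = (⟪zt (xf α) 1, gpi (xf_inv hα) g (zt (xf α) 1)⟫_ℂ).re := by
  rw [gpi_zt, mul_one]
  change q4 α g = (⟪xf α 1, xf α g⟫_ℂ).re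
  rw [xf_coeff' hα, Complex.ofReal_re]

theorem q4_one (hα : AF α) : q4 α 1 = ‖zt (xf α) 1‖ ^ 2 := by
  have h := q4_re hα 1
  have h1 : gpi (xf_inv hα) 1 (zt (xf α) 1) = zt (xf α) 1 := by rw [map_one]; rfl
  rw [h1, re_inner_self, Complex.ofReal_re] at h
  exact h

/-- The case of a Kazhdan pair. -/
theorem frame_kazhdan (hα : AF α)
    (hor : ∀ η : Mx (xf α), (∀ g, gpi (xf_inv hα) g η = η) → ⟪η, zt (xf α) 1⟫_ℂ = 0)
    {Q : Finset Γ} {ε : ℝ} (hK : IsKazhdanPair Γ Q ε) :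
    (∃ s ∈ Q, q4 α s ≤ (1 - ε ^ 2 / 2) * q4 α 1) ∧ ∀ (a b : Γ) (k : ℕ),
      (avg Q)^[k] (fun g => q4 α (a * g * b)) 1 ≤ (1 - ε ^ 2 / (4 * Q.card)) ^ k * q4 α 1 := by
  set π := gpi (xf_inv hα) with hπdef
  have hπ : ∀ g, adjoint (π g) = π g⁻¹ := gpi_adj (xf_inv hα)
  set ξ := zt (xf α) 1 with hξ
  have hmem : ξ ∈ (invSub π)ᗮ := (Submodule.mem_orthogonal _ _).mpr fun η hη => hor η hη
  have hgap : ∀ v ∈ (invSub π)ᗮ, ∃ s ∈ Q, ε * ‖v‖ ≤ ‖π s v - v‖ :=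
    fun v hv => kazhdan_moves hπ hK hv
  obtain ⟨s, hs, hs1⟩ := hgap _ hmem
  rw [q4_one hα]
  refine ⟨⟨s, hs, ?_⟩, fun a b k => ?_⟩
  · rw [q4_re hα]
    have h3 := norm_sub_sq (𝕜 := ℂ) (π s ξ) ξ
    rw [u_norm hπ] at h3
    have h4 : (⟪π s ξ, ξ⟫_ℂ).re = (⟪ξ, π s ξ⟫_ℂ).re := by
      rw [← inner_conj_symm, Complex.conj_re]
    have h5 : ‖π s ξ - ξ‖ ^ 2 = ‖ξ‖ ^ 2 - 2 * (⟪π s ξ, ξ⟫_ℂ).re + ‖ξ‖ ^ 2 := h3
    have h6 : (ε * ‖ξ‖) ^ 2 ≤ ‖π s ξ - ξ‖ ^ 2 :=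
      pow_le_pow_left₀ (mul_nonneg hK.1.le (norm_nonneg _)) hs1 2
    rw [h5, h4, mul_pow] at h6
    change (⟪ξ, π s ξ⟫_ℂ).re ≤ _
    linarith
  · simp only [q4_re hα]
    rw [avg_translate hπ]
    have h1 := gap_norm hπ hK.1.le ⟨s, hs⟩ _ (fun g v hv => orth_map hπ g hv) hgap
      (orth_map hπ b hmem) k
    rw [u_norm hπ] at h1
    calc _ ≤ ‖⟪π a⁻¹ ξ, (av π Q)^[k] (π b ξ)⟫_ℂ‖ := Complex.re_le_norm _
      _ ≤ ‖π a⁻¹ ξ‖ * ‖(av π Q)^[k] (π b ξ)‖ := norm_inner_le_norm _ _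
      _ ≤ ‖ξ‖ * ((1 - ε ^ 2 / (4 * Q.card)) ^ k * ‖ξ‖) := by
          rw [u_norm hπ]
          gcongr
      _ = _ := by ring

/-- The case of a finite generating set. -/
theorem frame_soft (hα : AF α)
    (hor : ∀ η : Mx (xf α), (∀ g, gpi (xf_inv hα) g η = η) → ⟪η, zt (xf α) 1⟫_ℂ = 0)
    {Q : Finset Γ} (hQ : Q.Nonempty) (hgen : Subgroup.closure (Q : Set Γ) = ⊤) (a b : Γ) :
    Tendsto (fun k : ℕ => (avg Q)^[k] (fun g => q4 α (a * g * b)) 1) atTop (𝓝 0) := by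
  simp only [q4_re hα]
  exact soft_coeff (gpi_adj (xf_inv hα)) hQ hgen hor a b

/-! ### The lower bound in the canonical case -/

/-- uniformly approximable by vectors with few nonzero coordinates -/
def Tgh {X : Type} (S : Set (Ell2 X)) : Prop :=
  ∀ ε : ℝ, 0 < ε → ∃ N : ℕ, ∀ ξ ∈ S, ∃ (F : Finset X) (η : Ell2 X), F.card ≤ N ∧
    (∀ x ∉ F, η x = 0) ∧ ‖ξ - η‖ ≤ ε

theorem approx {X : Type} (ξ : Ell2 X) {ε : ℝ} (hε : 0 < ε) :
    ∃ F : Finset X, ‖ξ - ∑ x ∈ F, ξ x • (dl x : Ell2 X)‖ ≤ ε := by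
  have h1 := (hasSum_dl ξ).eventually (Metric.ball_mem_nhds ξ hε)
  obtain ⟨F, hF⟩ := h1.exists
  refine ⟨F, ?_⟩
  rw [← dist_eq_norm, dist_comm]
  exact (Metric.mem_ball.mp hF).le

theorem sum_dl_apply {X : Type} [DecidableEq X] (F : Finset X) (c : X → ℂ) (x : X) :
    (∑ y ∈ F, c y • (dl y : Ell2 X)) x = if x ∈ F then c x else 0 := by
  rw [lp.coeFn_sum, Finset.sum_apply]
  have h : ∀ y ∈ F, (c y • (dl y : Ell2 X)) x = if x = y then c x else 0 := by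
    intro y _
    change c y * (dl y : Ell2 X) x = _
    rw [dl_apply]
    split_ifs with h
    · rw [h, mul_one]
    · rw [mul_zero]
  rw [Finset.sum_congr rfl h, Finset.sum_ite_eq]

theorem tgh_V {V : Ell2 Λ →L[ℂ] Ell2 (I × Λ)} (hVe : Eqv (FS.reg Λ).R (FS.mat I Λ).R V)
    (hi : adjoint V ∘L V = 1) (a : Ell2 Λ) :
    Tgh {ξ : Ell2 (I × Λ) | ∃ (t : Λ) (z : Circle), ξ = (z : ℂ) • V (lam t a)} := by
  classical
  intro ε hε
  obtain ⟨F, hF⟩ := approx a (ε := ε / 2) (by positivity)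
  set r : ℝ := ∑ x ∈ F, ‖a x‖ with hr
  have hr0 : 0 ≤ r := Finset.sum_nonneg fun _ _ => norm_nonneg _
  obtain ⟨E, hE⟩ := approx (V (dl 1)) (ε := ε / (2 * (r + 1))) (by positivity)
  set e' : Ell2 (I × Λ) := ∑ x ∈ E, V (dl 1) x • (dl x : Ell2 (I × Λ)) with he'
  have hVn : ∀ v, ‖V v‖ = ‖v‖ := fun v => norm_of_adj_comp hi v
  have hVdl : ∀ x, V (dl x) = (FS.mat I Λ).R x⁻¹ (V (dl 1)) := by
    intro x
    rw [← hVe, FS.reg_R, ← dl_eq_rho]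
  refine ⟨F.card * E.card, ?_⟩
  rintro _ ⟨t, z, rfl⟩
  refine ⟨F.biUnion fun x => E.image ((FS.mat I Λ).act (t * x)⁻¹),
    (z : ℂ) • ∑ x ∈ F, a x • (FS.mat I Λ).R (t * x)⁻¹ e', ?_, fun y hy => ?_, ?_⟩
  · refine Finset.card_biUnion_le.trans ?_
    calc ∑ x ∈ F, (E.image ((FS.mat I Λ).act (t * x)⁻¹)).card ≤ ∑ x ∈ F, E.card :=
          Finset.sum_le_sum fun x _ => Finset.card_image_le
      _ = _ := by rw [Finset.sum_const, smul_eq_mul]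
  · change (z : ℂ) * (∑ x ∈ F, a x • (FS.mat I Λ).R (t * x)⁻¹ e' : Ell2 (I × Λ)) y = 0
    rw [lp.coeFn_sum, Finset.sum_apply, Finset.sum_eq_zero, mul_zero]
    intro x hx
    change a x * ((FS.mat I Λ).R (t * x)⁻¹ e') y = 0
    rw [FS.R_val, inv_inv, he', sum_dl_apply, if_neg, mul_zero]
    intro hmem
    refine hy (Finset.mem_biUnion.mpr ⟨x, hx, Finset.mem_image.mpr ⟨_, hmem, ?_⟩⟩)
    have h1 : (FS.mat I Λ).act (t * x)⁻¹ ((FS.mat I Λ).act (t * x) y) =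
        ((FS.mat I Λ).act (t * x)⁻¹ * (FS.mat I Λ).act (t * x)) y := rfl
    rw [h1, ← map_mul, inv_mul_cancel, map_one]
    rfl
  · rw [← smul_sub, norm_smul, Circle.norm_coe, one_mul]
    have h1 : V (lam t a) - ∑ x ∈ F, a x • (FS.mat I Λ).R (t * x)⁻¹ e' =
        V (lam t (a - ∑ x ∈ F, a x • (dl x : Ell2 Λ))) +
          ∑ x ∈ F, a x • (FS.mat I Λ).R (t * x)⁻¹ (V (dl 1) - e') := by
      rw [map_sub, map_sub, map_sum, map_sum]
      have h2 : ∀ x ∈ F, V (lam t (a x • (dl x : Ell2 Λ))) =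
          a x • (FS.mat I Λ).R (t * x)⁻¹ (V (dl 1)) := by
        intro x _
        rw [map_smul, map_smul, lam_dl, hVdl]
      rw [Finset.sum_congr rfl h2]
      simp only [map_sub, smul_sub, Finset.sum_sub_distrib]
      abel
    rw [h1]
    refine (norm_add_le _ _).trans ?_
    have h2 : ‖V (lam t (a - ∑ x ∈ F, a x • (dl x : Ell2 Λ)))‖ ≤ ε / 2 := by
      rw [hVn, norm_lam]
      exact hF
    have h3 : ‖∑ x ∈ F, a x • (FS.mat I Λ).R (t * x)⁻¹ (V (dl 1) - e')‖ ≤ ε / 2 := by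
      calc _ ≤ ∑ x ∈ F, ‖a x • (FS.mat I Λ).R (t * x)⁻¹ (V (dl 1) - e')‖ := norm_sum_le _ _
        _ ≤ ∑ x ∈ F, ‖a x‖ * (ε / (2 * (r + 1))) := by
            refine Finset.sum_le_sum fun x _ => ?_
            rw [norm_smul, FS.R_norm]
            gcongr
        _ = r * (ε / (2 * (r + 1))) := by rw [← Finset.sum_mul]
        _ ≤ (r + 1) * (ε / (2 * (r + 1))) := by gcongr; linarith
        _ = ε / 2 := by field_simp
    linarith

theorem summable_four {X : Type} (ξ : Ell2 X) : Summable fun s => ‖ξ s‖ ^ 4 := by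
  refine Summable.of_nonneg_of_le (fun _ => by positivity) (fun s => ?_)
    ((summable_sq ξ).mul_left (‖ξ‖ ^ 2))
  have h2 : ‖ξ s‖ ^ 2 ≤ ‖ξ‖ ^ 2 := pow_le_pow_left₀ (norm_nonneg _) (norm_coord_le ξ s) 2
  calc ‖ξ s‖ ^ 4 = ‖ξ s‖ ^ 2 * ‖ξ s‖ ^ 2 := by ring
    _ ≤ ‖ξ‖ ^ 2 * ‖ξ s‖ ^ 2 := by gcongr

/-- lower bound of the fourth power sum of a vector which is nearly supported on `N` points -/
theorem four_lower {X : Type} {ξ η : Ell2 X} {F : Finset X} {N : ℕ} (hF : F.card ≤ N)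
    (hη : ∀ x ∉ F, η x = 0) {r : ℝ} (hr : 0 ≤ r) (hd : ‖ξ - η‖ ^ 2 ≤ r) (h2r : 2 * r ≤ ‖ξ‖ ^ 2) :
    r ^ 2 / (N + 1) ≤ ∑' s, ‖ξ s‖ ^ 4 := by
  classical
  have h2 : r ≤ ∑ s ∈ F, ‖ξ s‖ ^ 2 := by
    have h3 : HasSum (fun s => ‖ξ s‖ ^ 2) (‖ξ‖ ^ 2) := by
      rw [norm_sq]
      exact (summable_sq ξ).hasSum
    have h4 : HasSum (fun s => if s ∈ F then ‖ξ s‖ ^ 2 else 0) (∑ s ∈ F, ‖ξ s‖ ^ 2) := by
      have h5 : HasSum (fun s => if s ∈ F then ‖ξ s‖ ^ 2 else 0)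
          (∑ s ∈ F, (if s ∈ F then ‖ξ s‖ ^ 2 else 0)) :=
        hasSum_sum_of_ne_finset_zero (fun d hd => if_neg hd)
      rwa [Finset.sum_congr rfl fun d hd => if_pos hd] at h5
    have h6 := h3.sub h4
    have h7 : HasSum (fun s => ‖(ξ - η) s‖ ^ 2) (‖ξ - η‖ ^ 2) := by
      rw [norm_sq]
      exact (summable_sq _).hasSum
    have h8 : ‖ξ‖ ^ 2 - ∑ s ∈ F, ‖ξ s‖ ^ 2 ≤ ‖ξ - η‖ ^ 2 := by
      refine hasSum_le (fun s => ?_) h6 h7
      by_cases hs : s ∈ F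
      · rw [if_pos hs, sub_self]; positivity
      · rw [if_neg hs, sub_zero]
        have : (ξ - η) s = ξ s := by
          change ξ s - η s = ξ s
          rw [hη s hs, sub_zero]
        rw [this]
    linarith
  have h3 : (∑ s ∈ F, ‖ξ s‖ ^ 2) ^ 2 ≤ F.card * ∑ s ∈ F, ‖ξ s‖ ^ 4 := by
    have := sq_sum_le_card_mul_sum_sq (s := F) (f := fun s => ‖ξ s‖ ^ 2)
    refine this.trans (le_of_eq ?_)
    congr 1
    refine Finset.sum_congr rfl fun s _ => ?_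
    ring
  have h4 : ∑ s ∈ F, ‖ξ s‖ ^ 4 ≤ ∑' s, ‖ξ s‖ ^ 4 :=
    (summable_four ξ).sum_le_tsum F fun _ _ => by positivity
  have h5 : (0 : ℝ) ≤ ∑' s, ‖ξ s‖ ^ 4 := tsum_nonneg fun _ => by positivity
  rw [div_le_iff₀ (by positivity)]
  have h6 : (F.card : ℝ) ≤ N := by exact_mod_cast hF
  calc r ^ 2 ≤ (∑ s ∈ F, ‖ξ s‖ ^ 2) ^ 2 := pow_le_pow_left₀ hr h2 2
    _ ≤ F.card * ∑ s ∈ F, ‖ξ s‖ ^ 4 := h3
    _ ≤ N * ∑' s, ‖ξ s‖ ^ 4 := by gcongr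
    _ ≤ (∑' s, ‖ξ s‖ ^ 4) * (N + 1) := by linarith

theorem sum_norm_al (hα : AF α) (g : Γ) : ∑ i : I, ‖α g (dl (i, 1))‖ ^ 2 = dm α := by
  have h1 : ((∑ i : I, ‖α g (dl (i, 1))‖ ^ 2 : ℝ) : ℂ) = (dm α : ℂ) := by
    rw [← tr_p hα]
    unfold FS.tr
    push_cast
    refine Finset.sum_congr rfl fun i _ => ?_
    have h2 := hα.inner_map g (dl (i, 1)) (dl (i, 1))
    rw [re_inner_self] at h2
    push_cast at h2
    exact h2
  exact_mod_cast h1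

/-- The fourth power sums of a canonical frame are bounded below. -/
theorem frame_lower (hα : AF α) (hc : CanF α) : ∃ c : ℝ, 0 < c ∧ ∀ g, c ≤ q4 α g := by
  obtain ⟨V, δ, χ, hVe, hi, hf, h3⟩ := hc
  have hd := dm_pos hα
  have hI : (0 : ℝ) < Fintype.card I := by
    by_contra hcon
    push Not at hcon
    have h1 : Fintype.card I = 0 := by
      have : (0 : ℝ) ≤ Fintype.card I := by positivity
      exact_mod_cast le_antisymm hcon this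
    have h2 : IsEmpty I := Fintype.card_eq_zero_iff.mp h1
    have h3 : dm α = 0 := by
      unfold dm
      exact Finset.sum_of_isEmpty _
    exact hd.ne' h3
  set r : ℝ := dm α / (2 * Fintype.card I) with hr
  have hr0 : 0 < r := by positivity
  have ht := fun i : I => tgh_V hVe hi (adjoint V (dl (i, 1))) (Real.sqrt r) (Real.sqrt_pos.mpr hr0)
  choose N hN using ht
  refine ⟨r ^ 2 / ((∑ i, N i : ℕ) + 1), by positivity, fun g => ?_⟩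
  -- a large column
  obtain ⟨i, hi2⟩ : ∃ i : I, 2 * r ≤ ‖α g (dl (i, 1))‖ ^ 2 := by
    by_contra hcon
    push Not at hcon
    have hne : (Finset.univ : Finset I).Nonempty := by
      rw [Finset.univ_nonempty_iff, ← Fintype.card_pos_iff]
      exact_mod_cast hI
    have h4 : ∑ i : I, ‖α g (dl (i, 1))‖ ^ 2 < ∑ i : I, 2 * r :=
      Finset.sum_lt_sum_of_nonempty hne fun i _ => hcon i
    rw [sum_norm_al hα, Finset.sum_const, Finset.card_univ, nsmul_eq_mul, hr] at h4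
    have h5 : (Fintype.card I : ℝ) * (2 * (dm α / (2 * Fintype.card I))) = dm α := by
      field_simp
    rw [h5] at h4
    exact lt_irrefl _ h4
  obtain ⟨F, η, hF, hη, hdist⟩ := hN i (α g (dl (i, 1))) ⟨δ g, χ g, by rw [h3 g]; rfl⟩
  have hdist2 : ‖α g (dl (i, 1)) - η‖ ^ 2 ≤ r := by
    have := pow_le_pow_left₀ (norm_nonneg _) hdist 2
    rwa [Real.sq_sqrt hr0.le] at this
  have h4 := four_lower hF hη hr0.le hdist2 hi2
  have h5 : (N i : ℝ) ≤ (∑ i, N i : ℕ) := by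
    exact_mod_cast Finset.single_le_sum (f := N) (fun _ _ => Nat.zero_le _) (Finset.mem_univ i)
  calc r ^ 2 / ((∑ i, N i : ℕ) + 1) ≤ r ^ 2 / (N i + 1) := by gcongr
    _ ≤ ∑' s, ‖(α g (dl (i, 1))) s‖ ^ 4 := h4
    _ ≤ q4 α g := Finset.single_le_sum (f := fun i : I => ∑' s, ‖(α g (dl (i, 1))) s‖ ^ 4)
        (fun _ _ => tsum_nonneg fun _ => by positivity) (Finset.mem_univ i)

end dec

end Vale.Agent.P092.H103
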