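import Vale.Agent.P092.H103.StD
import Vale.Agent.P092.H103.CO
import Vale.Agent.P092.H103.Dec
import Vale.Agent.P092.H160.Bridge
import Vale.Agent.P092.H885.Conv

/-!
From matrices over `L(Λ)` to operators on `ℓ²(n × Λ)`.
-/

set_option linter.all false

open scoped InnerProductSpace
open Filter Topology ContinuousLinearMap
open Vale.Agent.P092.H160
open Vale.Agent.P092.H885 (fourth IsKazhdanPair avg)

namespace Vale.Agent.P092.H103

section mat

variable {Γ Λ : Type} [Group Γ] [Group Λ] {n : ℕ}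

theorem ext_sl {X Y : Type} {u v : Ell2 (X × Y)} (h : ∀ x, sl u x = sl v x) : u = v := by
  apply ext_inner_dl
  rintro ⟨x, y⟩
  exact congrArg (fun w : Ell2 Y => w y) (h x)

theorem inner_sl {I Y : Type} [Fintype I] (u v : Ell2 (I × Y)) :
    ⟪u, v⟫_ℂ = ∑ i, ⟪sl u i, sl v i⟫_ℂ := by
  have h1 := (hasSum_inner' u v).prod_fiberwise fun i => hasSum_inner' (sl u i) (sl v i)
  rw [← h1.tsum_eq, tsum_fintype]

theorem sum_tv_sl {I Y : Type} [Fintype I] (v : Ell2 (I × Y)) : ∑ i, tv (dl i) (sl v i) = v := by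
  classical
  apply ext_sl
  intro j
  apply ext_inner_dl
  intro y
  rw [sl_apply, lp.coeFn_sum, Finset.sum_apply, Finset.sum_eq_single j]
  · rw [tv_apply, dl_self, one_mul]
  · intro i _ hi
    rw [tv_apply, dl_ne hi.symm, zero_mul]
  · intro h
    exact absurd (Finset.mem_univ j) h

/-- the operator of a matrix -/
noncomputable def cf (A : St.MOp n Λ) : Ell2 (Fin n × Λ) →L[ℂ] Ell2 (Fin n × Λ) :=
  ∑ i, ∑ j, tvr (dl i) ∘L A i j ∘L slL Λ j

theorem cf_sl (A : St.MOp n Λ) (v : Ell2 (Fin n × Λ)) (i : Fin n) :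
    sl (cf A v) i = ∑ j, A i j (sl v j) := by
  classical
  have h1 : cf A v = ∑ k, tv (dl k) (∑ j, A k j (sl v j)) := by
    unfold cf
    rw [ContinuousLinearMap.sum_apply]
    refine Finset.sum_congr rfl fun k _ => ?_
    rw [ContinuousLinearMap.sum_apply]
    change ∑ j, tvr (dl k) (A k j (sl v j)) = tvr (dl k) (∑ j, A k j (sl v j))
    rw [map_sum]
  rw [h1]
  apply ext_inner_dl
  intro y
  rw [sl_apply, lp.coeFn_sum, Finset.sum_apply, Finset.sum_eq_single i]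
  · rw [tv_apply, dl_self, one_mul]
  · intro k _ hk
    rw [tv_apply, dl_ne hk.symm, zero_mul]
  · intro h
    exact absurd (Finset.mem_univ i) h

theorem cf_mmul (A B : St.MOp n Λ) : cf (St.mmul A B) = cf A * cf B := by
  ext1 v
  apply ext_sl
  intro i
  change _ = sl (cf A (cf B v)) i
  rw [cf_sl, cf_sl]
  have h1 : ∀ j, St.mmul A B i j (sl v j) = ∑ k, A i k (B k j (sl v j)) := by
    intro j
    unfold St.mmul
    rw [ContinuousLinearMap.sum_apply]
    rfl
  rw [Finset.sum_congr rfl fun j _ => h1 j, Finset.sum_comm]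
  refine Finset.sum_congr rfl fun k _ => ?_
  rw [cf_sl, map_sum]

theorem cf_madd (A B : St.MOp n Λ) : cf (St.madd A B) = cf A + cf B := by
  ext1 v
  apply ext_sl
  intro i
  rw [ContinuousLinearMap.add_apply, sl_add, cf_sl, cf_sl, cf_sl, ← Finset.sum_add_distrib]
  rfl

theorem cf_smul {c : ℂ} {A B : St.MOp n Λ} (h : St.IsMSmul c A B) : cf B = c • cf A := by
  ext1 v
  apply ext_sl
  intro i
  rw [ContinuousLinearMap.smul_apply, sl_smul, cf_sl, cf_sl, Finset.smul_sum]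
  exact Finset.sum_congr rfl fun j _ => h i j _

theorem cf_adj {A B : St.MOp n Λ} (h : St.IsMAdj A B) : cf B = adjoint (cf A) := by
  rw [ContinuousLinearMap.eq_adjoint_iff]
  intro u v
  rw [inner_sl, inner_sl]
  simp only [cf_sl, sum_inner, inner_sum]
  rw [Finset.sum_comm]
  refine Finset.sum_congr rfl fun i _ => Finset.sum_congr rfl fun j _ => ?_
  have h1 := (isAdj_iff _ _).mp (h i j)
  rw [h1, star_eq_adjoint, adjoint_inner_left]

/-- the matrix of an operator -/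
noncomputable def ent (X : Ell2 (Fin n × Λ) →L[ℂ] Ell2 (Fin n × Λ)) : St.MOp n Λ :=
  fun i j => slL Λ i ∘L X ∘L tvr (dl j)

theorem cf_ent (X : Ell2 (Fin n × Λ) →L[ℂ] Ell2 (Fin n × Λ)) : cf (ent X) = X := by
  ext1 v
  apply ext_sl
  intro i
  rw [cf_sl]
  change ∑ j, slL Λ i (X (tv (dl j) (sl v j))) = slL Λ i (X v)
  rw [← map_sum, ← map_sum, sum_tv_sl]

theorem ent_cf (A : St.MOp n Λ) : ent (cf A) = A := by
  classical
  funext i j
  ext1 v
  change sl (cf A (tv (dl j) v)) i = A i j v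
  rw [cf_sl, Finset.sum_eq_single j]
  · rw [sl_tv, dl_self, one_smul]
  · intro k _ hk
    rw [sl_tv, dl_ne hk, zero_smul, map_zero]
  · intro h
    exact absurd (Finset.mem_univ j) h

theorem cf_inj {A B : St.MOp n Λ} (h : cf A = cf B) : A = B := by
  rw [← ent_cf A, h, ent_cf]

theorem sl_R (s : Λ) (v : Ell2 (Fin n × Λ)) (i : Fin n) :
    sl ((FS.mat (Fin n) Λ).R s v) i = rho s (sl v i) := by
  apply ext_inner_dl
  intro y
  rw [sl_apply, FS.R_val, FS.mat_act, inv_inv, rho_apply, sl_apply]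

theorem tv_R (s : Λ) (v : Ell2 Λ) (i : Fin n) :
    (FS.mat (Fin n) Λ).R s (tv (dl i) v) = tv (dl i) (rho s v) := by
  apply ext_sl
  intro j
  rw [sl_R, sl_tv, sl_tv, map_smul]

theorem inL_rho {T : Ell2 Λ →L[ℂ] Ell2 Λ} (hT : H160.St.InL T) (s : Λ) (v : Ell2 Λ) :
    T (rho s v) = rho s (T v) :=
  congrArg (fun A : Ell2 Λ →L[ℂ] Ell2 Λ => A v) (LG_comm_rho ((inL_iff T).mp hT) s)

theorem inL_of_rho {T : Ell2 Λ →L[ℂ] Ell2 Λ} (h : ∀ s v, T (rho s v) = rho s (T v)) :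
    H160.St.InL T := by
  refine (inL_iff T).mpr (mem_LG_of_cmm fun s => ?_)
  ext1 v
  exact h s v

theorem cf_eqv {A : St.MOp n Λ} (hA : St.InM A) :
    Eqv (FS.mat (Fin n) Λ).R (FS.mat (Fin n) Λ).R (cf A) := by
  intro s v
  apply ext_sl
  intro i
  rw [cf_sl, sl_R, cf_sl, map_sum]
  refine Finset.sum_congr rfl fun j _ => ?_
  rw [sl_R, inL_rho (hA i j)]

theorem ent_inM {X : Ell2 (Fin n × Λ) →L[ℂ] Ell2 (Fin n × Λ)}
    (hX : Eqv (FS.mat (Fin n) Λ).R (FS.mat (Fin n) Λ).R X) : St.InM (ent X) := by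
  intro i j
  refine inL_of_rho fun s v => ?_
  change sl (X (tv (dl j) (rho s v))) i = rho s (sl (X (tv (dl j) v)) i)
  rw [← tv_R, hX, sl_R]

variable {p : St.MOp n Λ}

/-- the operator form of an isomorphism onto a corner -/
noncomputable def thf (θ : St.CornerIso Γ Λ n p) (x : LG Γ) :
    Ell2 (Fin n × Λ) →L[ℂ] Ell2 (Fin n × Λ) := cf (θ.toFun (x : Ell2 Γ →L[ℂ] Ell2 Γ))

theorem inL_coe (x : LG Γ) : H160.St.InL (x : Ell2 Γ →L[ℂ] Ell2 Γ) := (inL_iff _).mpr x.2

theorem one_eq (hp : St.IsProj p) (θ : St.CornerIso Γ Λ n p) :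
    θ.toFun (1 : Ell2 Γ →L[ℂ] Ell2 Γ) = p := by
  have h1 : H160.St.InL (1 : Ell2 Γ →L[ℂ] Ell2 Γ) := inL_coe (1 : LG Γ)
  have hpc : St.InC p p := ⟨hp.mem, hp.idem, hp.idem⟩
  have h2 := θ.map_mul 1 (θ.invFun p) h1 (θ.inv_mem p hpc)
  have h3 : H160.St.mul (1 : Ell2 Γ →L[ℂ] Ell2 Γ) (θ.invFun p) = θ.invFun p := by
    ext1 v
    rfl
  rw [h3, θ.right_inv p hpc] at h2
  exact (θ.map_mem 1 h1).2.2.symm.trans h2.symm

theorem cop (hp : St.IsProj p) (θ : St.CornerIso Γ Λ n p) : COp (thf θ) where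
  add x y := by
    unfold thf
    rw [← cf_madd, ← θ.map_add _ _ (inL_coe x) (inL_coe y)]
    rfl
  smul c x := by
    unfold thf
    exact cf_smul (θ.map_smul c _ _ (inL_coe x) (inL_coe (c • x)) ((isSmul_iff _ _ _).mpr rfl))
  mul x y := by
    unfold thf
    rw [← cf_mmul, ← θ.map_mul _ _ (inL_coe x) (inL_coe y)]
    rfl
  st x := by
    unfold thf
    exact cf_adj (θ.map_adj _ _ (inL_coe x) (inL_coe (star x)) ((isAdj_iff _ _).mpr rfl))
  comm x := cf_eqv (θ.map_mem _ (inL_coe x)).1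
  inj x y h := by
    have h1 := cf_inj h
    have h2 := congrArg θ.invFun h1
    rw [θ.left_inv _ (inL_coe x), θ.left_inv _ (inL_coe y)] at h2
    exact Subtype.ext h2
  sur X hX h1 h2 := by
    have h0 : thf θ 1 = cf p := congrArg cf (one_eq hp θ)
    rw [h0] at h1 h2
    have hC : St.InC p (ent X) := by
      refine ⟨ent_inM hX, cf_inj ?_, cf_inj ?_⟩
      · rw [cf_mmul, cf_ent, h1]
      · rw [cf_mmul, cf_ent, h2]
    refine ⟨⟨θ.invFun (ent X), (inL_iff _).mp (θ.inv_mem _ hC)⟩, ?_⟩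
    change cf (θ.toFun (θ.invFun (ent X))) = X
    rw [θ.right_inv _ hC, cf_ent]

/-- the frame of an isomorphism onto a corner -/
noncomputable def alf (θ : St.CornerIso Γ Λ n p) (g : Γ) :
    Ell2 (Fin n × Λ) →L[ℂ] Ell2 (Fin n × Λ) := cf (θ.toFun (H160.St.u g))

theorem af_of (hΓ : ∀ g : Γ, g ≠ 1 → Set.Infinite {y : Γ | ∃ h, y = h * g * h⁻¹})
    (hp : St.IsProj p) (θ : St.CornerIso Γ Λ n p) : AF (alf θ) := (cop hp θ).af hΓ

theorem cf_base (A : St.MOp n Λ) (i j : Fin n) (s : Λ) :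
    cf A (dl (j, 1)) (i, s) = A i j (dl 1) s := by
  have h1 : sl (cf A (dl (j, 1))) i = A i j (dl 1) := by
    rw [dl_prod]
    exact congrArg (fun B : St.MOp n Λ => B i j (dl 1)) (ent_cf A)
  exact congrArg (fun w : Ell2 Λ => w s) h1

theorem mfourth_eq {A : St.MOp n Λ} (hA : St.InM A) :
    St.mfourth A = ∑ j : Fin n, ∑' x : Fin n × Λ, ‖cf A (dl (j, 1)) x‖ ^ 4 := by
  unfold St.mfourth
  rw [Finset.sum_comm]
  refine Finset.sum_congr rfl fun j _ => ?_
  rw [(summable_four (cf A (dl (j, 1)))).tsum_prod, tsum_fintype]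
  refine Finset.sum_congr rfl fun i _ => ?_
  have h1 := H885.fourth_eq (⟨A i j, (inL_iff _).mp (hA i j)⟩ : LG Λ)
  change fourth (A i j) = _ at h1
  rw [h1]
  congr 1
  funext s
  rw [cf_base]

theorem q4_alf (hΓ : ∀ g : Γ, g ≠ 1 → Set.Infinite {y : Γ | ∃ h, y = h * g * h⁻¹})
    (θ : St.CornerIso Γ Λ n p) (g : Γ) :
    St.mfourth (θ.toFun (H160.St.u g)) = q4 (alf θ) g :=
  mfourth_eq (θ.map_mem _ (inL_coe (uu g))).1

theorem alf_one (hp : St.IsProj p) (θ : St.CornerIso Γ Λ n p) : alf θ 1 = cf p := by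
  unfold alf
  have h : H160.St.u (1 : Γ) = (1 : Ell2 Γ →L[ℂ] Ell2 Γ) := lam_one
  rw [h, one_eq hp]

theorem mtr_eq (hΓ : ∀ g : Γ, g ≠ 1 → Set.Infinite {y : Γ | ∃ h, y = h * g * h⁻¹})
    (hp : St.IsProj p) (θ : St.CornerIso Γ Λ n p) : St.mtr p = (dm (alf θ) : ℂ) := by
  rw [← tr_p (af_of hΓ hp θ), alf_one hp θ]
  unfold St.mtr FS.tr
  refine Finset.sum_congr rfl fun i _ => ?_
  rw [FS.mat_base, inner_dl, cf_base, ← inner_dl]
  rfl

/-- the statement form of canonicity from the form of the frame -/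
theorem canonical_of_canF (hp : St.IsProj p) (θ : St.CornerIso Γ Λ n p)
    (h : CanF (alf θ)) : St.CanonicalM θ := by
  obtain ⟨V, δ, χ, hVe, hi, hf, h3⟩ := h
  have hVe' := (FS.reg Λ).eqv_adjoint (FS.mat (Fin n) Λ) hVe
  refine ⟨δ, χ, fun i => slL Λ i ∘L V, fun i => adjoint V ∘L tvr (dl i), fun i => ?_, fun i => ?_,
    ?_, fun i j => ?_, fun g i j => ?_⟩
  · refine inL_of_rho fun s v => ?_
    change sl (V (rho s v)) i = rho s (sl (V v) i)
    rw [← FS.reg_R, hVe, sl_R, FS.reg_R]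
  · intro u v
    change ⟪sl (V u) i, v⟫_ℂ = ⟪u, adjoint V (tv (dl i) v)⟫_ℂ
    rw [adjoint_inner_right, inner_sl, Finset.sum_eq_single i]
    · rw [sl_tv, dl_self, one_smul]
    · intro k _ hk
      rw [sl_tv, dl_ne hk, zero_smul, inner_zero_right]
    · intro h
      exact absurd (Finset.mem_univ i) h
  · ext1 v
    rw [ContinuousLinearMap.sum_apply]
    change ∑ i, adjoint V (tv (dl i) (sl (V v) i)) = lam 1 v
    rw [← map_sum, sum_tv_sl, lam_one]
    exact congrArg (fun A : Ell2 Λ →L[ℂ] Ell2 Λ => A v) hi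
  · ext1 v
    change sl (V (adjoint V (tv (dl j) v))) i = p i j v
    have h4 : V (adjoint V (tv (dl j) v)) = cf p (tv (dl j) v) := by
      rw [← alf_one hp θ, ← hf]
      rfl
    rw [h4]
    exact congrArg (fun B : St.MOp n Λ => B i j v) (ent_cf p)
  · intro v
    change θ.toFun (H160.St.u g) i j v = (χ g : ℂ) • sl (V (lam (δ g) (adjoint V (tv (dl j) v)))) i
    have h4 : sl (alf θ g (tv (dl j) v)) i = θ.toFun (H160.St.u g) i j v :=
      congrArg (fun B : St.MOp n Λ => B i j v) (ent_cf (θ.toFun (H160.St.u g)))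
    rw [← h4, h3 g]
    rfl

theorem canF_of_canonical (hp : St.IsProj p) (θ : St.CornerIso Γ Λ n p)
    (h : St.CanonicalM θ) : CanF (alf θ) := by
  obtain ⟨δ, χ, w, w', hw, hww, h1, h2, h3⟩ := h
  set V : Ell2 Λ →L[ℂ] Ell2 (Fin n × Λ) := ∑ i, tvr (dl i) ∘L w i with hV
  have hVsl : ∀ v i, sl (V v) i = w i v := by
    intro v i
    classical
    apply ext_inner_dl
    intro y
    rw [hV, ContinuousLinearMap.sum_apply, sl_apply, lp.coeFn_sum, Finset.sum_apply,
      Finset.sum_eq_single i]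
    · change tv (dl i) (w i v) (i, y) = _
      rw [tv_apply, dl_self, one_mul]
    · intro k _ hk
      change tv (dl k) (w k v) (i, y) = 0
      rw [tv_apply, dl_ne hk.symm, zero_mul]
    · intro h
      exact absurd (Finset.mem_univ i) h
  have hVa : ∀ v, adjoint V v = ∑ i, w' i (sl v i) := by
    intro v
    refine ext_inner_left ℂ fun u => ?_
    rw [adjoint_inner_right, inner_sl, inner_sum]
    refine Finset.sum_congr rfl fun i _ => ?_
    rw [hVsl]
    exact hww i u (sl v i)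
  refine ⟨V, δ, χ, fun s v => ?_, ?_, ?_, fun g => ?_⟩
  · apply ext_sl
    intro i
    rw [hVsl, sl_R, hVsl, FS.reg_R, inL_rho (hw i)]
  · ext1 v
    rw [comp_apply, hVa]
    simp only [hVsl]
    have h4 := congrArg (fun A : Ell2 Λ →L[ℂ] Ell2 Λ => A v) h1
    rw [ContinuousLinearMap.sum_apply] at h4
    change ∑ i, w' i (w i v) = lam 1 v at h4
    rw [h4, lam_one]
  · rw [alf_one hp θ]
    ext1 v
    apply ext_sl
    intro i
    rw [comp_apply, hVsl, hVa, cf_sl, map_sum]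
    refine Finset.sum_congr rfl fun j _ => ?_
    exact congrArg (fun A : Ell2 Λ →L[ℂ] Ell2 Λ => A (sl v j)) (h2 i j)
  · ext1 v
    apply ext_sl
    intro i
    change sl (cf (θ.toFun (H160.St.u g)) v) i = (χ g : ℂ) • sl (V (lam (δ g) (adjoint V v))) i
    rw [hVsl, hVa, cf_sl, map_sum, map_sum, Finset.smul_sum]
    exact Finset.sum_congr rfl fun j _ => h3 g i j (sl v j)

end mat

end Vale.Agent.P092.H103
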