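import Vale.Agent.P092.H103.Slc

/-!
The canonical form of an amplified frame.
-/

set_option linter.all false

open scoped InnerProductSpace
open Filter Topology ContinuousLinearMap
open Vale.Agent.P092.H160

namespace Vale.Agent.P092.H103

/-- An equivariant projection of trace zero vanishes. -/
theorem proj_zero {K Z J : Type} [Group K] [Fintype J] (f : FS K Z J) {D : Ell2 Z →L[ℂ] Ell2 Z}
    (hDe : Eqv f.R f.R D) (hDD : ∀ v, D (D v) = D v) (hDa : adjoint D = D) (h0 : f.tr D = 0) :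
    D = 0 := by
  have h3 : f.tr D = ((∑ j, ‖D (dl (f.base j))‖ ^ 2 : ℝ) : ℂ) := by
    unfold FS.tr
    push_cast
    refine Finset.sum_congr rfl fun j _ => ?_
    rw [← hDD, ← adjoint_inner_left D, hDa, hDD, re_inner_self]
    push_cast
    rfl
  rw [h3] at h0
  have h4 : ∑ j, ‖D (dl (f.base j))‖ ^ 2 = 0 := by exact_mod_cast h0
  have hD0 : ∀ j, D (dl (f.base j)) = 0 := by
    intro j
    have h5 := (Finset.sum_eq_zero_iff_of_nonneg (fun _ _ => by positivity)).mp h4 j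
      (Finset.mem_univ j)
    exact norm_eq_zero.mp ((pow_eq_zero_iff two_ne_zero).mp h5)
  exact f.ext_base f hDe (fun x v => by simp) fun j => by
    rw [hD0, ContinuousLinearMap.zero_apply]

section can

variable {Γ Λ I : Type} [Group Γ] [Group Λ] [Fintype I]
  {α : Γ → (Ell2 (I × Λ) →L[ℂ] Ell2 (I × Λ))} {T : Ell2 (I × Λ) →L[ℂ] Ell2 (Y3 I Λ)}

/-- unit vectors on which `T` is cubic -/
structure Cu (α : Γ → (Ell2 (I × Λ) →L[ℂ] Ell2 (I × Λ)))
    (T : Ell2 (I × Λ) →L[ℂ] Ell2 (Y3 I Λ)) (κ : ℂ) (v : Ell2 (I × Λ)) : Prop where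
  n : ‖v‖ = 1
  c : T v = κ • tv v (tv (cj v) v)
  f : α 1 v = v

theorem A3'_tv (g : Γ) (u v w : Ell2 (I × Λ)) : A3' α g (tv u (tv (cj v) w)) =
    tv (α g u) (tv (cj (α g v)) (α g w)) := by
  unfold A3' Ax
  rw [tens_tv, tens_tv, bar_cj]

theorem fix_of_cubic (hα : AF α) (hT : Hm α T) {κ : ℂ} (hκ : κ ≠ 0) {e : Ell2 (I × Λ)}
    (he : ‖e‖ = 1) (hTe : T e = κ • tv e (tv (cj e) e)) : α 1 e = e := by
  have h1 := hT.q e
  rw [hTe, map_smul, A3'_tv] at h1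
  have h2 : tv (α 1 e) (tv (cj (α 1 e)) (α 1 e)) = tv e (tv (cj e) e) :=
    smul_right_injective _ hκ h1
  have h3 := congrArg norm h2
  rw [norm_tv, norm_tv, norm_tv, norm_tv, norm_cj, norm_cj, he] at h3
  have h4 : ‖α 1 e‖ = 1 := by
    have h5 := norm_nonneg (α 1 e)
    have h6 : ‖α 1 e‖ ^ 3 = 1 := by linear_combination h3
    exact (pow_eq_one_iff_of_nonneg h5 three_ne_zero).mp h6
  have h5 : ⟪e - α 1 e, e - α 1 e⟫_ℂ = 0 := by
    rw [inner_sub_left, inner_sub_right, inner_sub_right, re_inner_self, re_inner_self, he, h4,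
      hα.p_left]
    have h6 : ⟪e, α 1 e⟫_ℂ = ((‖α 1 e‖ ^ 2 : ℝ) : ℂ) := by
      rw [← hα.pp_apply, ← hα.p_left, hα.pp_apply, re_inner_self]
    rw [h6, h4]
    ring
  exact (sub_eq_zero.mp (inner_self_eq_zero.mp h5)).symm

theorem Cu.R (hT : Hm α T) (hα : AF α) {κ : ℂ} {v : Ell2 (I × Λ)} (h : Cu α T κ v) (s : Λ) :
    Cu α T κ ((FS.mat I Λ).R s v) := by
  refine ⟨by rw [FS.R_norm, h.n], ?_, by rw [hα.comm, h.f]⟩
  rw [hT.r, h.c, map_smul, f3_R_diag, tens_tv, tens_tv, ← bar_R, bar_cj, bar_R]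

theorem Cu.al (hα : AF α) (hTα : ∀ g v, T (α g v) = A3' α g (T v)) {κ : ℂ} {v : Ell2 (I × Λ)}
    (h : Cu α T κ v) (g : Γ) : Cu α T κ (α g v) := by
  refine ⟨?_, ?_, hα.p_mul_apply g v⟩
  · have h1 := hα.inner_map g v v
    rw [h.f, re_inner_self, re_inner_self, h.n] at h1
    have h2 : ‖α g v‖ ^ 2 = 1 ^ 2 := by exact_mod_cast h1
    exact (pow_left_inj₀ (norm_nonneg _) zero_le_one two_ne_zero).mp h2
  · rw [hTα, h.c, map_smul, A3'_tv]

theorem Cu.dich {β κ : ℂ} (hκ : κ ≠ 0) (hβ : ∀ v, adjoint T (T v) = β • α 1 v)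
    {v w : Ell2 (I × Λ)} (hv : Cu α T κ v) (hw : Cu α T κ w) :
    ⟪v, w⟫_ℂ = 0 ∨ ‖⟪v, w⟫_ℂ‖ = 1 := by
  have key : ∀ {v w : Ell2 (I × Λ)}, Cu α T κ v → Cu α T κ w →
      β * ⟪v, w⟫_ℂ = (starRingEnd ℂ) κ * κ * (⟪v, w⟫_ℂ * ((starRingEnd ℂ) ⟪v, w⟫_ℂ * ⟪v, w⟫_ℂ)) := by
    intro v w hv hw
    have h1 : β * ⟪v, w⟫_ℂ = ⟪T v, T w⟫_ℂ := by
      rw [← adjoint_inner_right, hβ, hw.f, inner_smul_right]
    rw [h1, hv.c, hw.c, inner_smul_left, inner_smul_right, inner_tv, inner_tv, inner_cj_cj]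
    ring
  have h1 := key hv hv
  rw [inner_self_eq_norm_sq_to_K, hv.n] at h1
  simp only [Complex.ofReal_one, one_pow, mul_one, map_one] at h1
  have h1' : β = (starRingEnd ℂ) κ * κ := by simpa using h1
  have h2 := key hv hw
  rw [h1'] at h2
  have h3 : (starRingEnd ℂ) κ * κ ≠ 0 := mul_ne_zero (by simpa using hκ) hκ
  have h4 := mul_left_cancel₀ h3 h2
  by_cases h5 : ⟪v, w⟫_ℂ = 0
  · exact Or.inl h5
  · right
    have h6 : (starRingEnd ℂ) ⟪v, w⟫_ℂ * ⟪v, w⟫_ℂ = 1 := by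
      have h7 : ⟪v, w⟫_ℂ * 1 = ⟪v, w⟫_ℂ * ((starRingEnd ℂ) ⟪v, w⟫_ℂ * ⟪v, w⟫_ℂ) := by
        rw [mul_one]; exact h4
      exact (mul_left_cancel₀ h5 h7).symm
    rw [Complex.conj_mul'] at h6
    have h8 : ‖⟪v, w⟫_ℂ‖ ^ 2 = 1 := by exact_mod_cast h6
    have h9 := norm_nonneg ⟪v, w⟫_ℂ
    nlinarith

/-- two unit vectors with inner product of modulus one are proportional -/
theorem eq_smul_of_inner {H : Type} [NormedAddCommGroup H] [InnerProductSpace ℂ H] {v w : H}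
    (hv : ‖v‖ = 1) (hw : ‖w‖ = 1) (h : ‖⟪v, w⟫_ℂ‖ = 1) : w = ⟪v, w⟫_ℂ • v := by
  have h1 : ⟪w - ⟪v, w⟫_ℂ • v, w - ⟪v, w⟫_ℂ • v⟫_ℂ = 0 := by
    rw [inner_sub_left, inner_sub_right, inner_sub_right, inner_smul_left, inner_smul_right,
      inner_smul_left, inner_smul_right, inner_self_eq_norm_sq_to_K, inner_self_eq_norm_sq_to_K,
      hv, hw, ← inner_conj_symm w v]
    have h2 : (starRingEnd ℂ) ⟪v, w⟫_ℂ * ⟪v, w⟫_ℂ = 1 := by
      rw [Complex.conj_mul', h]; simp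
    simp only [Complex.ofReal_one, one_pow, mul_one, Complex.coe_algebraMap, map_one]
    linear_combination -h2
  exact sub_eq_zero.mp (inner_self_eq_zero.mp h1)

/-- Distinct right translates of a cubic vector are orthogonal. -/
theorem Cu.orth (hα : AF α) (hΛ : ∀ s : Λ, s ≠ 1 → Set.Infinite {y : Λ | ∃ h, y = h * s * h⁻¹})
    (hT : Hm α T) (hTα : ∀ g v, T (α g v) = A3' α g (T v)) {κ : ℂ} (hκ : κ ≠ 0)
    {e : Ell2 (I × Λ)} (he : Cu α T κ e) {k : Λ} (hk : k ≠ 1) :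
    ⟪e, (FS.mat I Λ).R k e⟫_ℂ = 0 := by
  have hI := it_T hT hTα
  have h1 : ((k, (1, 1)) : Λ × (Λ × Λ)) ∉ Set.range (j3 Λ) := by
    rintro ⟨s, hs⟩
    rw [j3_apply] at hs
    have h2 : s = k := congrArg Prod.fst hs
    have h3 : s = 1 := congrArg (fun p : Λ × (Λ × Λ) => p.2.1) hs
    exact hk (h2.symm.trans h3)
  have h2 := hI.coef_zero hα (A3'_tgt hα) (dgl_inj _)
    (dgl_icc hΛ (dgl_icc hΛ (ι' := MonoidHom.id Λ) hΛ)) hI h1 e
  have h3 : ⟪T e, (f3 I Λ).R (k, (1, 1)) (T e)⟫_ℂ = 0 := by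
    rw [← adjoint_inner_right, h2, inner_zero_right]
  have h4 : (f3 I Λ).R (k, (1, 1)) = tens ((FS.mat I Λ).R k) 1 := by
    unfold f3
    rw [FS.prod_R, FS.prod_R, map_one, tens_one]
  rw [h4, he.c, map_smul, tens_tv, inner_smul_left, inner_smul_right, inner_tv, one_apply_eq_self,
    inner_self_eq_norm_sq_to_K, norm_tv, norm_cj, he.n] at h3
  simpa [hκ] using h3

theorem lam_eqv (x s : Λ) (v : Ell2 Λ) : lam s (rho x v) = rho x (lam s v) :=
  congrArg (fun L : Ell2 Λ →L[ℂ] Ell2 Λ => L v) (rho_lam x s).symm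

theorem V_tr {V : Ell2 Λ →L[ℂ] Ell2 (I × Λ)} (hVe : Eqv (FS.reg Λ).R (FS.mat I Λ).R V)
    (hi : adjoint V ∘L V = 1) (c : ℂ) (s : Λ) :
    (FS.mat I Λ).tr (c • (V ∘L (lam s ∘L adjoint V))) = c * (dl s : Ell2 Λ) 1 := by
  have hVe' := (FS.reg Λ).eqv_adjoint (FS.mat I Λ) hVe
  have htr : (FS.mat I Λ).tr (V ∘L (lam s ∘L adjoint V)) = (dl s : Ell2 Λ) 1 := by
    have h1 := (FS.mat I Λ).tr_comm (FS.reg Λ) (X := lam s ∘L adjoint V) (Y := V)
      (by
        intro x v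
        rw [comp_apply, comp_apply, hVe', FS.reg_R, lam_eqv]) hVe
    rw [h1]
    have h2 : (lam s ∘L adjoint V) ∘L V = lam s := by
      rw [comp_assoc, hi]
      ext1 v
      rfl
    rw [h2]
    unfold FS.tr
    rw [Fintype.sum_unique]
    change ⟪(dl (1 : Λ) : Ell2 Λ), lam s (dl 1)⟫_ℂ = _
    rw [lam_dl, inner_dl, mul_one]
  rw [← htr]
  unfold FS.tr
  rw [Finset.mul_sum]
  refine Finset.sum_congr rfl fun j _ => ?_
  rw [ContinuousLinearMap.smul_apply, inner_smul_right]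

/-- algebra of the canonical form -/
theorem canon_alg (hα : AF α) {V : Ell2 Λ →L[ℂ] Ell2 (I × Λ)}
    (hV1 : ∀ v : Ell2 Λ, adjoint V (V v) = v) (δ : Γ → Λ) (χ : Γ → Circle)
    (hαV' : ∀ g v, α g (V v) = (χ g : ℂ) • V (lam (δ g) v)) :
    (∀ g h, δ (g * h) = δ g * δ h) ∧ (∀ g h, χ (g * h) = χ g * χ h) := by
  have hkey : ∀ g h, (χ (g * h) : ℂ) • (dl (δ (g * h)) : Ell2 Λ) =
      ((χ g : ℂ) * (χ h : ℂ)) • dl (δ g * δ h) := by
    intro g h
    have h1 : α (g * h) (V (dl 1)) = α g (α h (V (dl 1))) := hα.mul_apply g h _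
    rw [hαV', hαV', map_smul, hαV'] at h1
    have h4 := congrArg (adjoint V) h1
    rw [map_smul, map_smul, map_smul, hV1, hV1, lam_dl, lam_dl, lam_dl, mul_one, mul_one,
      smul_smul, mul_comm (χ h : ℂ)] at h4
    exact h4
  have hδm : ∀ g h, δ (g * h) = δ g * δ h := by
    intro g h
    by_contra hne
    have h1 := congrArg (fun u : Ell2 Λ => u (δ (g * h))) (hkey g h)
    change (χ (g * h) : ℂ) * (dl (δ (g * h)) : Ell2 Λ) (δ (g * h)) =
      ((χ g : ℂ) * (χ h : ℂ)) * (dl (δ g * δ h) : Ell2 Λ) (δ (g * h)) at h1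
    rw [dl_self, dl_ne hne, mul_one, mul_zero] at h1
    exact (Circle.coe_ne_zero _) h1
  have hχm : ∀ g h, χ (g * h) = χ g * χ h := by
    intro g h
    have h1 := congrArg (fun u : Ell2 Λ => u (δ (g * h))) (hkey g h)
    change (χ (g * h) : ℂ) * (dl (δ (g * h)) : Ell2 Λ) (δ (g * h)) =
      ((χ g : ℂ) * (χ h : ℂ)) * (dl (δ g * δ h) : Ell2 Λ) (δ (g * h)) at h1
    rw [← hδm, dl_self, mul_one, mul_one] at h1
    exact Circle.ext (by rw [Circle.coe_mul]; exact h1)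
  exact ⟨hδm, hχm⟩

/-- Injectivity and surjectivity. -/
theorem canon_bij (hα : AF α) {V : Ell2 Λ →L[ℂ] Ell2 (I × Λ)}
    (hVe : Eqv (FS.reg Λ).R (FS.mat I Λ).R V) (hi : adjoint V ∘L V = 1)
    (hf : V ∘L adjoint V = α 1) (δ : Γ → Λ) (χ : Γ → Circle)
    (hαV' : ∀ g v, α g (V v) = (χ g : ℂ) • V (lam (δ g) v))
    (hαf : ∀ g, α g = (χ g : ℂ) • (V ∘L lam (δ g) ∘L adjoint V))
    (hδm : ∀ g h, δ (g * h) = δ g * δ h) : Function.Bijective δ := by
  have hVe' := (FS.reg Λ).eqv_adjoint (FS.mat I Λ) hVe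
  have hV1 : ∀ v : Ell2 Λ, adjoint V (V v) = v := fun v =>
    congrArg (fun L : Ell2 Λ →L[ℂ] Ell2 Λ => L v) hi
  have hV2 : ∀ v : Ell2 (I × Λ), V (adjoint V v) = α 1 v := fun v =>
    congrArg (fun L : Ell2 (I × Λ) →L[ℂ] Ell2 (I × Λ) => L v) hf
  have hpV : ∀ v, α 1 (V v) = V v := by
    intro v
    rw [← hV2, hV1]
  have hVp : ∀ w, adjoint V (α 1 w) = adjoint V w := by
    intro w
    rw [← hV2, hV1]
  have hδ1 : δ 1 = 1 := by
    have := hδm 1 1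
    rw [mul_one] at this
    exact (left_eq_mul.mp this)
  constructor
  · have h0 : ∀ g, δ g = 1 → g = 1 := by
      intro g hg
      by_contra hne
      have h1 := hα.tr0 g hne
      rw [hαf g, hg, V_tr hVe hi, dl_self, mul_one] at h1
      exact (Circle.coe_ne_zero _) h1
    intro g h hgh
    have h1 : δ (g * h⁻¹) = 1 := by
      have h2 : δ h * δ h⁻¹ = 1 := by rw [← hδm, mul_inv_cancel, hδ1]
      rw [hδm, hgh, h2]
    exact mul_inv_eq_one.mp (h0 _ h1)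
  · intro s
    by_contra hne
    push Not at hne
    set X : Ell2 (I × Λ) →L[ℂ] Ell2 (I × Λ) := V ∘L (lam s ∘L adjoint V) with hX
    have hXe : Eqv (FS.mat I Λ).R (FS.mat I Λ).R X := by
      intro x v
      rw [hX, comp_apply, comp_apply, comp_apply, comp_apply, hVe', FS.reg_R, lam_eqv, ← FS.reg_R,
        hVe]
    have h1 : X = 0 := by
      refine hα.total X hXe ?_ ?_ fun g => ?_
      · ext1 v
        change α 1 (V (lam s (adjoint V v))) = V (lam s (adjoint V v))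
        rw [hpV]
      · ext1 v
        change V (lam s (adjoint V (α 1 v))) = V (lam s (adjoint V v))
        rw [hVp]
      · have h2 : ∀ i : I, ⟪α g (dl (i, 1)), X (dl (i, 1))⟫_ℂ =
            ⟪(dl ((FS.mat I Λ).base i) : Ell2 (I × Λ)), ((χ g⁻¹ : ℂ) •
              (V ∘L (lam (δ g⁻¹ * s) ∘L adjoint V))) (dl ((FS.mat I Λ).base i))⟫_ℂ := by
          intro i
          rw [hα.inner_left, hX, comp_apply, hαV', lam_mul]
          rfl
        rw [Finset.sum_congr rfl fun i _ => h2 i]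
        have h3 := V_tr hVe hi (χ g⁻¹ : ℂ) (δ g⁻¹ * s)
        unfold FS.tr at h3
        refine h3.trans ?_
        rw [dl_ne, mul_zero]
        intro h4
        have h5 : δ g = s := by
          have h6 : δ g * δ g⁻¹ = 1 := by rw [← hδm, mul_inv_cancel, hδ1]
          calc δ g = δ g * (δ g⁻¹ * s) := by rw [← h4, mul_one]
            _ = s := by rw [← mul_assoc, h6, one_mul]
        exact hne g h5
    have h2 : adjoint V (X (V (dl 1))) = dl s := by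
      rw [hX, comp_apply, comp_apply, hV1, hV1, lam_dl, mul_one]
    rw [h1, ContinuousLinearMap.zero_apply, map_zero] at h2
    have h3 := norm_dl (X := Λ) s
    rw [← h2, norm_zero] at h3
    exact zero_ne_one h3

/-- The canonical form. -/
theorem canon_form (hα : AF α) (hΓ : ∀ s : Γ, s ≠ 1 → Set.Infinite {y : Γ | ∃ h, y = h * s * h⁻¹})
    (hΛ : ∀ s : Λ, s ≠ 1 → Set.Infinite {y : Λ | ∃ h, y = h * s * h⁻¹})
    (hT : Gd α T) (hTα : ∀ g v, T (α g v) = A3' α g (T v)) {y : I × Λ}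
    (hy : T (dl y) (y, (y, y)) ≠ 0) :
    dm α = 1 ∧ ∃ (V : Ell2 Λ →L[ℂ] Ell2 (I × Λ)) (δ : Γ ≃* Λ) (χ : Γ →* Circle),
      Eqv (FS.reg Λ).R (FS.mat I Λ).R V ∧ adjoint V ∘L V = 1 ∧ V ∘L adjoint V = α 1 ∧
      ∀ g, α g = (χ g : ℂ) • (V ∘L lam (δ g) ∘L adjoint V) := by
  have hT0 : T ≠ 0 := by
    intro h
    apply hy
    rw [h]
    rfl
  have hd : dm α = 1 := dm_one hα hΓ hΛ (it_T hT.hm hTα) hT0
  refine ⟨hd, ?_⟩
  have hI := it_T hT.hm hTα
  obtain ⟨e, he, κ, hκ, hTe⟩ := exists_cubic' hT.sy hy (Lo_comm' hα hΓ hΛ hT hTα hy)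
  have hE : Cu α T κ e := ⟨he, hTe, fix_of_cubic hα hT.hm hκ he hTe⟩
  obtain ⟨β, hβ⟩ := hI.coef_one hα (A3'_tgt hα) (dgl_inj _)
    (dgl_icc hΛ (dgl_icc hΛ (ι' := MonoidHom.id Λ) hΛ)) hI
  have ho : Orthonormal ℂ (fun x : Λ => (FS.mat I Λ).R x⁻¹ e) := by
    refine ⟨fun x => by rw [FS.R_norm, he], fun x y hne => ?_⟩
    change ⟪(FS.mat I Λ).R x⁻¹ e, (FS.mat I Λ).R y⁻¹ e⟫_ℂ = 0
    rw [FS.R_left, inv_inv, ← FS.R_mul_apply]
    exact hE.orth hα hΛ hT.hm hTα hκ (fun h => hne (mul_inv_eq_one.mp h))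
  set V := opOf (bes_of_orthonormal ho) with hV
  have hVdl : ∀ x, V (dl x) = (FS.mat I Λ).R x⁻¹ e := fun x => opOf_dl _ x
  have hi : adjoint V ∘L V = 1 := opOf_isometry ho
  have hVe : Eqv (FS.reg Λ).R (FS.mat I Λ).R V := by
    intro y v
    have h : V ∘L (FS.reg Λ).R y = (FS.mat I Λ).R y ∘L V := by
      apply op_ext
      intro x
      rw [comp_apply, comp_apply, FS.reg_R, rho_dl, hVdl, hVdl, mul_inv_rev, inv_inv,
        FS.R_mul_apply]
    exact congrArg (fun L : Ell2 Λ →L[ℂ] Ell2 (I × Λ) => L v) h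
  have hVe' := (FS.reg Λ).eqv_adjoint (FS.mat I Λ) hVe
  have hV1 : ∀ v : Ell2 Λ, adjoint V (V v) = v := fun v =>
    congrArg (fun L : Ell2 Λ →L[ℂ] Ell2 Λ => L v) hi
  have hpV : ∀ v, α 1 (V v) = V v := by
    intro v
    have h : α 1 ∘L V = V := by
      apply op_ext
      intro x
      rw [comp_apply, hVdl, hα.comm, hE.f]
    exact congrArg (fun L : Ell2 Λ →L[ℂ] Ell2 (I × Λ) => L v) h
  have hVp : ∀ w, adjoint V (α 1 w) = adjoint V w := by
    intro w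
    refine ext_inner_left ℂ fun u => ?_
    rw [adjoint_inner_right, ← hα.p_left, hpV, adjoint_inner_right]
  -- `V V* = α 1`
  have hf : V ∘L adjoint V = α 1 := by
    have hD : α 1 - V ∘L adjoint V = 0 := by
      refine proj_zero (FS.mat I Λ) ((hα.comm 1).sub (hVe.comp hVe')) (fun v => ?_) ?_ ?_
      · simp only [ContinuousLinearMap.sub_apply, comp_apply, map_sub, hα.pp_apply, hpV, hVp, hV1]
        abel
      · rw [map_sub, hα.p_adj, adjoint_comp, adjoint_adjoint]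
      · have h1 : (FS.mat I Λ).tr (α 1 - V ∘L adjoint V) =
            (FS.mat I Λ).tr (α 1) - (FS.mat I Λ).tr (V ∘L adjoint V) := by
          unfold FS.tr
          rw [← Finset.sum_sub_distrib]
          refine Finset.sum_congr rfl fun j _ => ?_
          rw [ContinuousLinearMap.sub_apply, inner_sub_right]
        have h2 : V ∘L adjoint V = (1 : ℂ) • (V ∘L (lam 1 ∘L adjoint V)) := by
          rw [lam_one, one_smul]; rfl
        rw [h1, h2, V_tr hVe hi, tr_p hα, hd, dl_self]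
        simp
    exact (sub_eq_zero.mp hD).symm
  -- the permutation
  have hex : ∀ g, ∃ s : Λ, ∃ z : Circle, α g e = (z : ℂ) • (FS.mat I Λ).R s⁻¹ e := by
    intro g
    have hg := hE.al hα hTα g
    have h1 : ∃ s : Λ, ⟪(FS.mat I Λ).R s⁻¹ e, α g e⟫_ℂ ≠ 0 := by
      by_contra h
      push Not at h
      have h2 : adjoint V (α g e) = 0 := by
        refine eq_zero_of_inner_dl fun s => ?_
        rw [← inner_dl, adjoint_inner_right, hVdl, h]
      have h3 : α 1 (α g e) = 0 := by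
        rw [← hf, comp_apply, h2, map_zero]
      rw [hg.f] at h3
      have h4 := hg.n
      rw [h3, norm_zero] at h4
      exact zero_ne_one h4
    obtain ⟨s, hs⟩ := h1
    have h4 := (Cu.dich hκ hβ (hE.R hT.hm hα s⁻¹) hg).resolve_left hs
    have h5 := eq_smul_of_inner (hE.R hT.hm hα s⁻¹).n hg.n h4
    exact ⟨s, ⟨⟪(FS.mat I Λ).R s⁻¹ e, α g e⟫_ℂ, mem_sphere_zero_iff_norm.mpr h4⟩, h5⟩
  choose δ χ hδ using hex
  have hαV : ∀ g, α g ∘L V = (χ g : ℂ) • (V ∘L lam (δ g)) := by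
    intro g
    apply op_ext
    intro x
    change α g (V (dl x)) = (χ g : ℂ) • V (lam (δ g) (dl x))
    rw [hVdl, hα.comm, hδ, lam_dl, hVdl, map_smul, mul_inv_rev, FS.R_mul_apply]
  have hαV' : ∀ g v, α g (V v) = (χ g : ℂ) • V (lam (δ g) v) := fun g v =>
    congrArg (fun L : Ell2 Λ →L[ℂ] Ell2 (I × Λ) => L v) (hαV g)
  have hαf : ∀ g, α g = (χ g : ℂ) • (V ∘L lam (δ g) ∘L adjoint V) := by
    intro g
    ext1 v
    have h1 : V (adjoint V v) = α 1 v :=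
      congrArg (fun L : Ell2 (I × Λ) →L[ℂ] Ell2 (I × Λ) => L v) hf
    rw [← hα.mul_p_apply, ← h1, hαV']
    rfl
  obtain ⟨hδm, hχm⟩ := canon_alg hα hV1 δ χ hαV'
  have hbij := canon_bij hα hVe hi hf δ χ hαV' hαf hδm
  exact ⟨V, MulEquiv.ofBijective (MonoidHom.mk' δ hδm) hbij,
    MonoidHom.mk' χ hχm, hVe, hi, hf, hαf⟩

end can

end Vale.Agent.P092.H103
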