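import Vale.Agent.P092.H160.Tensor
import Vale.Agent.P092.H553.Ops

/-!
P092: the conjugation representation.  For a subgroup `S` of a group `G`, the operators on `ℓ²(G)`
which commute with the right translations by `S` and have a finite Hilbert-Schmidt norm modulo `S`
are vectors of `ℓ²(G ⧸ S × G)`; if `V` is unitary and commutes with all right translations then
`T ↦ V T V*` extends to a unitary of this Hilbert space.
-/

set_option linter.all false

open scoped InnerProductSpace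
open Filter Topology ContinuousLinearMap

namespace Vale.Agent.P092.H103.Cnj

open Vale.Agent.P092.H160 Vale.Agent.P092.H553

section main

variable {G : Type} [Group G] (S : Subgroup G)

/-- chosen representatives -/
noncomputable def ou (q : G ⧸ S) : G := q.out

variable {S}

theorem ou_mk (q : G ⧸ S) : ((ou S q : G) : G ⧸ S) = q := QuotientGroup.out_eq' q

theorem ou_mem (g : G) : g⁻¹ * ou S (g : G ⧸ S) ∈ S := by
  rw [← QuotientGroup.eq, ou_mk]

theorem ou_mem' (g : G) : (ou S (g : G ⧸ S))⁻¹ * g ∈ S := by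
  rw [← QuotientGroup.eq, ou_mk]

variable (S)

/-- the map of the transposition -/
noncomputable def jf (p : (G ⧸ S) × G) : (G ⧸ S) × G :=
  ((p.2 : G ⧸ S), ou S p.1 * p.2⁻¹ * ou S (p.2 : G ⧸ S))

theorem jf_jf (p : (G ⧸ S) × G) : jf S (jf S p) = p := by
  obtain ⟨q, g⟩ := p
  have h1 : ((ou S q * g⁻¹ * ou S (g : G ⧸ S) : G) : G ⧸ S) = q := by
    conv_rhs => rw [← ou_mk q]
    rw [QuotientGroup.eq]
    have e : (ou S q * g⁻¹ * ou S (g : G ⧸ S))⁻¹ * ou S q = (g⁻¹ * ou S (g : G ⧸ S))⁻¹ := by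
      group
    rw [e]
    exact S.inv_mem (ou_mem g)
  simp only [jf]
  rw [h1]
  refine Prod.ext rfl ?_
  change ou S (g : G ⧸ S) * (ou S q * g⁻¹ * ou S (g : G ⧸ S))⁻¹ * ou S q = g
  group

/-- the transposition -/
noncomputable def jS : ((G ⧸ S) × G) ≃ ((G ⧸ S) × G) := ⟨jf S, jf S, jf_jf S, jf_jf S⟩

theorem jS_symm : (jS S).symm = jS S := rfl

theorem jS_apply (q : G ⧸ S) (g : G) :
    jS S (q, g) = ((g : G ⧸ S), ou S q * g⁻¹ * ou S (g : G ⧸ S)) := rfl

/-- the operators commuting with the right translations by `S` -/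
def RS (T : Ell2 G →L[ℂ] Ell2 G) : Prop := ∀ s ∈ S, T * rho s = rho s * T

/-- the vector of columns of an operator -/
def Cl (T : Ell2 G →L[ℂ] Ell2 G) (w : Ell2 ((G ⧸ S) × G)) : Prop :=
  ∀ q, sl w q = T (dl (ou S q))

/-- the conjugation operator -/
noncomputable def cop (V : Ell2 G →L[ℂ] Ell2 G) :
    Ell2 ((G ⧸ S) × G) →L[ℂ] Ell2 ((G ⧸ S) × G) :=
  ampR (G ⧸ S) V * (rei (jS S) * ampR (G ⧸ S) (bar V) * rei (jS S))

variable {S}

theorem RS.mul {T T' : Ell2 G →L[ℂ] Ell2 G} (h : RS S T) (h' : RS S T') : RS S (T * T') :=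
  fun s hs => by rw [mul_assoc, h' s hs, ← mul_assoc, h s hs, mul_assoc]

theorem RS.adj {T : Ell2 G →L[ℂ] Ell2 G} (h : RS S T) : RS S (adjoint T) := by
  intro s hs
  have h1 := congrArg adjoint (h s⁻¹ (S.inv_mem hs))
  have e : ∀ A B : Ell2 G →L[ℂ] Ell2 G, adjoint (A * B) = adjoint B * adjoint A := fun A B => by
    rw [← star_eq_adjoint, star_mul]; rfl
  rw [e, e, adjoint_rho, inv_inv] at h1
  exact h1.symm

theorem RS.dl' {T : Ell2 G →L[ℂ] Ell2 G} (h : RS S T) (g : G) :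
    T (dl g) = rho (g⁻¹ * ou S (g : G ⧸ S)) (T (dl (ou S (g : G ⧸ S)))) := by
  have h1 : (dl g : Ell2 G) = rho (g⁻¹ * ou S (g : G ⧸ S)) (dl (ou S (g : G ⧸ S))) := by
    rw [rho_dl]
    congr 1
    group
  have h2 := congrArg (fun X : Ell2 G →L[ℂ] Ell2 G => X (dl (ou S (g : G ⧸ S))))
    (h _ (ou_mem g))
  calc T (dl g) = (T * rho (g⁻¹ * ou S (g : G ⧸ S))) (dl (ou S (g : G ⧸ S))) := by
        rw [h1]; rfl
    _ = _ := h2

theorem Cl.unique {T T' : Ell2 G →L[ℂ] Ell2 G} {w : Ell2 ((G ⧸ S) × G)} (h : Cl S T w)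
    (h' : Cl S T' w) (hT : RS S T) (hT' : RS S T') : T = T' := by
  apply op_ext
  intro g
  rw [hT.dl', hT'.dl', ← h, ← h']

theorem Cl.unique' {T : Ell2 G →L[ℂ] Ell2 G} {w w' : Ell2 ((G ⧸ S) × G)} (h : Cl S T w)
    (h' : Cl S T w') : w = w' := by
  apply ext_inner_dl
  rintro ⟨q, g⟩
  have h1 : sl w q = sl w' q := by rw [h, h']
  have h2 := congrArg (fun ξ : Ell2 G => ξ g) h1
  exact h2

theorem Cl.left {T : Ell2 G →L[ℂ] Ell2 G} {w : Ell2 ((G ⧸ S) × G)} (h : Cl S T w)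
    (V : Ell2 G →L[ℂ] Ell2 G) : Cl S (V * T) (ampR (G ⧸ S) V w) := by
  intro q
  rw [sl_ampR, h]
  rfl

theorem sl_cj {X Y : Type} (f : Ell2 (X × Y)) (x : X) : sl (cj f) x = cj (sl f x) := rfl

theorem Cl.tr {T : Ell2 G →L[ℂ] Ell2 G} {w : Ell2 ((G ⧸ S) × G)} (h : Cl S T w)
    (hT : RS S T) : Cl S (adjoint T) (cj (rei (jS S) w)) := by
  intro q
  apply ext_inner_dl
  intro g
  have h1 : sl (cj (rei (jS S) w)) q g =
      (starRingEnd ℂ) (sl w (g : G ⧸ S) (ou S q * g⁻¹ * ou S (g : G ⧸ S))) := rfl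
  rw [h1, h]
  have h2 : (adjoint T (dl (ou S q)) : Ell2 G) g = (starRingEnd ℂ) (T (dl g) (ou S q)) := by
    rw [← inner_dl, adjoint_inner_right, inner_dl_right]
  rw [h2, hT.dl' g, rho_apply, ← mul_assoc]

theorem cj_amp (V : Ell2 G →L[ℂ] Ell2 G) (u : Ell2 ((G ⧸ S) × G)) :
    cj (ampR (G ⧸ S) V (cj u)) = ampR (G ⧸ S) (bar V) u := by
  apply ext_inner_dl
  rintro ⟨q, g⟩
  have h1 : sl (ampR (G ⧸ S) (bar V) u) q g = cj (V (cj (sl u q))) g := by
    rw [sl_ampR, bar_apply]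
  have h2 : sl (cj (ampR (G ⧸ S) V (cj u))) q g = cj (V (cj (sl u q))) g := by
    rw [sl_cj, sl_ampR, sl_cj]
  exact h2.trans h1.symm

theorem cj_rei {X Y : Type} (e : X ≃ Y) (u : Ell2 X) : cj (rei e u) = rei e (cj u) := rfl

theorem Cl.right {T : Ell2 G →L[ℂ] Ell2 G} {w : Ell2 ((G ⧸ S) × G)} (h : Cl S T w)
    (hT : RS S T) {V : Ell2 G →L[ℂ] Ell2 G} (hV : RS S V) :
    Cl S (T * adjoint V) ((rei (jS S) * ampR (G ⧸ S) (bar V) * rei (jS S)) w) := by
  have h1 := ((h.tr hT).left V).tr (hV.mul hT.adj)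
  have e : adjoint (V * adjoint T) = T * adjoint V := by
    rw [← star_eq_adjoint, ← star_eq_adjoint, ← star_eq_adjoint, star_mul, star_star]
  rw [e] at h1
  have e2 : cj (rei (jS S) (ampR (G ⧸ S) V (cj (rei (jS S) w)))) =
      (rei (jS S) * ampR (G ⧸ S) (bar V) * rei (jS S)) w := by
    rw [cj_rei, cj_amp]
    rfl
  rw [e2] at h1
  exact h1

theorem Cl.conj {T : Ell2 G →L[ℂ] Ell2 G} {w : Ell2 ((G ⧸ S) × G)} (h : Cl S T w)
    (hT : RS S T) {V : Ell2 G →L[ℂ] Ell2 G} (hV : RS S V) :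
    Cl S (V * (T * adjoint V)) (cop S V w) :=
  (h.right hT hV).left V

/-! ### Elementary operators -/

open Classical in
theorem exists_el (q : G ⧸ S) (g : G) : ∃ T : Ell2 G →L[ℂ] Ell2 G, RS S T ∧ Cl S T (dl (q, g)) := by
  have hF : ∀ h : G, |(if (ou S q)⁻¹ * h ∈ S then (1 : ℝ) else 0)| ≤ 1 := fun h => by
    split_ifs <;> simp
  refine ⟨lam (g * (ou S q)⁻¹) * mo (fun h : G => if (ou S q)⁻¹ * h ∈ S then (1 : ℝ) else 0),
    ?_, ?_⟩
  · intro s hs
    have h1 : mo (fun h : G => if (ou S q)⁻¹ * h ∈ S then (1 : ℝ) else 0) * rho s =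
        rho s * mo (fun h : G => if (ou S q)⁻¹ * h ∈ S then (1 : ℝ) else 0) := by
      ext ξ h
      change (mo (fun h : G => if (ou S q)⁻¹ * h ∈ S then (1 : ℝ) else 0) (rho s ξ) : Ell2 G) h =
        (rho s (mo (fun h : G => if (ou S q)⁻¹ * h ∈ S then (1 : ℝ) else 0) ξ) : Ell2 G) h
      rw [mo_apply hF, rho_apply, rho_apply, mo_apply hF]
      have h2 : (ou S q)⁻¹ * (h * s) ∈ S ↔ (ou S q)⁻¹ * h ∈ S := by
        rw [← mul_assoc]
        exact S.mul_mem_cancel_right hs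
      simp only [h2]
    rw [mul_assoc, h1, ← mul_assoc, ← rho_lam, mul_assoc]
  · intro q'
    apply ext_inner_dl
    intro h
    have h1 : sl (dl (q, g) : Ell2 ((G ⧸ S) × G)) q' h = if (q', h) = (q, g) then 1 else 0 :=
      dl_apply _ _
    rw [h1]
    change _ = (lam (g * (ou S q)⁻¹) (mo (fun h : G => if (ou S q)⁻¹ * h ∈ S then (1 : ℝ) else 0)
      (dl (ou S q'))) : Ell2 G) h
    rw [lam_apply, mo_apply hF, dl_apply]
    by_cases hq : q' = q
    · subst hq
      by_cases hg : h = g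
      · subst hg
        simp
      · have h3 : (g * (ou S q')⁻¹)⁻¹ * h ≠ ou S q' := by
          intro hh
          apply hg
          calc h = g * (ou S q')⁻¹ * ((g * (ou S q')⁻¹)⁻¹ * h) := by group
            _ = g * (ou S q')⁻¹ * ou S q' := by rw [hh]
            _ = g := by group
        rw [if_neg (fun hh => hg (Prod.ext_iff.1 hh).2), if_neg h3, mul_zero]
    · rw [if_neg (fun hh => hq (Prod.ext_iff.1 hh).1)]
      by_cases h3 : (g * (ou S q)⁻¹)⁻¹ * h = ou S q'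
      · rw [h3, if_pos rfl, if_neg, Complex.ofReal_zero, zero_mul]
        intro hh
        apply hq
        rw [← QuotientGroup.eq, ou_mk, ou_mk] at hh
        exact hh.symm
      · rw [if_neg h3, mul_zero]

/-- Two operators on the space of columns which agree on columns of operators are equal. -/
theorem cop_ext {A B : Ell2 ((G ⧸ S) × G) →L[ℂ] Ell2 ((G ⧸ S) × G)}
    (h : ∀ T w, RS S T → Cl S T w → ∃ T', Cl S T' (A w) ∧ Cl S T' (B w)) : A = B := by
  apply op_ext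
  rintro ⟨q, g⟩
  obtain ⟨T, hT, hTw⟩ := exists_el (S := S) q g
  obtain ⟨T', h1, h2⟩ := h T _ hT hTw
  exact h1.unique' h2

/-- left and right multiplications commute -/
theorem lr_comm {V W : Ell2 G →L[ℂ] Ell2 G} (hV : RS S V) (hW : RS S W) :
    ampR (G ⧸ S) V * (rei (jS S) * ampR (G ⧸ S) (bar W) * rei (jS S)) =
      (rei (jS S) * ampR (G ⧸ S) (bar W) * rei (jS S)) * ampR (G ⧸ S) V := by
  refine cop_ext fun T w hT hw => ⟨V * (T * adjoint W), (hw.right hT hW).left V, ?_⟩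
  rw [← mul_assoc]
  exact (hw.left V).right (hV.mul hT) hW

theorem cop_mul {V W : Ell2 G →L[ℂ] Ell2 G} (hV : RS S V) (hW : RS S W) :
    cop S (V * W) = cop S V * cop S W := by
  refine cop_ext fun T w hT hw => ⟨V * W * (T * adjoint (V * W)), hw.conj hT (hV.mul hW), ?_⟩
  have h1 := (hw.conj hT hW).conj (hW.mul (hT.mul hW.adj)) hV
  have e : V * (W * (T * adjoint W) * adjoint V) = V * W * (T * adjoint (V * W)) := by
    rw [← star_eq_adjoint, ← star_eq_adjoint, ← star_eq_adjoint, star_mul]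
    simp only [mul_assoc]
  rw [e] at h1
  exact h1

theorem cop_one : cop S (1 : Ell2 G →L[ℂ] Ell2 G) = 1 := by
  refine cop_ext fun T w hT hw => ⟨T, ?_, hw⟩
  have h1 := hw.conj hT (V := 1) (fun s hs => by rw [one_mul, mul_one])
  have e : (1 : Ell2 G →L[ℂ] Ell2 G) * (T * adjoint 1) = T := by
    rw [← star_eq_adjoint, star_one, mul_one, one_mul]
  rw [e] at h1
  exact h1

theorem adjoint_ampR {X Y : Type} (V : Ell2 Y →L[ℂ] Ell2 Y) :
    adjoint (ampR X V) = ampR X (adjoint V) := by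
  have h1 : ∀ W : Ell2 Y →L[ℂ] Ell2 Y, ampR X W = tens (1 : Ell2 X →L[ℂ] Ell2 X) W := by
    intro W
    apply op_ext
    rintro ⟨x, y⟩
    rw [tens_dl, dl_prod, ampR_tv]
    rfl
  rw [h1, h1, adjoint_tens]
  congr 1
  rw [← star_eq_adjoint, star_one]

theorem adjoint_cop {V : Ell2 G →L[ℂ] Ell2 G} (hV : RS S V) :
    adjoint (cop S V) = cop S (adjoint V) := by
  have e : ∀ A B : Ell2 ((G ⧸ S) × G) →L[ℂ] Ell2 ((G ⧸ S) × G),
      adjoint (A * B) = adjoint B * adjoint A := fun A B => by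
    rw [← star_eq_adjoint, star_mul]; rfl
  rw [cop, e, e, e, adjoint_rei, jS_symm, adjoint_ampR, adjoint_ampR, adjoint_bar,
    ← mul_assoc, cop]
  exact (lr_comm hV.adj hV.adj).symm

/-! ### Bounded operators from vectors -/

/-- the columns of the operator of a vector -/
noncomputable def colv (w : Ell2 ((G ⧸ S) × G)) (g : G) : Ell2 G :=
  rho (g⁻¹ * ou S (g : G ⧸ S)) (sl w (g : G ⧸ S))

theorem Cl.colv_eq {T : Ell2 G →L[ℂ] Ell2 G} {w : Ell2 ((G ⧸ S) × G)} (h : Cl S T w)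
    (hT : RS S T) (g : G) : colv w g = T (dl g) := by
  rw [hT.dl', colv, h]

variable (S)

/-- the vectors of the contractions -/
def ctr : Set (Ell2 ((G ⧸ S) × G)) := {w | Bes 1 (fun g => colv w g)}

variable {S}

theorem ctr_of_cl {T : Ell2 G →L[ℂ] Ell2 G} {w : Ell2 ((G ⧸ S) × G)} (h : Cl S T w)
    (hT : RS S T) (h1 : ‖T‖ ≤ 1) : w ∈ ctr S := by
  have h2 : (fun g => colv w g) = fun g => T (dl g) := funext fun g => h.colv_eq hT g
  change Bes 1 (fun g => colv w g)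
  rw [h2]
  exact (bes_of_op T).mono (norm_nonneg _) h1

theorem exists_op_of_ctr {w : Ell2 ((G ⧸ S) × G)} (h : w ∈ ctr S) :
    ∃ T : Ell2 G →L[ℂ] Ell2 G, RS S T ∧ Cl S T w ∧ ‖T‖ ≤ 1 := by
  have hb : Bes 1 (fun g => colv w g) := h
  refine ⟨opOf hb, ?_, ?_, (norm_opOf_le hb).trans (by norm_num)⟩
  · intro s hs
    apply op_ext
    intro g
    change opOf hb (rho s (dl g)) = rho s (opOf hb (dl g))
    rw [rho_dl, opOf_dl, opOf_dl, colv, colv]
    have e : ((g * s⁻¹ : G) : G ⧸ S) = (g : G ⧸ S) := by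
      rw [QuotientGroup.eq]
      have : (g * s⁻¹)⁻¹ * g = s := by group
      rw [this]; exact hs
    rw [e, ← mul_ap, ← rho_mul]
    congr 2
    group
  · intro q
    rw [opOf_dl, colv, ou_mk]
    have e : (ou S q)⁻¹ * ou S q = 1 := by group
    rw [e, rho_one]
    rfl

theorem colv_add (w w' : Ell2 ((G ⧸ S) × G)) (g : G) : colv (w + w') g = colv w g + colv w' g := by
  rw [colv, sl_add, map_add]; rfl

theorem colv_smul (c : ℂ) (w : Ell2 ((G ⧸ S) × G)) (g : G) : colv (c • w) g = c • colv w g := by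
  rw [colv, sl_smul, map_smul]; rfl

theorem continuous_colv (g : G) : Continuous (fun w : Ell2 ((G ⧸ S) × G) => colv w g) := by
  have h1 : LipschitzWith 1 (fun w : Ell2 ((G ⧸ S) × G) => colv w g) := by
    refine LipschitzWith.of_dist_le_mul fun w w' => ?_
    rw [dist_eq_norm, dist_eq_norm, NNReal.coe_one, one_mul]
    have e : colv w g - colv w' g = colv (w - w') g := by
      have := colv_add (w - w') w' g
      rw [sub_add_cancel] at this
      rw [this]; abel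
    rw [e, colv, norm_rho]
    exact norm_sl_le _ _
  exact h1.continuous

theorem isClosed_ctr : IsClosed (ctr S) := by
  have h1 : ctr S = ⋂ (s : Finset G) (v : Ell2 G), {w | ∑ x ∈ s, ‖⟪colv w x, v⟫_ℂ‖ ^ 2 ≤
      1 ^ 2 * ‖v‖ ^ 2} := by
    ext w
    simp only [Set.mem_iInter]
    exact Iff.rfl
  rw [h1]
  refine isClosed_iInter fun s => isClosed_iInter fun v => ?_
  refine isClosed_le ?_ continuous_const
  refine continuous_finsetSum _ fun x _ => ?_
  exact ((continuous_colv x).inner continuous_const).norm.pow 2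

theorem convex_ctr : Convex ℝ (ctr S) := by
  intro w hw w' hw' a b ha hb hab
  obtain ⟨T, h1, h2, h3⟩ := exists_op_of_ctr hw
  obtain ⟨T', h1', h2', h3'⟩ := exists_op_of_ctr hw'
  refine ctr_of_cl (T := (a : ℂ) • T + (b : ℂ) • T') ?_ ?_ ?_
  · intro q
    have e1 : a • w + b • w' = (a : ℂ) • w + (b : ℂ) • w' := by
      ext p
      rfl
    rw [e1, sl_add, sl_smul, sl_smul, h2, h2']
    rfl
  · intro s hs
    rw [add_mul, mul_add, smul_mul_assoc, smul_mul_assoc, mul_smul_comm, mul_smul_comm, h1 s hs,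
      h1' s hs]
  · refine (norm_add_le _ _).trans ?_
    rw [norm_smul, norm_smul, Complex.norm_real, Complex.norm_real, Real.norm_of_nonneg ha,
      Real.norm_of_nonneg hb]
    calc a * ‖T‖ + b * ‖T'‖ ≤ a * 1 + b * 1 := by gcongr
      _ = 1 := by rw [mul_one, mul_one, hab]

theorem zero_mem_ctr : (0 : Ell2 ((G ⧸ S) × G)) ∈ ctr S := by
  refine ctr_of_cl (T := 0) ?_ ?_ ?_
  · intro q; rfl
  · intro s hs; rw [zero_mul, mul_zero]
  · rw [norm_zero]; exact zero_le_one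

theorem cop_mem_ctr {V : Ell2 G →L[ℂ] Ell2 G} (hV : RS S V) (hV1 : ‖V‖ ≤ 1)
    {w : Ell2 ((G ⧸ S) × G)} (hw : w ∈ ctr S) : cop S V w ∈ ctr S := by
  obtain ⟨T, h1, h2, h3⟩ := exists_op_of_ctr hw
  refine ctr_of_cl (h2.conj h1 hV) (hV.mul (h1.mul hV.adj)) ?_
  have h4 : ‖adjoint V‖ ≤ 1 := by rw [LinearIsometryEquiv.norm_map]; exact hV1
  calc ‖V * (T * adjoint V)‖ ≤ ‖V‖ * ‖T * adjoint V‖ := norm_mul_le _ _
    _ ≤ ‖V‖ * (‖T‖ * ‖adjoint V‖) := by gcongr; exact norm_mul_le _ _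
    _ ≤ 1 * (1 * 1) := by gcongr
    _ = 1 := by norm_num

end main

end Vale.Agent.P092.H103.Cnj
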