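import Vale.Agent.P092.H103.Cnj

/-!
P092: the conjugation representation, part 2: the representation `d ↦ (T ↦ V_d T V_d⁻¹)`, the
vectors of the diagonal projections and the coefficient formula.
-/

set_option linter.all false

open scoped InnerProductSpace
open Filter Topology ContinuousLinearMap

namespace Vale.Agent.P092.H103.Cnj

open Vale.Agent.P092.H160 Vale.Agent.P092.H553

section main

variable {G : Type} [Group G] (S : Subgroup G) {D : Type} [Group D]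
  (V : D →* (Ell2 G →L[ℂ] Ell2 G))

/-- the hypotheses on the representation: unitary, commuting with the right translations -/
structure VR : Prop where
  adj : ∀ d, adjoint (V d) = V d⁻¹
  rh : ∀ d s, V d * rho s = rho s * V d

variable {V}

theorem VR.rs (h : VR V) (d : D) : RS S (V d) := fun s _ => h.rh d s

theorem VR.mul_inv (h : VR V) (d : D) : V d * V d⁻¹ = 1 := by
  rw [← map_mul, mul_inv_cancel, map_one]

theorem VR.norm_ap (h : VR V) (d : D) (ξ : Ell2 G) : ‖V d ξ‖ = ‖ξ‖ := by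
  have h1 : ⟪V d ξ, V d ξ⟫_ℂ = ⟪ξ, ξ⟫_ℂ := by
    rw [← adjoint_inner_right, h.adj]
    have h2 : V d⁻¹ (V d ξ) = ξ := by
      have h3 : (V d⁻¹ * V d) ξ = ξ := by
        rw [← map_mul, inv_mul_cancel, map_one]; rfl
      exact h3
    rw [h2]
  rw [inner_self_eq_norm_sq_to_K, inner_self_eq_norm_sq_to_K] at h1
  have h2 : ‖V d ξ‖ ^ 2 = ‖ξ‖ ^ 2 := by exact_mod_cast h1
  exact (pow_left_inj₀ (norm_nonneg _) (norm_nonneg _) two_ne_zero).1 h2

theorem VR.norm_le (h : VR V) (d : D) : ‖V d‖ ≤ 1 :=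
  ContinuousLinearMap.opNorm_le_bound _ zero_le_one fun x => by rw [h.norm_ap, one_mul]

/-- the conjugation representation -/
noncomputable def cpi (h : VR V) : D →* (Ell2 ((G ⧸ S) × G) →L[ℂ] Ell2 ((G ⧸ S) × G)) where
  toFun d := cop S (V d)
  map_one' := by rw [map_one]; exact cop_one
  map_mul' a b := by rw [map_mul]; exact cop_mul (h.rs S a) (h.rs S b)

theorem cpi_apply (h : VR V) (d : D) : cpi S h d = cop S (V d) := rfl

theorem adjoint_cpi (h : VR V) (d : D) : adjoint (cpi S h d) = cpi S h d⁻¹ := by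
  rw [cpi_apply, cpi_apply, adjoint_cop (h.rs S d), h.adj]

theorem cpi_mem (h : VR V) (d : D) {w : Ell2 ((G ⧸ S) × G)} (hw : w ∈ ctr S) :
    cpi S h d w ∈ ctr S := cop_mem_ctr (h.rs S d) (h.norm_le d) hw

open Classical in
/-- the indicator function of the union of the cosets in `F` -/
noncomputable def iF (F : Finset (G ⧸ S)) (g : G) : ℝ := if (g : G ⧸ S) ∈ F then 1 else 0

theorem abs_iF (F : Finset (G ⧸ S)) (g : G) : |iF S F g| ≤ 1 := by
  unfold iF; split_ifs <;> simp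

theorem iF_mul (F : Finset (G ⧸ S)) (g : G) {s : G} (hs : s ∈ S) : iF S F (g * s) = iF S F g := by
  have e : ((g * s : G) : G ⧸ S) = (g : G ⧸ S) := by
    rw [QuotientGroup.eq]
    have : (g * s)⁻¹ * g = s⁻¹ := by group
    rw [this]; exact S.inv_mem hs
  unfold iF
  rw [e]

/-- the vector of the projection on `F` -/
noncomputable def zF (F : Finset (G ⧸ S)) : Ell2 ((G ⧸ S) × G) := ∑ q ∈ F, dl (q, ou S q)

theorem rs_mo (F : Finset (G ⧸ S)) : RS S (mo (iF S F)) := by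
  intro s hs
  ext ξ h
  change (mo (iF S F) (rho s ξ) : Ell2 G) h = (rho s (mo (iF S F) ξ) : Ell2 G) h
  rw [mo_apply (abs_iF S F), rho_apply, rho_apply, mo_apply (abs_iF S F), iF_mul S F h hs]

theorem sl_sum {X Y ι : Type} (s : Finset ι) (f : ι → Ell2 (X × Y)) (x : X) :
    sl (∑ i ∈ s, f i) x = ∑ i ∈ s, sl (f i) x := by
  classical
  induction s using Finset.induction_on with
  | empty => rfl
  | insert a s ha ih => rw [Finset.sum_insert ha, Finset.sum_insert ha, sl_add, ih]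

open Classical in
theorem sl_dl {X Y : Type} (x x' : X) (y : Y) :
    sl (dl (x, y) : Ell2 (X × Y)) x' = if x' = x then dl y else 0 := by
  rw [dl_prod, sl_tv, dl_apply]
  split_ifs <;> simp

theorem cl_mo (F : Finset (G ⧸ S)) : Cl S (mo (iF S F)) (zF S F) := by
  classical
  intro q
  rw [zF, sl_sum]
  have h1 : ∀ q' ∈ F, sl (dl (q', ou S q') : Ell2 ((G ⧸ S) × G)) q =
      if q = q' then dl (ou S q) else 0 := fun q' _ => by
    rw [sl_dl]
    split_ifs with h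
    · rw [h]
    · rfl
  rw [Finset.sum_congr rfl h1, Finset.sum_ite_eq]
  apply ext_inner_dl
  intro g
  rw [mo_apply (abs_iF S F), dl_apply]
  by_cases hg : g = ou S q
  · subst hg
    unfold iF
    rw [ou_mk]
    by_cases hq : q ∈ F
    · rw [if_pos hq, if_pos hq, if_pos rfl, dl_apply, if_pos rfl, mul_one, Complex.ofReal_one]
    · rw [if_neg hq, if_neg hq, Complex.ofReal_zero, zero_mul]
      rfl
  · rw [if_neg hg, mul_zero]
    split_ifs with h
    · rw [dl_apply, if_neg hg]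
    · rfl

theorem zF_mem (F : Finset (G ⧸ S)) : zF S F ∈ ctr S :=
  ctr_of_cl (cl_mo S F) (rs_mo S F) (opNorm_mo_le (abs_iF S F) zero_le_one)

/-- the mass of `V_d` on `F⁻¹` -/
noncomputable def msF (F : Finset (G ⧸ S)) (T : Ell2 G →L[ℂ] Ell2 G) : ℝ :=
  ∑' x, iF S F x⁻¹ * ‖T (dl 1) x‖ ^ 2

theorem VR.inv_ap (h : VR V) (d : D) (x : G) :
    (V d⁻¹ (dl 1) : Ell2 G) x = (starRingEnd ℂ) (V d (dl 1) x⁻¹) := by
  rw [← inner_dl x, ← h.adj, adjoint_inner_right]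
  have h1 : (dl x : Ell2 G) = rho x⁻¹ (dl 1) := by rw [rho_dl]; congr 1; group
  have h2 : V d (rho x⁻¹ (dl 1)) = rho x⁻¹ (V d (dl 1)) :=
    congrArg (fun X : Ell2 G →L[ℂ] Ell2 G => X (dl 1)) (h.rh d x⁻¹)
  rw [h1, h2, ← adjoint_inner_right, adjoint_rho, inv_inv, rho_dl, one_mul, inner_dl_right]

/-- **The coefficient formula.** -/
theorem coef_zF (h : VR V) (F : Finset (G ⧸ S)) (d : D) :
    ⟪(dl (((1 : G) : G ⧸ S), ou S ((1 : G) : G ⧸ S)) : Ell2 ((G ⧸ S) × G)),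
      cpi S h d (zF S F)⟫_ℂ = ((msF S F (V d) : ℝ) : ℂ) := by
  obtain ⟨o, ho⟩ : ∃ o, o = ou S ((1 : G) : G ⧸ S) := ⟨_, rfl⟩
  have hoS : o ∈ S := by
    have := ou_mem (S := S) (1 : G)
    rwa [inv_one, one_mul, ← ho] at this
  have h1 : Cl S (V d * (mo (iF S F) * adjoint (V d))) (cop S (V d) (zF S F)) :=
    (cl_mo S F).conj (rs_mo S F) (h.rs S d)
  have h2 := h1 ((1 : G) : G ⧸ S)
  rw [← ho] at h2 ⊢
  rw [inner_dl, cpi_apply]
  have h3 : (cop S (V d) (zF S F) : Ell2 ((G ⧸ S) × G)) (((1 : G) : G ⧸ S), o) =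
      (sl (cop S (V d) (zF S F)) ((1 : G) : G ⧸ S) : Ell2 G) o := rfl
  rw [h3, h2]
  have h4 : ((V d * (mo (iF S F) * adjoint (V d))) (dl o) : Ell2 G) o =
      ⟪adjoint (V d) (dl o), mo (iF S F) (adjoint (V d) (dl o))⟫_ℂ := by
    rw [← inner_dl, adjoint_inner_left]
    rfl
  rw [h4, inner_mo (abs_iF S F)]
  congr 1
  have h5 : ∀ x, (adjoint (V d) (dl o) : Ell2 G) x = (V d⁻¹ (dl 1) : Ell2 G) (x * o⁻¹) := by
    intro x
    rw [h.adj]
    have e1 : (dl o : Ell2 G) = rho o⁻¹ (dl 1) := by rw [rho_dl]; congr 1; group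
    have e2 : V d⁻¹ (rho o⁻¹ (dl 1)) = rho o⁻¹ (V d⁻¹ (dl 1)) :=
      congrArg (fun X : Ell2 G →L[ℂ] Ell2 G => X (dl 1)) (h.rh d⁻¹ o⁻¹)
    rw [e1, e2, rho_apply]
  have h6 : (fun x => iF S F x * ‖(adjoint (V d) (dl o) : Ell2 G) x‖ ^ 2) =
      (fun x => iF S F x * ‖(V d⁻¹ (dl 1) : Ell2 G) x‖ ^ 2) ∘ (Equiv.mulRight o⁻¹) := by
    funext x
    rw [h5]
    change _ = iF S F (x * o⁻¹) * ‖(V d⁻¹ (dl 1) : Ell2 G) (x * o⁻¹)‖ ^ 2
    rw [iF_mul S F x (S.inv_mem hoS)]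
  refine (congrArg tsum h6).trans (((Equiv.mulRight o⁻¹).tsum_eq
    (fun x => iF S F x * ‖(V d⁻¹ (dl 1) : Ell2 G) x‖ ^ 2)).trans ?_)
  refine ((Equiv.inv G).tsum_eq (fun x => iF S F x * ‖(V d⁻¹ (dl 1) : Ell2 G) x‖ ^ 2)).symm.trans ?_
  refine tsum_congr fun x => ?_
  change iF S F x⁻¹ * ‖(V d⁻¹ (dl 1) : Ell2 G) x⁻¹‖ ^ 2 = _
  rw [h.inv_ap, RCLike.norm_conj, inv_inv]

theorem msF_le (F : Finset (G ⧸ S)) (T : Ell2 G →L[ℂ] Ell2 G) {P : G → ℝ} (hP0 : ∀ x, 0 ≤ P x)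
    (hP1 : ∀ x, P x ≤ iF S F x⁻¹) :
    ∑' x, P x * ‖T (dl 1) x‖ ^ 2 ≤ msF S F T := by
  have h1 : ∀ x, |iF S F x⁻¹| ≤ 1 := fun x => abs_iF S F _
  have h2 : ∀ x, |P x| ≤ 1 := fun x => by
    rw [abs_of_nonneg (hP0 x)]
    exact (hP1 x).trans ((le_abs_self _).trans (h1 x))
  refine Summable.tsum_le_tsum (fun x => ?_) (summable_mo h2 _) (summable_mo h1 _)
  exact mul_le_mul_of_nonneg_right (hP1 x) (by positivity)

/-- A fixed contraction vector gives a commuting operator. -/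
theorem exists_comm (h : VR V) {w : Ell2 ((G ⧸ S) × G)} (hw : w ∈ ctr S) (h0 : w ≠ 0) {P : D → Prop}
    (hP : ∀ d, P d → cpi S h d w = w) :
    ∃ T : Ell2 G →L[ℂ] Ell2 G, RS S T ∧ Cl S T w ∧ T ≠ 0 ∧ ∀ d, P d → V d * T = T * V d := by
  obtain ⟨T, h1, h2, h3⟩ := exists_op_of_ctr hw
  refine ⟨T, h1, h2, ?_, fun d hd => ?_⟩
  · rintro rfl
    apply h0
    apply ext_inner_dl
    rintro ⟨q, g⟩
    have h4 := congrArg (fun ξ : Ell2 G => ξ g) (h2 q)
    exact h4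
  · have h4 := h2.conj h1 (h.rs S d)
    have h5 := hP d hd
    rw [cpi_apply] at h5
    rw [h5] at h4
    have h6 : V d * (T * adjoint (V d)) = T :=
      h4.unique h2 ((h.rs S d).mul (h1.mul (h.rs S d).adj)) h1
    have h7 : V d * T = V d * (T * adjoint (V d)) * V d := by
      rw [h.adj, mul_assoc, mul_assoc, ← map_mul V d⁻¹ d, inv_mul_cancel, map_one, mul_one]
    rw [h7, h6]

end main

end Vale.Agent.P092.H103.Cnj
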