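import Vale.Agent.P092.H103.Cnj2

/-!
P092: the conjugation representation, part 3: unitaries commuting with the right translations by
the subgroup only; the trace property; compressions.
-/

set_option linter.all false

open scoped InnerProductSpace
open Filter Topology ContinuousLinearMap

namespace Vale.Agent.P092.H103.Cnj

open Vale.Agent.P092.H160 Vale.Agent.P092.H553

section main

variable {G : Type} [Group G] (S : Subgroup G) {D : Type} [Group D]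
  (V : D →* (Ell2 G →L[ℂ] Ell2 G))

/-- unitary operators commuting with the right translations by `S` -/
structure VRS : Prop where
  adj : ∀ d, adjoint (V d) = V d⁻¹
  rs : ∀ d, RS S (V d)

variable {S V}

theorem VRS.norm_ap (h : VRS S V) (d : D) (ξ : Ell2 G) : ‖V d ξ‖ = ‖ξ‖ := by
  have h1 : ⟪V d ξ, V d ξ⟫_ℂ = ⟪ξ, ξ⟫_ℂ := by
    rw [← adjoint_inner_right, h.adj]
    have h2 : V d⁻¹ (V d ξ) = ξ := by
      have h3 : (V d⁻¹ * V d) ξ = ξ := by
        rw [← map_mul, inv_mul_cancel, map_one]; rfl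
      exact h3
    rw [h2]
  rw [inner_self_eq_norm_sq_to_K, inner_self_eq_norm_sq_to_K] at h1
  have h2 : ‖V d ξ‖ ^ 2 = ‖ξ‖ ^ 2 := by exact_mod_cast h1
  exact (pow_left_inj₀ (norm_nonneg _) (norm_nonneg _) two_ne_zero).1 h2

theorem VRS.norm_le (h : VRS S V) (d : D) : ‖V d‖ ≤ 1 :=
  ContinuousLinearMap.opNorm_le_bound _ zero_le_one fun x => by rw [h.norm_ap, one_mul]

/-- the conjugation representation -/
noncomputable def cps (h : VRS S V) : D →* (Ell2 ((G ⧸ S) × G) →L[ℂ] Ell2 ((G ⧸ S) × G)) where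
  toFun d := cop S (V d)
  map_one' := by rw [map_one]; exact cop_one
  map_mul' a b := by rw [map_mul]; exact cop_mul (h.rs a) (h.rs b)

theorem cps_apply (h : VRS S V) (d : D) : cps h d = cop S (V d) := rfl

theorem adjoint_cps (h : VRS S V) (d : D) : adjoint (cps h d) = cps h d⁻¹ := by
  rw [cps_apply, cps_apply, adjoint_cop (h.rs d), h.adj]

theorem cps_mem (h : VRS S V) (d : D) {w : Ell2 ((G ⧸ S) × G)} (hw : w ∈ ctr S) :
    cps h d w ∈ ctr S := cop_mem_ctr (h.rs d) (h.norm_le d) hw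

theorem adj_mul' (A B : Ell2 G →L[ℂ] Ell2 G) : adjoint (A * B) = adjoint B * adjoint A := by
  rw [← star_eq_adjoint, star_mul]; rfl

/-- the columns of an operator over finitely many cosets -/
theorem sl_amp_zF (T : Ell2 G →L[ℂ] Ell2 G) (F : Finset (G ⧸ S)) (q : G ⧸ S) :
    sl (ampR (G ⧸ S) T (zF S F)) q = T (mo (iF S F) (dl (ou S q))) :=
  ((cl_mo S F).left T) q

open Classical in
theorem mo_ou (F : Finset (G ⧸ S)) (q : G ⧸ S) :
    mo (iF S F) (dl (ou S q)) = if q ∈ F then (dl (ou S q) : Ell2 G) else 0 := by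
  apply ext_inner_dl
  intro g
  rw [mo_apply (abs_iF S F), dl_apply]
  by_cases hg : g = ou S q
  · subst hg
    unfold iF
    rw [ou_mk]
    by_cases hq : q ∈ F
    · rw [if_pos hq, if_pos hq, if_pos rfl, dl_apply, if_pos rfl, mul_one, Complex.ofReal_one]
    · rw [if_neg hq, if_neg hq, Complex.ofReal_zero, zero_mul]
      rfl
  · rw [if_neg hg, mul_zero]
    split_ifs with h
    · rw [dl_apply, if_neg hg]
    · rfl

theorem norm_amp_zF (T : Ell2 G →L[ℂ] Ell2 G) (F : Finset (G ⧸ S)) :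
    ‖ampR (G ⧸ S) T (zF S F)‖ ^ 2 = ∑ q ∈ F, ‖T (dl (ou S q))‖ ^ 2 := by
  classical
  refine (hasSum_sl (ampR (G ⧸ S) T (zF S F))).unique ?_
  have h1 : (fun q => ‖sl (ampR (G ⧸ S) T (zF S F)) q‖ ^ 2) =
      fun q => if q ∈ F then ‖T (dl (ou S q))‖ ^ 2 else 0 := by
    funext q
    rw [sl_amp_zF, mo_ou]
    split_ifs with h
    · rfl
    · rw [map_zero, norm_zero]; norm_num
  rw [h1]
  have h2 : HasSum (fun q => if q ∈ F then ‖T (dl (ou S q))‖ ^ 2 else 0)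
      (∑ q ∈ F, (if q ∈ F then ‖T (dl (ou S q))‖ ^ 2 else 0)) :=
    hasSum_sum_of_ne_finset_zero (fun q hq => if_neg hq)
  have h3 : ∑ q ∈ F, (if q ∈ F then ‖T (dl (ou S q))‖ ^ 2 else 0) =
      ∑ q ∈ F, ‖T (dl (ou S q))‖ ^ 2 := Finset.sum_congr rfl fun q hq => if_pos hq
  rw [h3] at h2
  exact h2

/-- **The trace property** for finite unions of cosets. -/
theorem sum_tr {X : Ell2 G →L[ℂ] Ell2 G} (hX : RS S X) (F₀ F₁ : Finset (G ⧸ S)) :
    ∑ q ∈ F₁, ‖mo (iF S F₀) (X (dl (ou S q)))‖ ^ 2 =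
      ∑ q ∈ F₀, ‖mo (iF S F₁) (adjoint X (dl (ou S q)))‖ ^ 2 := by
  have h1 := norm_amp_zF (mo (iF S F₀) * X) F₁
  have h2 := norm_amp_zF (mo (iF S F₁) * adjoint X) F₀
  have c1 : Cl S (mo (iF S F₀) * X * mo (iF S F₁)) (ampR (G ⧸ S) (mo (iF S F₀) * X) (zF S F₁)) :=
    (cl_mo S F₁).left _
  have c2 : Cl S (mo (iF S F₁) * adjoint X * mo (iF S F₀))
      (ampR (G ⧸ S) (mo (iF S F₁) * adjoint X) (zF S F₀)) := (cl_mo S F₀).left _
  have r1 : RS S (mo (iF S F₀) * X * mo (iF S F₁)) := ((rs_mo S F₀).mul hX).mul (rs_mo S F₁)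
  have c3 := c1.tr r1
  have e1 : adjoint (mo (iF S F₀) * X * mo (iF S F₁)) =
      mo (iF S F₁) * adjoint X * mo (iF S F₀) := by
    rw [adj_mul', adj_mul', adjoint_mo (abs_iF S F₀), adjoint_mo (abs_iF S F₁), mul_assoc]
  rw [e1] at c3
  have e2 := c3.unique' c2
  have e3 : ‖ampR (G ⧸ S) (mo (iF S F₀) * X) (zF S F₁)‖ =
      ‖ampR (G ⧸ S) (mo (iF S F₁) * adjoint X) (zF S F₀)‖ := by
    rw [← e2, norm_cj, norm_rei]
  rw [e3, h2] at h1
  exact h1.symm

/-- the coefficient with a finite union of cosets -/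
theorem inner_zF {X : Ell2 G →L[ℂ] Ell2 G} (F : Finset (G ⧸ S)) {w : Ell2 ((G ⧸ S) × G)}
    (hw : Cl S (adjoint X * X) w) :
    ⟪zF S F, w⟫_ℂ = ((∑ q ∈ F, ‖X (dl (ou S q))‖ ^ 2 : ℝ) : ℂ) := by
  rw [zF, sum_inner, Complex.ofReal_sum]
  refine Finset.sum_congr rfl fun q _ => ?_
  rw [inner_dl]
  have h3 : (w : Ell2 ((G ⧸ S) × G)) (q, ou S q) = (sl w q : Ell2 G) (ou S q) := rfl
  rw [h3, hw, ← inner_dl]
  change ⟪dl (ou S q), adjoint X (X (dl (ou S q)))⟫_ℂ = _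
  rw [adjoint_inner_right, inner_self_eq_norm_sq_to_K]
  norm_cast

variable {p : Ell2 G →L[ℂ] Ell2 G}

/-- the vectors of the contractions `T = p T p` -/
def ctp (S : Subgroup G) (p : Ell2 G →L[ℂ] Ell2 G) : Set (Ell2 ((G ⧸ S) × G)) :=
  {w | w ∈ ctr S ∧ cop S p w = w}

theorem isClosed_ctp : IsClosed (ctp S p) :=
  isClosed_ctr.inter (isClosed_eq (cop S p).continuous continuous_id)

theorem convex_ctp : Convex ℝ (ctp S p) := by
  intro w hw w' hw' a b ha hb hab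
  refine ⟨convex_ctr hw.1 hw'.1 ha hb hab, ?_⟩
  rw [map_add]
  have h1 : ∀ (r : ℝ) (v : Ell2 ((G ⧸ S) × G)), cop S p (r • v) = r • cop S p v := fun r v => by
    have e : ∀ u : Ell2 ((G ⧸ S) × G), r • u = (r : ℂ) • u := fun u => by
      ext x; rfl
    rw [e, e, map_smul]
  rw [h1, h1, hw.2, hw'.2]

theorem zero_mem_ctp : (0 : Ell2 ((G ⧸ S) × G)) ∈ ctp S p := ⟨zero_mem_ctr, map_zero _⟩

theorem cps_mem_ctp (h : VRS S V) (hp : RS S p) {d : D} (hd : V d * p = p * V d)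
    {w : Ell2 ((G ⧸ S) × G)} (hw : w ∈ ctp S p) : cps h d w ∈ ctp S p := by
  refine ⟨cps_mem h d hw.1, ?_⟩
  have h1 : cop S p * cop S (V d) = cop S (V d) * cop S p := by
    rw [← cop_mul hp (h.rs d), ← cop_mul (h.rs d) hp, hd]
  have h2 := congrArg (fun X : Ell2 ((G ⧸ S) × G) →L[ℂ] Ell2 ((G ⧸ S) × G) => X w) h1
  change cop S p (cop S (V d) w) = cop S (V d) (cop S p w) at h2
  rw [cps_apply, h2, hw.2]

theorem pF_mem (hp : RS S p) (hp1 : ‖p‖ ≤ 1) (hpp : p * p = p) (F : Finset (G ⧸ S)) :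
    cop S p (zF S F) ∈ ctp S p := by
  refine ⟨cop_mem_ctr hp hp1 (zF_mem S F), ?_⟩
  have h1 : cop S p * cop S p = cop S p := by rw [← cop_mul hp hp, hpp]
  exact congrArg (fun X : Ell2 ((G ⧸ S) × G) →L[ℂ] Ell2 ((G ⧸ S) × G) => X (zF S F)) h1

/-- **The coefficient formula.** -/
theorem coef_pF (h : VRS S V) (hp : RS S p) (hpa : adjoint p = p) (F₀ F₁ : Finset (G ⧸ S)) (d : D)
    (hd : V d * p = p * V d) :
    ⟪zF S F₁, cps h d (cop S p (zF S F₀))⟫_ℂ =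
      ((∑ q ∈ F₀, ‖mo (iF S F₁) (V d (p (dl (ou S q))))‖ ^ 2 : ℝ) : ℂ) := by
  obtain ⟨X, hX⟩ : ∃ X, X = p * adjoint (V d) := ⟨_, rfl⟩
  have hXr : RS S X := by rw [hX]; exact hp.mul (h.rs d).adj
  have hXa : adjoint X = V d * p := by rw [hX, adj_mul', adjoint_adjoint, hpa]
  have c1 : Cl S (V d * (p * (mo (iF S F₀) * adjoint p) * adjoint (V d)))
      (cop S (V d) (cop S p (zF S F₀))) :=
    ((cl_mo S F₀).conj (rs_mo S F₀) hp).conj (hp.mul ((rs_mo S F₀).mul hp.adj)) (h.rs d)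
  have e0 : mo (iF S F₀) * mo (iF S F₀) = (mo (iF S F₀) : Ell2 G →L[ℂ] Ell2 G) := by
    apply op_ext
    intro g
    change mo (iF S F₀) (mo (iF S F₀) (dl g)) = mo (iF S F₀) (dl g)
    apply ext_inner_dl
    intro x
    rw [mo_apply (abs_iF S F₀), mo_apply (abs_iF S F₀), ← mul_assoc]
    congr 1
    unfold iF
    split_ifs <;> simp
  have e1 : V d * (p * (mo (iF S F₀) * adjoint p) * adjoint (V d)) =
      adjoint (mo (iF S F₀) * X) * (mo (iF S F₀) * X) := by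
    rw [adj_mul', adjoint_mo (abs_iF S F₀), hXa, hX, hpa]
    have e2 : V d * p * mo (iF S F₀) * (mo (iF S F₀) * (p * adjoint (V d))) =
        V d * p * (mo (iF S F₀) * mo (iF S F₀)) * (p * adjoint (V d)) := by
      simp only [mul_assoc]
    rw [e2, e0]
    simp only [mul_assoc]
  rw [e1] at c1
  rw [cps_apply, inner_zF F₁ c1]
  congr 1
  have h3 := sum_tr hXr F₀ F₁
  rw [hXa] at h3
  exact h3

theorem exists_comm_p (h : VRS S V) (hp : RS S p) (hpa : adjoint p = p)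
    {w : Ell2 ((G ⧸ S) × G)} (hw : w ∈ ctp S p) (h0 : w ≠ 0) {P : D → Prop}
    (hP : ∀ d, P d → cps h d w = w) :
    ∃ T : Ell2 G →L[ℂ] Ell2 G, RS S T ∧ Cl S T w ∧ T ≠ 0 ∧ p * (T * p) = T ∧
      ∀ d, P d → V d * T = T * V d := by
  obtain ⟨T, h1, h2, h3⟩ := exists_op_of_ctr hw.1
  refine ⟨T, h1, h2, ?_, ?_, fun d hd => ?_⟩
  · rintro rfl
    apply h0
    apply ext_inner_dl
    rintro ⟨q, g⟩
    have h4 := congrArg (fun ξ : Ell2 G => ξ g) (h2 q)
    exact h4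
  · have h4 := h2.conj h1 hp
    rw [hw.2, hpa] at h4
    exact h4.unique h2 (hp.mul (h1.mul hp)) h1
  · have h4 := h2.conj h1 (h.rs d)
    have h5 := hP d hd
    rw [cps_apply] at h5
    rw [h5] at h4
    have h6 : V d * (T * adjoint (V d)) = T :=
      h4.unique h2 ((h.rs d).mul (h1.mul (h.rs d).adj)) h1
    have h7 : V d * T = V d * (T * adjoint (V d)) * V d := by
      rw [h.adj, mul_assoc, mul_assoc, ← map_mul V d⁻¹ d, inv_mul_cancel, map_one, mul_one]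
    rw [h7, h6]

end main

end Vale.Agent.P092.H103.Cnj
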