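import Vale.Agent.P092.H103.Lat2

/-!
P092: induced representations of a lattice in a product `G₁ × G₂`.  A vector of the induced
representation which is fixed by the second factor is a function on the first factor.
-/

set_option linter.all false

open scoped InnerProductSpace ENNReal
open Set Filter Topology MeasureTheory ContinuousLinearMap

namespace Vale.Agent.P092.H103

open Vale.Agent.P092.H790 Vale.Agent.P092.H85

section meas

variable {E : Type} [Group E] [TopologicalSpace E] [IsTopologicalGroup E] [LocallyCompactSpace E]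
  [SecondCountableTopology E] [T2Space E] [MeasurableSpace E] [BorelSpace E]
  {Λ : Subgroup E} [DiscreteTopology Λ] [MeasurableSpace (E ⧸ Λ)] [BorelSpace (E ⧸ Λ)]
  {ν : Measure (E ⧸ Λ)} [IsProbabilityMeasure ν] (hν : ∀ g : E, ν.map (fun x => g • x) = ν)
  {K : Type} [NormedAddCommGroup K] [InnerProductSpace ℂ K] [CompleteSpace K]
  {π : Λ →* (K →L[ℂ] K)} (hπ : ∀ g, adjoint (π g) = π g⁻¹) [Countable Λ]

theorem coc_meas2 (v : Λ) : MeasurableSet {p : E × (E ⧸ Λ) | coc Λ p.1 p.2 = v} := by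
  haveI hcl : IsClosed (Λ : Set E) := Subgroup.isClosed_of_discrete
  have hsm : Measurable fun p : E × (E ⧸ Λ) => p.1 • p.2 := continuous_smul.measurable
  have e : {p : E × (E ⧸ Λ) | coc Λ p.1 p.2 = v} =
      (fun p : E × (E ⧸ Λ) => (sec Λ (p.1 • p.2))⁻¹ * p.1 * sec Λ p.2) ⁻¹' {(v : E)} := by
    ext p
    simp [Subtype.ext_iff, coc_coe]
  rw [e]
  have h1 : Measurable fun p : E × (E ⧸ Λ) => (sec Λ (p.1 • p.2))⁻¹ * p.1 * sec Λ p.2 :=
    ((((sec_meas Λ).comp hsm).inv.mul measurable_fst).mul ((sec_meas Λ).comp measurable_snd))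
  exact h1 (measurableSet_singleton _)

/-- countable gluing of strongly measurable functions -/
theorem sm_glue {α β ι : Type*} [MeasurableSpace α] [TopologicalSpace β]
    [TopologicalSpace.PseudoMetrizableSpace β] [MeasurableSpace β] [BorelSpace β] [Countable ι]
    {c : α → ι} (hc : ∀ i, MeasurableSet {x | c x = i}) {F : ι → α → β}
    (hF : ∀ i, StronglyMeasurable (F i)) : StronglyMeasurable fun x => F (c x) x := by
  rw [stronglyMeasurable_iff_measurable_separable]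
  constructor
  · intro S hS
    have e : (fun x => F (c x) x) ⁻¹' S = ⋃ i, ({x | c x = i} ∩ (F i) ⁻¹' S) := by
      ext x
      constructor
      · intro hx
        exact mem_iUnion.2 ⟨c x, rfl, hx⟩
      · intro hx
        obtain ⟨i, hi, hx⟩ := mem_iUnion.1 hx
        have hi' : c x = i := hi
        change F (c x) x ∈ S
        rw [hi']
        exact hx
    rw [e]
    exact MeasurableSet.iUnion fun i => (hc i).inter ((hF i).measurable hS)
  · have h1 : TopologicalSpace.IsSeparable (⋃ i, range (F i)) :=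
      TopologicalSpace.IsSeparable.iUnion fun i => (hF i).isSeparable_range
    refine h1.mono ?_
    rintro _ ⟨x, rfl⟩
    exact mem_iUnion.2 ⟨c x, ⟨x, rfl⟩⟩

end meas

section fix

variable {G₁ G₂ : Type} [Group G₁] [TopologicalSpace G₁] [IsTopologicalGroup G₁]
  [LocallyCompactSpace G₁] [SecondCountableTopology G₁] [T2Space G₁] [MeasurableSpace G₁]
  [BorelSpace G₁] [Group G₂] [TopologicalSpace G₂] [IsTopologicalGroup G₂]
  [LocallyCompactSpace G₂] [SecondCountableTopology G₂] [T2Space G₂] [MeasurableSpace G₂]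
  [BorelSpace G₂]
  {Λ : Subgroup (G₁ × G₂)} [DiscreteTopology Λ] [MeasurableSpace ((G₁ × G₂) ⧸ Λ)]
  [BorelSpace ((G₁ × G₂) ⧸ Λ)] {ν : Measure ((G₁ × G₂) ⧸ Λ)} [IsProbabilityMeasure ν]
  (hν : ∀ g : G₁ × G₂, ν.map (fun x => g • x) = ν)
  {K : Type} [NormedAddCommGroup K] [InnerProductSpace ℂ K] [CompleteSpace K]
  {π : Λ →* (K →L[ℂ] K)} (hπ : ∀ g, adjoint (π g) = π g⁻¹) [Countable Λ]

theorem eq_meas {f : (G₁ × G₂) ⧸ Λ → K} (hfm : StronglyMeasurable f) :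
    MeasurableSet {p : (G₁ × G₂) × ((G₁ × G₂) ⧸ Λ) | f (p.1 • p.2) = π (coc Λ p.1 p.2) (f p.2)} := by
  haveI hcl : IsClosed (Λ : Set (G₁ × G₂)) := Subgroup.isClosed_of_discrete
  have hsm : Measurable fun p : (G₁ × G₂) × ((G₁ × G₂) ⧸ Λ) => p.1 • p.2 :=
    continuous_smul.measurable
  have s1 : StronglyMeasurable fun p : (G₁ × G₂) × ((G₁ × G₂) ⧸ Λ) => f (p.1 • p.2) :=
    hfm.comp_measurable hsm
  have s2 : ∀ v : Λ, StronglyMeasurable fun p : (G₁ × G₂) × ((G₁ × G₂) ⧸ Λ) => π v (f p.2) :=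
    fun v => (π v).continuous.comp_stronglyMeasurable (hfm.comp_measurable measurable_snd)
  have s3 : StronglyMeasurable fun p : (G₁ × G₂) × ((G₁ × G₂) ⧸ Λ) =>
      π (coc Λ p.1 p.2) (f p.2) := by
    borelize K
    exact sm_glue (c := fun p : (G₁ × G₂) × ((G₁ × G₂) ⧸ Λ) => coc Λ p.1 p.2)
      (F := fun v p => π v (f p.2)) (fun v => coc_meas2 v) s2
  exact StronglyMeasurable.measurableSet_eq_fun s1 s3

include hπ in
/-- A vector of the induced representation fixed by `1 × G₂` is given by a bounded function on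
`G₁`, which is equivariant for the right translations by `Λ`. -/
theorem ind_fix (η : Lp K 2 ν) (hη : ∀ g₂ : G₂, iro hν π ((1 : G₁), g₂) η = η) (h0 : η ≠ 0) :
    ∃ (ψ : G₁ → K) (R : ℝ), StronglyMeasurable ψ ∧ (∀ h, ‖ψ h‖ ≤ R) ∧
      ¬ (ψ =ᵐ[(Measure.haar : Measure G₁)] 0) ∧
      ∀ γ : Λ, ∀ᵐ h ∂(Measure.haar : Measure G₁), ψ (h * (γ : G₁ × G₂).1) = π γ⁻¹ (ψ h) := by
  obtain ⟨f, hf⟩ : ∃ f : (G₁ × G₂) ⧸ Λ → K, f = ⇑η := ⟨_, rfl⟩
  have hfm : StronglyMeasurable f := by rw [hf]; exact Lp.stronglyMeasurable η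
  haveI hcl : IsClosed (Λ : Set (G₁ × G₂)) := Subgroup.isClosed_of_discrete
  have hsm : Measurable fun p : (G₁ × G₂) × ((G₁ × G₂) ⧸ Λ) => p.1 • p.2 :=
    continuous_smul.measurable
  set m₁ : Measure G₁ := Measure.haar with hm₁
  set m₂ : Measure G₂ := Measure.haar with hm₂
  have hπi : ∀ (v : Λ) (w : K), π v⁻¹ (π v w) = w := by
    intro v w
    have : (π v⁻¹ * π v) w = w := by
      rw [← map_mul, inv_mul_cancel, map_one]; rfl
    exact this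
  have hall : ∀ g : G₂, ∀ᵐ x ∂ν, f (((1 : G₁), g) • x) = π (coc Λ (1, g) x) (f x) := by
    intro g
    have h1 := iro_ae hν hπ (1, g) η
    rw [hη g, ← hf] at h1
    have h2 := ae_comp (mpres hν (1, g)) h1
    filter_upwards [h2] with x hx
    rw [inv_smul_smul] at hx
    exact hx
  have hS0 := eq_meas (π := π) hfm
  have hN1 : MeasurableSet {p : G₂ × ((G₁ × G₂) ⧸ Λ) |
      f (((1 : G₁), p.1) • p.2) = π (coc Λ (1, p.1) p.2) (f p.2)} := by
    have h1 : Measurable fun p : G₂ × ((G₁ × G₂) ⧸ Λ) => (((1 : G₁), p.1), p.2) :=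
      (measurable_const.prodMk measurable_fst).prodMk measurable_snd
    exact h1 hS0
  have h2 : ∀ᵐ x ∂ν, ∀ᵐ g ∂m₂, f (((1 : G₁), g) • x) = π (coc Λ (1, g) x) (f x) :=
    (Measure.ae_ae_comm (μ := m₂) (ν := ν) hN1).1 (Eventually.of_forall hall)
  obtain ⟨N, hN⟩ : ∃ N : Set ((G₁ × G₂) ⧸ Λ), N = toMeasurable ν
    {x | ¬ ∀ᵐ g ∂m₂, f (((1 : G₁), g) • x) = π (coc Λ (1, g) x) (f x)} := ⟨_, rfl⟩
  have hNm : MeasurableSet N := by rw [hN]; exact measurableSet_toMeasurable _ _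
  have hN0 : ν N = 0 := by rw [hN, measure_toMeasurable]; exact h2
  have hNs : ∀ x, x ∉ N → ∀ᵐ g ∂m₂, f (((1 : G₁), g) • x) = π (coc Λ (1, g) x) (f x) := by
    intro x hx
    by_contra hcon
    exact hx (by rw [hN]; exact subset_toMeasurable _ _ hcon)
  have hNt : ∀ h : G₁ × G₂, ∀ᵐ x ∂ν, h • x ∉ N := by
    intro h
    have h3 := (mpres hν h).measure_preimage hNm.nullMeasurableSet
    rw [hN0] at h3
    exact measure_eq_zero_iff_ae_notMem.1 h3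
  have h3 : ∀ᵐ x ∂ν, ∀ᵐ h ∂(m₁.prod m₂), h • x ∉ N := by
    refine (Measure.ae_ae_comm (μ := m₁.prod m₂) (ν := ν)
      (p := fun h x => h • x ∉ N) ?_).1 (Eventually.of_forall hNt)
    exact (hsm hNm).compl
  have h4 : ∃ᶠ x in ae ν, ¬ ∀ᵐ h ∂(m₁.prod m₂), f (h • x) = 0 := by
    rw [Filter.Frequently]
    intro hcon
    have h5 : ∀ᵐ x ∂ν, ∀ᵐ h ∂(m₁.prod m₂), f (h • x) = 0 := by
      filter_upwards [hcon] with x hx
      exact not_not.1 hx
    have hZm : MeasurableSet {p : (G₁ × G₂) × ((G₁ × G₂) ⧸ Λ) | f (p.1 • p.2) = 0} :=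
      StronglyMeasurable.measurableSet_eq_fun (hfm.comp_measurable hsm) stronglyMeasurable_const
    have h6 := (Measure.ae_ae_comm (μ := m₁.prod m₂) (ν := ν)
      (p := fun h x => f (h • x) = 0) hZm).2 h5
    obtain ⟨h, hh⟩ := h6.exists
    have h7 := ae_comp (mpres hν h⁻¹) hh
    apply h0
    rw [Lp.eq_zero_iff_ae_eq_zero]
    filter_upwards [h7] with x hx
    rw [smul_inv_smul] at hx
    rw [← hf]
    exact hx
  obtain ⟨x, hx0, hx⟩ := (h4.and_eventually h3).exists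
  obtain ⟨σ, hσ⟩ : ∃ σ : G₁ × G₂, σ = sec Λ x := ⟨_, rfl⟩
  obtain ⟨Φ, hΦ⟩ : ∃ Φ : G₁ × G₂ → K, Φ = fun h => π (coc Λ h x)⁻¹ (f (h • x)) := ⟨_, rfl⟩
  have hΦm : StronglyMeasurable Φ := by
    rw [hΦ]
    borelize K
    refine sm_glue (c := fun h : G₁ × G₂ => coc Λ h x) (F := fun v h => π v⁻¹ (f (h • x)))
      (fun v => ?_) fun v => ?_
    · have h1 : Measurable fun h : G₁ × G₂ => (h, x) := measurable_id.prodMk measurable_const
      exact h1 (coc_meas2 v)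
    · have h1 : Measurable fun h : G₁ × G₂ => h • x :=
        hsm.comp (measurable_id.prodMk measurable_const)
      exact (π v⁻¹).continuous.comp_stronglyMeasurable (hfm.comp_measurable h1)
  -- (a)
  have ha : ∀ᵐ h ∂(m₁.prod m₂), ∀ᵐ g ∂m₂, Φ ((1, g) * h) = Φ h := by
    filter_upwards [hx] with h hh
    filter_upwards [hNs _ hh] with g hg
    rw [hΦ]
    dsimp only
    rw [mul_smul, hg, coc_mul, mul_inv_rev, map_mul]
    change π (coc Λ h x)⁻¹ (π (coc Λ (1, g) (h • x))⁻¹ (π (coc Λ (1, g) (h • x)) (f (h • x)))) = _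
    rw [hπi]
  -- (b)
  have hb : ∀ (γ : Λ) (h : G₁ × G₂), Φ (h * (σ * (γ : G₁ × G₂) * σ⁻¹)) = π γ⁻¹ (Φ h) := by
    intro γ h
    obtain ⟨k, hk⟩ : ∃ k : G₁ × G₂, k = σ * (γ : G₁ × G₂) * σ⁻¹ := ⟨_, rfl⟩
    have hkx : k • x = x := by
      have e1 : ((σ : G₁ × G₂) : (G₁ × G₂) ⧸ Λ) = x := by rw [hσ]; exact sec_coe Λ x
      rw [← e1]
      change ((k * σ : G₁ × G₂) : (G₁ × G₂) ⧸ Λ) = _
      rw [hk, inv_mul_cancel_right]
      rw [QuotientGroup.eq]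
      have : (σ * (γ : G₁ × G₂))⁻¹ * σ = ((γ⁻¹ : Λ) : G₁ × G₂) := by
        rw [Subgroup.coe_inv]; group
      rw [this]
      exact (γ⁻¹).2
    have hck : coc Λ k x = γ := by
      apply Subtype.ext
      rw [coc_coe, hkx, ← hσ, hk]
      group
    rw [← hk, hΦ]
    dsimp only
    rw [mul_smul, hkx, coc_mul, hkx, hck, mul_inv_rev, map_mul]
    rfl
  -- truncation
  have hΦ0 : ∃ R : ℕ, ¬ ∀ᵐ h ∂(m₁.prod m₂), (if ‖Φ h‖ ≤ (R : ℝ) then Φ h else 0) = 0 := by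
    by_contra hcon
    push Not at hcon
    apply hx0
    filter_upwards [ae_all_iff.2 hcon] with h hh
    obtain ⟨R, hR⟩ := exists_nat_ge ‖Φ h‖
    have h5 := hh R
    rw [if_pos hR, hΦ] at h5
    dsimp only at h5
    have h6 : π (coc Λ h x) (π (coc Λ h x)⁻¹ (f (h • x))) = 0 := by rw [h5, map_zero]
    have h7 := hπi (coc Λ h x)⁻¹ (f (h • x))
    rw [inv_inv] at h7
    rw [← h7]
    exact h6
  obtain ⟨R, hR0⟩ := hΦ0
  obtain ⟨Ψ, hΨ⟩ : ∃ Ψ : G₁ × G₂ → K, Ψ = fun h => if ‖Φ h‖ ≤ (R : ℝ) then Φ h else 0 := ⟨_, rfl⟩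
  have hΨm : StronglyMeasurable Ψ := by
    rw [hΨ]
    refine StronglyMeasurable.ite ?_ hΦm stronglyMeasurable_const
    exact hΦm.norm.measurable measurableSet_Iic
  have hΨR : ∀ h, ‖Ψ h‖ ≤ R := by
    intro h
    rw [hΨ]
    dsimp only
    split_ifs with h5
    · exact h5
    · rw [norm_zero]; exact Nat.cast_nonneg _
  have hΨa : ∀ᵐ h ∂(m₁.prod m₂), ∀ᵐ g ∂m₂, Ψ ((1, g) * h) = Ψ h := by
    filter_upwards [ha] with h hh
    filter_upwards [hh] with g hg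
    rw [hΨ]
    dsimp only
    rw [hg]
  have hnorm : ∀ (v : Λ) (w : K), ‖π v w‖ = ‖w‖ := fun v w => Vale.Agent.P092.H885.u_norm hπ v w
  have hΨb : ∀ (γ : Λ) (h : G₁ × G₂), Ψ (h * (σ * (γ : G₁ × G₂) * σ⁻¹)) = π γ⁻¹ (Ψ h) := by
    intro γ h
    rw [hΨ]
    dsimp only
    rw [hb, hnorm]
    split_ifs with h5
    · rfl
    · rw [map_zero]
  -- the probability measure on `G₂`
  obtain ⟨B, hB⟩ : ∃ B : TopologicalSpace.PositiveCompacts G₂, True := ⟨Classical.arbitrary _, trivial⟩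
  have hBm : MeasurableSet (B : Set G₂) := B.isCompact.measurableSet
  have hB0 : m₂ (B : Set G₂) ≠ 0 := (B.interior_nonempty.mono Subset.rfl |> fun h =>
    (isOpen_interior.measure_pos m₂ h).trans_le (measure_mono interior_subset)).ne'
  have hBt : m₂ (B : Set G₂) ≠ ∞ := B.isCompact.measure_lt_top.ne
  obtain ⟨ρ, hρ⟩ : ∃ ρ : Measure G₂, ρ = (m₂ (B : Set G₂))⁻¹ • m₂.restrict (B : Set G₂) := ⟨_, rfl⟩
  have hρp : IsProbabilityMeasure ρ := by
    constructor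
    rw [hρ, Measure.smul_apply, Measure.restrict_apply_univ, smul_eq_mul]
    exact ENNReal.inv_mul_cancel hB0 hBt
  have hρa : ρ ≪ m₂ := by
    rw [hρ]
    exact (Measure.smul_absolutelyContinuous).trans Measure.restrict_le_self.absolutelyContinuous
  obtain ⟨ψ₀, hψ₀⟩ : ∃ ψ₀ : G₁ → K, ψ₀ = fun h₁ => ∫ h₂, Ψ (h₁, h₂) ∂ρ := ⟨_, rfl⟩
  have hψm : StronglyMeasurable ψ₀ := by
    rw [hψ₀]
    exact StronglyMeasurable.integral_prod_right (f := fun h₁ h₂ => Ψ (h₁, h₂)) hΨm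
  have hψR : ∀ h₁, ‖ψ₀ h₁‖ ≤ R := by
    intro h₁
    rw [hψ₀]
    dsimp only
    have h5 := norm_integral_le_of_norm_le_const (μ := ρ) (f := fun h₂ => Ψ (h₁, h₂)) (C := R)
      (Eventually.of_forall fun h₂ => hΨR _)
    rw [probReal_univ, mul_one] at h5
    exact h5
  have hgood : ∀ᵐ h₁ ∂m₁, ∀ᵐ h₂ ∂m₂, Ψ (h₁, h₂) = ψ₀ h₁ := by
    have h5 := Measure.ae_ae_of_ae_prod hΨa
    filter_upwards [h5] with h₁ hh
    haveI : NeZero m₂ := ⟨by rw [hm₂]; exact NeZero.ne _⟩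
    obtain ⟨h₂, hh₂⟩ := hh.exists
    have h6 : ∀ᵐ g ∂m₂, Ψ (h₁, g * h₂) = Ψ (h₁, h₂) := by
      filter_upwards [hh₂] with g hg
      have e : ((1 : G₁), g) * (h₁, h₂) = (h₁, g * h₂) := by
        ext
        · exact one_mul _
        · rfl
      rw [e] at hg
      exact hg
    have h7 : ∀ᵐ g ∂m₂, Ψ (h₁, g) = Ψ (h₁, h₂) := by
      rw [ae_iff] at h6 ⊢
      exact (measure_mul_right_null m₂ h₂ (s := {g | ¬ Ψ (h₁, g) = Ψ (h₁, h₂)})).1 h6
    have h8 : ψ₀ h₁ = Ψ (h₁, h₂) := by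
      rw [hψ₀]
      dsimp only
      have h9 : ∀ᵐ g ∂ρ, Ψ (h₁, g) = Ψ (h₁, h₂) := hρa.ae_le h7
      rw [integral_congr_ae h9, integral_const, probReal_univ, one_smul]
    filter_upwards [h7] with g hg
    rw [hg, h8]
  have hψe : ∀ γ : Λ, ∀ᵐ h ∂m₁, ψ₀ (h * (σ * (γ : G₁ × G₂) * σ⁻¹).1) = π γ⁻¹ (ψ₀ h) := by
    intro γ
    obtain ⟨k, hk⟩ : ∃ k : G₁ × G₂, k = σ * (γ : G₁ × G₂) * σ⁻¹ := ⟨_, rfl⟩
    rw [← hk]
    have h5 : ∀ᵐ h ∂m₁, ∀ᵐ h₂ ∂m₂, Ψ (h * k.1, h₂) = ψ₀ (h * k.1) := by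
      rw [ae_iff] at hgood ⊢
      exact (measure_mul_right_null m₁ k.1
        (s := {h | ¬ ∀ᵐ h₂ ∂m₂, Ψ (h, h₂) = ψ₀ h})).2 hgood
    filter_upwards [hgood, h5] with h hh1 hh2
    have h6 : ∀ᵐ h₂ ∂m₂, Ψ (h * k.1, h₂ * k.2) = ψ₀ (h * k.1) := by
      rw [ae_iff] at hh2 ⊢
      exact (measure_mul_right_null m₂ k.2
        (s := {h₂ | ¬ Ψ (h * k.1, h₂) = ψ₀ (h * k.1)})).2 hh2
    haveI : NeZero m₂ := ⟨by rw [hm₂]; exact NeZero.ne _⟩
    obtain ⟨h₂, a1, a2⟩ := (hh1.and h6).exists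
    rw [← a2, ← a1]
    have a3 := hΨb γ (h, h₂)
    rw [← hk] at a3
    exact a3
  have hψ0 : ¬ (ψ₀ =ᵐ[m₁] 0) := by
    intro hcon
    apply hR0
    have hZm : MeasurableSet {h : G₁ × G₂ | Ψ h = 0} :=
      StronglyMeasurable.measurableSet_eq_fun hΨm stronglyMeasurable_const
    have h5 : ∀ᵐ h ∂(m₁.prod m₂), Ψ h = 0 := by
      rw [Measure.ae_prod_iff_ae_ae hZm]
      filter_upwards [hcon, hgood] with h₁ hh1 hh2
      filter_upwards [hh2] with h₂ hh3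
      rw [hh3, hh1]
      rfl
    filter_upwards [h5] with h hh
    rw [hΨ] at hh
    exact hh
  refine ⟨fun h => ψ₀ (h * σ.1⁻¹), R, ?_, fun h => hψR _, ?_, fun γ => ?_⟩
  · exact hψm.comp_measurable (measurable_mul_const _)
  · intro hcon
    apply hψ0
    have h5 : ∀ᵐ h ∂m₁, ψ₀ (h * σ.1⁻¹) = 0 := hcon
    have h6 : ∀ᵐ h ∂m₁, ψ₀ h = 0 := by
      rw [ae_iff] at h5 ⊢
      exact (measure_mul_right_null m₁ σ.1⁻¹ (s := {h | ¬ ψ₀ h = 0})).1 h5
    exact h6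
  · have h5 : ∀ᵐ h ∂m₁, ψ₀ (h * σ.1⁻¹ * (σ * (γ : G₁ × G₂) * σ⁻¹).1) = π γ⁻¹ (ψ₀ (h * σ.1⁻¹)) := by
      have h6 := hψe γ
      rw [ae_iff] at h6 ⊢
      exact (measure_mul_right_null m₁ σ.1⁻¹
        (s := {h | ¬ ψ₀ (h * (σ * (γ : G₁ × G₂) * σ⁻¹).1) = π γ⁻¹ (ψ₀ h)})).2 h6
    filter_upwards [h5] with h hh
    rw [← hh]
    congr 1
    change h * (γ : G₁ × G₂).1 * σ.1⁻¹ = h * σ.1⁻¹ * (σ.1 * (γ : G₁ × G₂).1 * σ.1⁻¹)
    group

end fix

end Vale.Agent.P092.H103
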