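import Vale.Agent.P092.H103.CA1
import Vale.Agent.P092.H103.IndFix

/-!
P092 (helper103), team D, block [D-CNT]: the counting principle, analytic part.
-/

set_option linter.all false

open scoped InnerProductSpace ENNReal
open Set Filter Topology MeasureTheory ContinuousLinearMap

namespace Vale.Agent.P092.H103

open Vale.Agent.P092.H790 Vale.Agent.P092.H85 Vale.Agent.P092.H160

section lp

variable {X : Type*} [MeasurableSpace X] {ν : Measure X} {K : Type*} [NormedAddCommGroup K]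

theorem enorm_sq_Lp (ξ : Lp K 2 ν) : ‖ξ‖ₑ ^ 2 = ∫⁻ x, ‖ξ x‖ₑ ^ 2 ∂ν := by
  rw [Lp.enorm_def, eLpNorm_eq_lintegral_rpow_enorm_toReal (by norm_num) (by norm_num)]
  have h2 : (2 : ℝ≥0∞).toReal = 2 := by norm_num
  rw [h2, ← ENNReal.rpow_natCast, ← ENNReal.rpow_mul]
  norm_num

theorem enorm_sq_ind {K : Type*} [NormedAddCommGroup K] [InnerProductSpace ℂ K] {A : Set X}
    (hA : MeasurableSet A) (ξ : Lp K 2 ν) :
    ‖H790.ind ν K A ξ‖ₑ ^ 2 = ∫⁻ x in A, ‖ξ x‖ₑ ^ 2 ∂ν := by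
  rw [enorm_sq_Lp, ← lintegral_indicator hA]
  refine lintegral_congr_ae ?_
  filter_upwards [ind_ae hA ξ] with x hx
  rw [hx]
  by_cases h : x ∈ A
  · rw [Set.indicator_of_mem h, Set.indicator_of_mem h]
  · rw [Set.indicator_of_notMem h, Set.indicator_of_notMem h, enorm_zero]
    simp

end lp

section dcp

variable {E : Type} [Group E] [TopologicalSpace E] [IsTopologicalGroup E] [LocallyCompactSpace E]
  [SecondCountableTopology E] [T2Space E] [MeasurableSpace E] [BorelSpace E]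
  {Λ : Subgroup E} [DiscreteTopology Λ] [MeasurableSpace (E ⧸ Λ)] [BorelSpace (E ⧸ Λ)]
  {ν : Measure (E ⧸ Λ)} [IsProbabilityMeasure ν]
  {K : Type} [NormedAddCommGroup K] [InnerProductSpace ℂ K] [CompleteSpace K]

theorem Dcp.mul {S T : Lp K 2 ν →L[ℂ] Lp K 2 ν} (hS : Dcp S) (hT : Dcp T) : Dcp (S * T) := by
  intro A hA
  rw [mul_assoc, hT A hA, ← mul_assoc, hS A hA, mul_assoc]

theorem Dcp.comp (A : K →L[ℂ] K) : Dcp (A.compLpL 2 ν) := fun S hS => (fld_comp A).ind hS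

theorem Dcp.ap {T : Lp K 2 ν →L[ℂ] Lp K 2 ν} (hT : Dcp T) {A : Set (E ⧸ Λ)} (hA : MeasurableSet A)
    (ξ : Lp K 2 ν) : T (H790.ind ν K A ξ) = H790.ind ν K A (T ξ) :=
  congrArg (fun X : Lp K 2 ν →L[ℂ] Lp K 2 ν => X ξ) (hT A hA)

/-- Decomposable operators are bounded pointwise. -/
theorem Dcp.norm_ae {T : Lp K 2 ν →L[ℂ] Lp K 2 ν} (hT : Dcp T) (ξ : Lp K 2 ν) :
    ∀ᵐ x ∂ν, ‖(T ξ) x‖ₑ ^ 2 ≤ ‖T‖ₑ ^ 2 * ‖ξ x‖ₑ ^ 2 := by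
  have h1 : AEMeasurable (fun x => ‖(T ξ) x‖ₑ ^ 2) ν :=
    ((Lp.aestronglyMeasurable (T ξ)).enorm).pow_const 2
  have h2 : AEMeasurable (fun x => ‖T‖ₑ ^ 2 * ‖ξ x‖ₑ ^ 2) ν :=
    (((Lp.aestronglyMeasurable ξ).enorm).pow_const 2).const_mul _
  refine ae_le_of_forall_setLIntegral_le_of_sigmaFinite₀ h1 fun A hA _ => ?_
  rw [← enorm_sq_ind hA, lintegral_const_mul'' _
    ((((Lp.aestronglyMeasurable ξ).enorm).pow_const 2).restrict), ← enorm_sq_ind hA, ← hT.ap hA,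
    ← mul_pow]
  exact pow_le_pow_left' (T.le_opENorm _) 2

end dcp

section main

variable {E : Type} [Group E] [TopologicalSpace E] [IsTopologicalGroup E] [LocallyCompactSpace E]
  [SecondCountableTopology E] [T2Space E] [MeasurableSpace E] [BorelSpace E]
  {Λ : Subgroup E} [DiscreteTopology Λ] [MeasurableSpace (E ⧸ Λ)] [BorelSpace (E ⧸ Λ)]
  {ν : Measure (E ⧸ Λ)} [IsProbabilityMeasure ν] (hν : ∀ g : E, ν.map (fun x => g • x) = ν)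
  {K : Type} [NormedAddCommGroup K] [InnerProductSpace ℂ K] [CompleteSpace K]
  {V : Λ →* (K →L[ℂ] K)} (hVa : ∀ v, adjoint (V v) = V v⁻¹) [Countable Λ]

theorem coc_one (x : E ⧸ Λ) : coc Λ 1 x = 1 := by
  have h := coc_mul Λ 1 1 x
  rw [one_mul, one_smul] at h
  exact left_eq_mul.mp h

theorem coc_inv (g : E) (x : E ⧸ Λ) : coc Λ g⁻¹ (g • x) = (coc Λ g x)⁻¹ := by
  have h := coc_mul Λ g⁻¹ g x
  rw [inv_mul_cancel, coc_one] at h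
  exact eq_inv_of_mul_eq_one_left h.symm

include hVa in
theorem iro_inv_ae (g : E) (ξ : Lp K 2 ν) :
    ⇑(iro hν V g⁻¹ ξ) =ᵐ[ν] fun x => V (coc Λ g x)⁻¹ (ξ (g • x)) := by
  filter_upwards [iro_ae hν hVa g⁻¹ ξ] with x hx
  rw [hx, inv_inv, coc_inv]

include hVa in
theorem iro_mul_ap (g h : E) (ξ : Lp K 2 ν) :
    iro hν V (g * h) ξ = iro hν V g (iro hν V h ξ) :=
  congrArg (fun X : Lp K 2 ν →L[ℂ] Lp K 2 ν => X ξ) ((irep hν hVa).map_mul g h)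

include hVa in
theorem iro_one_ap (ξ : Lp K 2 ν) : iro hν V 1 ξ = ξ :=
  congrArg (fun X : Lp K 2 ν →L[ℂ] Lp K 2 ν => X ξ) ((irep hν hVa).map_one)

include hVa in
theorem iro_norm (g : E) (ξ : Lp K 2 ν) : ‖iro hν V g ξ‖ = ‖ξ‖ :=
  Vale.Agent.P092.H885.u_norm (irep_crep hν hVa).adj g ξ

include hVa in
theorem iro_comm_inv {B : Lp K 2 ν →L[ℂ] Lp K 2 ν} {g : E}
    (h : B * iro hν V g = iro hν V g * B) : B * iro hν V g⁻¹ = iro hν V g⁻¹ * B := by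
  ext1 ξ
  change B (iro hν V g⁻¹ ξ) = iro hν V g⁻¹ (B ξ)
  have h1 := congrArg (fun X : Lp K 2 ν →L[ℂ] Lp K 2 ν => X (iro hν V g⁻¹ ξ)) h
  change B (iro hν V g (iro hν V g⁻¹ ξ)) = iro hν V g (B (iro hν V g⁻¹ ξ)) at h1
  rw [← iro_mul_ap hν hVa, mul_inv_cancel, iro_one_ap hν hVa] at h1
  rw [h1, ← iro_mul_ap hν hVa, inv_mul_cancel, iro_one_ap hν hVa]

include hVa in
/-- A constant field almost commutes with `π(g)*` on bounded fields. -/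
theorem const_comm (M : K →L[ℂ] K) (g : E) {ζ : Lp K 2 ν} {c : ℝ} (hc : 0 ≤ c)
    (hζ : ∀ᵐ x ∂ν, ‖ζ x‖ ≤ c) :
    ‖M.compLpL 2 ν (iro hν V g⁻¹ ζ) - iro hν V g⁻¹ (M.compLpL 2 ν ζ)‖ ≤
      2 * ‖M‖ * c * Real.sqrt (ν.real {x | coc Λ g x ≠ 1}) := by
  obtain ⟨A, hA⟩ : ∃ A : Set (E ⧸ Λ), A = {x | coc Λ g x ≠ 1} := ⟨_, rfl⟩
  have hAm : MeasurableSet A := by rw [hA]; exact (coc_meas Λ g 1).compl
  have h1 : ‖M.compLpL 2 ν (iro hν V g⁻¹ ζ) - iro hν V g⁻¹ (M.compLpL 2 ν ζ)‖ ≤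
      ‖indicatorConstLp 2 hAm (measure_ne_top ν A) (2 * ‖M‖ * c)‖ := by
    refine Lp.norm_le_norm_of_ae_le ?_
    filter_upwards [Lp.coeFn_sub (M.compLpL 2 ν (iro hν V g⁻¹ ζ))
      (iro hν V g⁻¹ (M.compLpL 2 ν ζ)), M.coeFn_compLpL (iro hν V g⁻¹ ζ),
      iro_inv_ae hν hVa g ζ, iro_inv_ae hν hVa g (M.compLpL 2 ν ζ),
      ae_comp (mpres hν g) (M.coeFn_compLpL (p := 2) ζ), ae_comp (mpres hν g) hζ,
      indicatorConstLp_coeFn (p := 2) (hs := hAm) (hμs := measure_ne_top ν A)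
        (c := 2 * ‖M‖ * c)] with x a1 a2 a3 a4 a5 a6 a7
    rw [a1, Pi.sub_apply, a2, a3, a4, a5, a7]
    by_cases hx : x ∈ A
    · rw [Set.indicator_of_mem hx, Real.norm_of_nonneg (by positivity)]
      refine (norm_sub_le _ _).trans ?_
      have e1 : ‖M (V (coc Λ g x)⁻¹ (ζ (g • x)))‖ ≤ ‖M‖ * c := by
        refine (M.le_opNorm _).trans ?_
        rw [Vale.Agent.P092.H885.u_norm hVa]
        gcongr
      have e2 : ‖V (coc Λ g x)⁻¹ (M (ζ (g • x)))‖ ≤ ‖M‖ * c := by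
        rw [Vale.Agent.P092.H885.u_norm hVa]
        refine (M.le_opNorm _).trans ?_
        gcongr
      linarith
    · have hx' : coc Λ g x = 1 := by
        by_contra hcon
        exact hx (by rw [hA]; exact hcon)
      rw [Set.indicator_of_notMem hx, hx', inv_one, map_one]
      change ‖M (ζ (g • x)) - M (ζ (g • x))‖ ≤ _
      rw [sub_self]
      simp
  refine h1.trans ?_
  refine norm_indicatorConstLp_le.trans ?_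
  rw [Real.norm_of_nonneg (by positivity), ← hA]
  have e1 : ν.real A ^ (1 / (2 : ℝ≥0∞).toReal) = Real.sqrt (ν.real A) := by
    rw [Real.sqrt_eq_rpow]
    norm_num
  rw [e1]

/-- the constant field -/
noncomputable def cst (ν : Measure (E ⧸ Λ)) [IsProbabilityMeasure ν] (ω : K) : Lp K 2 ν :=
  Lp.const 2 ν ω

theorem cst_ae (ω : K) : ∀ᵐ x ∂ν, (cst ν ω : Lp K 2 ν) x = ω := Lp.coeFn_const ..

theorem norm_cst (ω : K) : ‖(cst ν ω : Lp K 2 ν)‖ = ‖ω‖ := by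
  have h1 : ‖(cst ν ω : Lp K 2 ν)‖ₑ ^ 2 = ‖ω‖ₑ ^ 2 := by
    rw [enorm_sq_Lp]
    have : ∫⁻ x, ‖(cst ν ω : Lp K 2 ν) x‖ₑ ^ 2 ∂ν = ∫⁻ x, ‖ω‖ₑ ^ 2 ∂ν := by
      refine lintegral_congr_ae ?_
      filter_upwards [cst_ae (ν := ν) ω] with x hx
      rw [hx]
    rw [this, lintegral_const, measure_univ, mul_one]
  have h2 := congrArg ENNReal.toReal h1
  rw [ENNReal.toReal_pow, ENNReal.toReal_pow, toReal_enorm, toReal_enorm] at h2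
  exact (pow_left_inj₀ (norm_nonneg _) (norm_nonneg _) two_ne_zero).1 h2

include hVa in
/-- the fields `T (π(h)* Ω)`, `T` decomposable -/
theorem field_eq {T : Lp K 2 ν →L[ℂ] Lp K 2 ν} (hT : Dcp T) (ω : K) (h : E) :
    ∀ᵐ x ∂ν, (T (iro hν V h⁻¹ (cst ν ω))) x =
      (T ((V (coc Λ h x)⁻¹).compLpL 2 ν (cst ν ω))) x := by
  have hk : ∀ v, MeasurableSet {x : E ⧸ Λ | (coc Λ h x)⁻¹ = v} := by
    intro v
    have e : {x : E ⧸ Λ | (coc Λ h x)⁻¹ = v} = {x | coc Λ h x = v⁻¹} := by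
      ext x
      exact inv_eq_iff_eq_inv
    rw [e]
    exact coc_meas Λ h v⁻¹
  have key : ∀ v : Λ, H790.ind ν K {x : E ⧸ Λ | (coc Λ h x)⁻¹ = v} (T (iro hν V h⁻¹ (cst ν ω))) =
      H790.ind ν K {x : E ⧸ Λ | (coc Λ h x)⁻¹ = v} (T ((V v).compLpL 2 ν (cst ν ω))) := by
    intro v
    rw [← hT.ap (hk v), ← hT.ap (hk v)]
    congr 1
    refine Lp.ext ?_
    filter_upwards [ind_ae (hk v) (iro hν V h⁻¹ (cst ν ω)),
      ind_ae (hk v) ((V v).compLpL 2 ν (cst ν ω)), iro_inv_ae hν hVa h (cst ν ω),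
      (V v).coeFn_compLpL (p := 2) (cst ν ω : Lp K 2 ν), cst_ae (ν := ν) ω,
      ae_comp (mpres hν h) (cst_ae (ν := ν) ω)] with x a1 a2 a3 a4 a5 a6
    rw [a1, a2]
    by_cases hx : (coc Λ h x)⁻¹ = v
    · rw [Set.indicator_of_mem (show x ∈ {x : E ⧸ Λ | (coc Λ h x)⁻¹ = v} from hx),
        Set.indicator_of_mem (show x ∈ {x : E ⧸ Λ | (coc Λ h x)⁻¹ = v} from hx), a3, a4, a5, a6,
        hx]
    · rw [Set.indicator_of_notMem (show x ∉ {x : E ⧸ Λ | (coc Λ h x)⁻¹ = v} from hx),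
        Set.indicator_of_notMem (show x ∉ {x : E ⧸ Λ | (coc Λ h x)⁻¹ = v} from hx)]
  have h1 : ∀ᵐ x ∂ν, ∀ v : Λ,
      ({x : E ⧸ Λ | (coc Λ h x)⁻¹ = v}.indicator (T (iro hν V h⁻¹ (cst ν ω))) : E ⧸ Λ → K) x =
      ({x : E ⧸ Λ | (coc Λ h x)⁻¹ = v}.indicator (T ((V v).compLpL 2 ν (cst ν ω))) :
        E ⧸ Λ → K) x := by
    refine ae_all_iff.2 fun v => ?_
    filter_upwards [ind_ae (hk v) (T (iro hν V h⁻¹ (cst ν ω))),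
      ind_ae (hk v) (T ((V v).compLpL 2 ν (cst ν ω)))] with x h2 h3
    rw [← h2, ← h3, key v]
  filter_upwards [h1] with x hx
  have h2 := hx (coc Λ h x)⁻¹
  rwa [Set.indicator_of_mem (show x ∈ {y : E ⧸ Λ | (coc Λ h y)⁻¹ = (coc Λ h x)⁻¹} from rfl),
    Set.indicator_of_mem (show x ∈ {y : E ⧸ Λ | (coc Λ h y)⁻¹ = (coc Λ h x)⁻¹} from rfl)] at h2

/-- The multiplicity of the cocycle along an expanded direction. -/
theorem mult_le {μ : Measure E} {N : Set E} (hN : ∀ᵐ g ∂μ, g ∈ N) {X₀ : Set (E ⧸ Λ)} {C₀ : Set E}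
    (hC₀ : ∀ x ∈ X₀, sec Λ x ∈ C₀) {b : E} {m : ℝ≥0∞}
    (hm : ∀ g₀ ∈ N, μ {g | b * g * g₀⁻¹ * b⁻¹ ∈ (fun p : E × E => p.1 * p.2⁻¹) '' (C₀ ×ˢ C₀)} ≤ m)
    (x : E ⧸ Λ) (v : Λ) :
    μ {g | (coc Λ (b * g) x)⁻¹ = v ∧ (b * g) • x ∈ X₀} ≤ m := by
  by_cases h : ∃ g₀ ∈ N, (coc Λ (b * g₀) x)⁻¹ = v ∧ (b * g₀) • x ∈ X₀
  · obtain ⟨g₀, hg₀, h1, h2⟩ := h
    refine (measure_mono fun g hg => ?_).trans (hm g₀ hg₀)
    obtain ⟨h3, h4⟩ := hg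
    refine ⟨(sec Λ ((b * g) • x), sec Λ ((b * g₀) • x)), ⟨hC₀ _ h4, hC₀ _ h2⟩, ?_⟩
    have e1 := sec_mul_coc Λ (b * g) x
    have e2 := sec_mul_coc Λ (b * g₀) x
    have e3 : coc Λ (b * g) x = coc Λ (b * g₀) x := by
      rw [← inv_inj, h3, h1]
    rw [e3] at e1
    have e4 : sec Λ ((b * g) • x) = b * g * sec Λ x * (coc Λ (b * g₀) x : E)⁻¹ := by
      rw [← e1, mul_inv_cancel_right]
    have e5 : sec Λ ((b * g₀) • x) = b * g₀ * sec Λ x * (coc Λ (b * g₀) x : E)⁻¹ := by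
      rw [← e2, mul_inv_cancel_right]
    change sec Λ ((b * g) • x) * (sec Λ ((b * g₀) • x))⁻¹ = b * g * g₀⁻¹ * b⁻¹
    rw [e4, e5]
    group
  · have h0 : μ {g | (coc Λ (b * g) x)⁻¹ = v ∧ (b * g) • x ∈ X₀} = 0 := by
      refine measure_mono_null (t := {g | ¬ g ∈ N}) (fun g hg hgN => ?_) (ae_iff.1 hN)
      exact h ⟨g, hgN, hg⟩
    rw [h0]
    exact zero_le

include hVa in
theorem main_ineq {μ : Measure E} [IsFiniteMeasure μ] {T : Lp K 2 ν →L[ℂ] Lp K 2 ν} (hT : Dcp T)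
    {ω : K} (hω : ‖ω‖ ≤ 1) (b : E) {X₀ : Set (E ⧸ Λ)} (hX₀ : MeasurableSet X₀) {m : ℝ≥0∞}
    (hm : ∀ (x : E ⧸ Λ) (v : Λ), μ {g | (coc Λ (b * g) x)⁻¹ = v ∧ (b * g) • x ∈ X₀} ≤ m) :
    ∫⁻ g, ‖T (iro hν V (b * g)⁻¹ (cst ν ω))‖ₑ ^ 2 ∂μ ≤
      m * ∑' v : Λ, ‖T ((V v).compLpL 2 ν (cst ν ω))‖ₑ ^ 2 + ‖T‖ₑ ^ 2 * ν X₀ᶜ * μ univ := by
  haveI hcl : IsClosed (Λ : Set E) := Subgroup.isClosed_of_discrete
  have hsm : Measurable fun p : E × (E ⧸ Λ) => (b * p.1) • p.2 := by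
    have h1 : Continuous fun p : E × (E ⧸ Λ) => (b * p.1) • p.2 := by fun_prop
    exact h1.measurable
  obtain ⟨ζ, hζ⟩ : ∃ ζ : Λ → Lp K 2 ν, ζ = fun v => T ((V v).compLpL 2 ν (cst ν ω)) := ⟨_, rfl⟩
  obtain ⟨S, hS⟩ : ∃ S : Λ → Set (E × (E ⧸ Λ)), S = fun v =>
    {p | (coc Λ (b * p.1) p.2)⁻¹ = v ∧ (b * p.1) • p.2 ∈ X₀} := ⟨_, rfl⟩
  have hSm : ∀ v, MeasurableSet (S v) := by
    intro v
    have e : S v = {p | coc Λ (b * p.1) p.2 = v⁻¹} ∩ (fun p : E × (E ⧸ Λ) => (b * p.1) • p.2) ⁻¹' X₀ := by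
      rw [hS]
      ext p
      simp only [mem_setOf_eq, mem_inter_iff, mem_preimage, inv_eq_iff_eq_inv]
    rw [e]
    refine MeasurableSet.inter ?_ (hsm hX₀)
    have h1 : Measurable fun p : E × (E ⧸ Λ) => (b * p.1, p.2) :=
      (measurable_const.mul measurable_fst).prodMk measurable_snd
    exact h1 (coc_meas2 v⁻¹)
  have hζm : ∀ v, Measurable fun x => ‖(ζ v) x‖ₑ ^ 2 := fun v =>
    ((Lp.stronglyMeasurable (ζ v)).enorm).pow_const 2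
  obtain ⟨φ, hφ⟩ : ∃ φ : Λ → E × (E ⧸ Λ) → ℝ≥0∞, φ = fun v p =>
    (S v).indicator (fun p => ‖(ζ v) p.2‖ₑ ^ 2) p := ⟨_, rfl⟩
  have hφm : ∀ v, Measurable (φ v) := by
    intro v
    rw [hφ]
    exact ((hζm v).comp measurable_snd).indicator (hSm v)
  -- for fixed `g`
  have h1 : ∀ g : E, ‖T (iro hν V (b * g)⁻¹ (cst ν ω))‖ₑ ^ 2 ≤
      (∑' v, ∫⁻ x, φ v (g, x) ∂ν) + ‖T‖ₑ ^ 2 * ν X₀ᶜ := by
    intro g
    have hYm : MeasurableSet {x : E ⧸ Λ | (b * g) • x ∈ X₀} := (smul_meas Λ (b * g)) hX₀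
    rw [enorm_sq_Lp, ← lintegral_add_compl _ hYm]
    refine add_le_add ?_ ?_
    · have hm' : ∀ v, Measurable fun x => φ v (g, x) := fun v =>
        (hφm v).comp measurable_prodMk_left
      rw [← lintegral_tsum fun v => (hm' v).aemeasurable, ← lintegral_indicator hYm]
      refine lintegral_mono_ae ?_
      filter_upwards [field_eq hν hVa hT ω (b * g)] with x hx
      by_cases hy : x ∈ {x : E ⧸ Λ | (b * g) • x ∈ X₀}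
      · rw [Set.indicator_of_mem hy, hx]
        refine le_trans ?_ (ENNReal.le_tsum (coc Λ (b * g) x)⁻¹)
        rw [hφ]
        dsimp only
        rw [Set.indicator_of_mem (show (g, x) ∈ S (coc Λ (b * g) x)⁻¹ by
          rw [hS]; exact ⟨rfl, hy⟩), hζ]
      · rw [Set.indicator_of_notMem hy]
        exact zero_le
    · have h2 : ∫⁻ x in {x : E ⧸ Λ | (b * g) • x ∈ X₀}ᶜ,
          ‖(T (iro hν V (b * g)⁻¹ (cst ν ω))) x‖ₑ ^ 2 ∂ν ≤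
          ∫⁻ x in {x : E ⧸ Λ | (b * g) • x ∈ X₀}ᶜ, ‖T‖ₑ ^ 2 ∂ν := by
        refine lintegral_mono_ae (ae_restrict_of_ae ?_)
        filter_upwards [hT.norm_ae (iro hν V (b * g)⁻¹ (cst ν ω)),
          iro_inv_ae hν hVa (b * g) (cst ν ω),
          ae_comp (mpres hν (b * g)) (cst_ae (ν := ν) ω)] with x a1 a2 a3
        refine a1.trans ?_
        have e1 : ‖V (coc Λ (b * g) x)⁻¹ ω‖ₑ ≤ 1 := by
          rw [← ofReal_norm, Vale.Agent.P092.H885.u_norm hVa, ← ENNReal.ofReal_one]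
          exact ENNReal.ofReal_le_ofReal hω
        rw [a2, a3]
        calc ‖T‖ₑ ^ 2 * ‖V (coc Λ (b * g) x)⁻¹ ω‖ₑ ^ 2 ≤ ‖T‖ₑ ^ 2 * 1 ^ 2 := by gcongr
          _ = ‖T‖ₑ ^ 2 := by rw [one_pow, mul_one]
      refine h2.trans ?_
      rw [setLIntegral_const]
      have h3 : ν {x : E ⧸ Λ | (b * g) • x ∈ X₀}ᶜ = ν X₀ᶜ :=
        (mpres hν (b * g)).measure_preimage hX₀.compl.nullMeasurableSet
      rw [h3]
  have h2 : ∀ v, ∫⁻ g, ∫⁻ x, φ v (g, x) ∂ν ∂μ ≤ m * ‖ζ v‖ₑ ^ 2 := by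
    intro v
    have hu : AEMeasurable (Function.uncurry fun g x => φ v (g, x)) (μ.prod ν) :=
      (hφm v).aemeasurable
    rw [lintegral_lintegral_swap hu, enorm_sq_Lp, ← lintegral_const_mul _ (hζm v)]
    refine lintegral_mono fun x => ?_
    have e1 : ∀ g, φ v (g, x) = {g | (coc Λ (b * g) x)⁻¹ = v ∧ (b * g) • x ∈ X₀}.indicator
        (fun _ => ‖(ζ v) x‖ₑ ^ 2) g := by
      intro g
      rw [hφ, hS]
      rfl
    simp_rw [e1]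
    have hm1 : MeasurableSet {g | (coc Λ (b * g) x)⁻¹ = v ∧ (b * g) • x ∈ X₀} := by
      have h3 : Measurable fun g : E => (g, x) := measurable_id.prodMk measurable_const
      have h4 := h3 (hSm v)
      rw [hS] at h4
      exact h4
    rw [lintegral_indicator hm1, setLIntegral_const, mul_comm]
    gcongr
    exact hm x v
  calc ∫⁻ g, ‖T (iro hν V (b * g)⁻¹ (cst ν ω))‖ₑ ^ 2 ∂μ
      ≤ ∫⁻ g, ((∑' v, ∫⁻ x, φ v (g, x) ∂ν) + ‖T‖ₑ ^ 2 * ν X₀ᶜ) ∂μ := lintegral_mono h1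
    _ = (∫⁻ g, ∑' v, ∫⁻ x, φ v (g, x) ∂ν ∂μ) + ‖T‖ₑ ^ 2 * ν X₀ᶜ * μ univ := by
        rw [lintegral_add_right _ measurable_const, lintegral_const]
    _ = (∑' v, ∫⁻ g, ∫⁻ x, φ v (g, x) ∂ν ∂μ) + ‖T‖ₑ ^ 2 * ν X₀ᶜ * μ univ := by
        rw [lintegral_tsum fun v => ((hφm v).lintegral_prod_right').aemeasurable]
    _ ≤ _ := by
        rw [← ENNReal.tsum_mul_left]
        refine add_le_add (ENNReal.tsum_le_tsum fun v => ?_) le_rfl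
        refine (h2 v).trans_eq ?_
        rw [hζ]

/-- `N` is expanded by the conjugation by `b n`, at the rate `e n`. -/
def Expd {E : Type} [Group E] [TopologicalSpace E] [MeasurableSpace E] (b : ℕ → E) (N : Set E)
    (e : ℕ → ℝ≥0∞) : Prop :=
  ∀ O ∈ 𝓝 (1 : E), ∃ μ : Measure E, IsFiniteMeasure μ ∧ μ ≠ 0 ∧ (∀ᵐ g ∂μ, g ∈ O ∧ g ∈ N) ∧
    ∀ C : Set E, IsCompact C → ∃ c : ℝ≥0∞, c ≠ ∞ ∧
      ∀ n, ∀ g₀ ∈ N, μ {g | b n * g * g₀⁻¹ * (b n)⁻¹ ∈ C} ≤ c * e n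

include hVa in
/-- **[D-CNT], analytic part.** -/
theorem cnt {b : ℕ → E} {N : Set E} {e : ℕ → ℝ≥0∞} (hE : Expd b N e)
    {B : Lp K 2 ν →L[ℂ] Lp K 2 ν} (hB : Dcp B)
    (hBN : ∀ g ∈ N, B * iro hν V g = iro hν V g * B)
    {ω : K} (hω : ‖ω‖ ≤ 1) (M : K →L[ℂ] K) {l : Filter ℕ}
    (hD : ∀ δ : ℝ, 0 < δ → ∃ D : ℕ → (K →L[ℂ] K), (∃ C : ℝ, ∀ n, ‖D n‖ ≤ C) ∧
      (∃ O ∈ 𝓝 (1 : E), ∀ᶠ n in l, ∀ g ∈ O ∩ N,
        ‖(M - D n).compLpL 2 ν (B (iro hν V (b n * g)⁻¹ (cst ν ω)))‖ ≤ δ) ∧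
      Tendsto (fun n => e n * ∑' v : Λ,
        ‖(D n).compLpL 2 ν (B ((V v).compLpL 2 ν (cst ν ω)))‖ₑ ^ 2) l (𝓝 0)) :
    Tendsto (fun n => ‖M.compLpL 2 ν (B (iro hν V (b n)⁻¹ (cst ν ω)))‖) l (𝓝 0) := by
  -- it is enough to have the bound `3 δ`
  suffices key : ∀ δ : ℝ, 0 < δ → ∀ᶠ n in l,
      ‖M.compLpL 2 ν (B (iro hν V (b n)⁻¹ (cst ν ω)))‖ ≤ 3 * δ by
    rw [Metric.tendsto_nhds]
    intro ε hε
    filter_upwards [key (ε / 6) (by positivity)] with n hn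
    rw [Real.dist_eq, sub_zero, abs_of_nonneg (norm_nonneg _)]
    linarith
  intro δ hδ
  obtain ⟨D, ⟨C, hC⟩, ⟨O, hO, hcarry⟩, hlim⟩ := hD δ hδ
  -- the small ball
  obtain ⟨O', hO'def⟩ : ∃ O' : Set E, O' =
    {g | 2 * ‖M‖ * ‖B‖ * Real.sqrt (ν.real {x : E ⧸ Λ | coc Λ g x ≠ 1}) ≤ δ} := ⟨_, rfl⟩
  have hO' : O' ∈ 𝓝 (1 : E) := by
    have h1 := (ENNReal.tendsto_toReal ENNReal.zero_ne_top).comp (coc_cont Λ ν hν)
    have h2 : Tendsto (fun g : E => 2 * ‖M‖ * ‖B‖ *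
        Real.sqrt (ν.real {x : E ⧸ Λ | coc Λ g x ≠ 1})) (𝓝 1) (𝓝 0) := by
      have h3 := ((Real.continuous_sqrt.tendsto 0).comp h1).const_mul (2 * ‖M‖ * ‖B‖)
      rw [Real.sqrt_zero, mul_zero] at h3
      exact h3
    rw [hO'def]
    exact (h2.eventually (gt_mem_nhds hδ)).mono fun g hg => le_of_lt hg
  obtain ⟨μ, hμf, hμ0, hμO, hμC⟩ := hE (O ∩ O') (inter_mem hO hO')
  -- the compact part
  obtain ⟨ε', hε'def⟩ : ∃ ε' : ℝ, ε' = δ ^ 2 / 4 / ((|C| * ‖B‖) ^ 2 + 1) := ⟨_, rfl⟩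
  have hε' : 0 < ε' := by rw [hε'def]; positivity
  obtain ⟨X₀, hX₀c, hX₀m, hX₀⟩ := exists_compact_large Λ ν hε'
  obtain ⟨C₀, hC₀, hsC₀⟩ := sec_bdd Λ X₀ hX₀c
  have hCC : IsCompact ((fun p : E × E => p.1 * p.2⁻¹) '' (C₀ ×ˢ C₀)) :=
    (hC₀.prod hC₀).image (by fun_prop)
  obtain ⟨c, hc, hcm⟩ := hμC _ hCC
  have hM0 : μ univ ≠ 0 := by rwa [Ne, Measure.measure_univ_eq_zero]
  have hMt : μ univ ≠ ∞ := measure_ne_top μ univ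
  obtain ⟨q, hq⟩ : ∃ q : ℝ≥0∞, q = ENNReal.ofReal (δ ^ 2 / 4) := ⟨_, rfl⟩
  have hq0 : q ≠ 0 := by
    rw [hq]
    exact (ENNReal.ofReal_pos.2 (by positivity)).ne'
  have hlim2 : Tendsto (fun n => c * (e n * ∑' v : Λ,
      ‖(D n).compLpL 2 ν (B ((V v).compLpL 2 ν (cst ν ω)))‖ₑ ^ 2)) l (𝓝 0) := by
    have h1 := ENNReal.Tendsto.const_mul (a := c) hlim (Or.inr hc)
    rwa [mul_zero] at h1
  have hsmall := (ENNReal.tendsto_nhds_zero.1 hlim2) (q * μ univ)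
    (pos_iff_ne_zero.2 (mul_ne_zero hq0 hM0))
  filter_upwards [hcarry, hsmall] with n hn1 hn2
  by_contra hcon
  rw [not_le] at hcon
  obtain ⟨T, hT⟩ : ∃ T, T = (D n).compLpL 2 ν * B := ⟨_, rfl⟩
  have hTd : Dcp T := by rw [hT]; exact (Dcp.comp _).mul hB
  have hTe : ∀ ξ, (D n).compLpL 2 ν (B ξ) = T ξ := fun ξ => by rw [hT]; rfl
  have hTn : ‖T‖ ≤ |C| * ‖B‖ := by
    rw [hT]
    refine (ContinuousLinearMap.opNorm_comp_le _ _).trans ?_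
    gcongr
    exact ((norm_compLpL_le (D n)).trans (hC n)).trans (le_abs_self C)
  have hmain := main_ineq hν hVa (μ := μ) hTd hω (b n) hX₀m (m := c * e n)
    (mult_le (hμO.mono fun g hg => hg.2) hsC₀ (fun g₀ hg₀ => hcm n g₀ hg₀))
  -- the lower bound
  have hlow : ∀ᵐ g ∂μ, ENNReal.ofReal (δ ^ 2) ≤
      ‖T (iro hν V (b n * g)⁻¹ (cst ν ω))‖ₑ ^ 2 := by
    filter_upwards [hμO] with g hg
    obtain ⟨⟨hgO, hgO'⟩, hgN⟩ := hg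
    obtain ⟨ζ, hζ⟩ : ∃ ζ, ζ = B (iro hν V (b n)⁻¹ (cst ν ω)) := ⟨_, rfl⟩
    have hζb : ∀ᵐ x ∂ν, ‖ζ x‖ ≤ ‖B‖ := by
      rw [hζ]
      filter_upwards [hB.norm_ae (iro hν V (b n)⁻¹ (cst ν ω)),
        iro_inv_ae hν hVa (b n) (cst ν ω),
        ae_comp (mpres hν (b n)) (cst_ae (ν := ν) ω)] with x a1 a2 a3
      have e1 : ‖V (coc Λ (b n) x)⁻¹ ω‖ₑ ≤ 1 := by
        rw [← ofReal_norm, Vale.Agent.P092.H885.u_norm hVa, ← ENNReal.ofReal_one]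
        exact ENNReal.ofReal_le_ofReal hω
      rw [a2, a3] at a1
      have a1' : ‖(B (iro hν V (b n)⁻¹ (cst ν ω))) x‖ₑ ^ 2 ≤ ‖B‖ₑ ^ 2 := a1.trans (by
        calc ‖B‖ₑ ^ 2 * ‖V (coc Λ (b n) x)⁻¹ ω‖ₑ ^ 2 ≤ ‖B‖ₑ ^ 2 * 1 ^ 2 := by gcongr
          _ = ‖B‖ₑ ^ 2 := by rw [one_pow, mul_one])
      have a4 := (ENNReal.toReal_le_toReal (by simp) (by simp)).2 a1'
      rw [ENNReal.toReal_pow, ENNReal.toReal_pow, toReal_enorm, toReal_enorm] at a4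
      exact (pow_le_pow_iff_left₀ (norm_nonneg _) (norm_nonneg _) two_ne_zero).1 a4
    have e1 : B (iro hν V (b n * g)⁻¹ (cst ν ω)) = iro hν V g⁻¹ ζ := by
      rw [mul_inv_rev, iro_mul_ap hν hVa, hζ]
      exact congrArg (fun X : Lp K 2 ν →L[ℂ] Lp K 2 ν => X (iro hν V (b n)⁻¹ (cst ν ω)))
        (iro_comm_inv hν hVa (hBN g hgN))
    have h1 := const_comm hν hVa M g (norm_nonneg B) hζb
    have h2 := hn1 g ⟨hgO, hgN⟩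
    have h3 : 2 * ‖M‖ * ‖B‖ * Real.sqrt (ν.real {x : E ⧸ Λ | coc Λ g x ≠ 1}) ≤ δ := by
      have := hgO'
      rw [hO'def] at this
      exact this
    have h4 : ‖iro hν V g⁻¹ (M.compLpL 2 ν ζ)‖ = ‖M.compLpL 2 ν ζ‖ := iro_norm hν hVa _ _
    rw [e1, H790.comp_sub] at h2
    rw [← hTe, e1]
    rw [← hζ] at hcon
    have h5 : δ ≤ ‖(D n).compLpL 2 ν (iro hν V g⁻¹ ζ)‖ := by
      have h6 : ‖iro hν V g⁻¹ (M.compLpL 2 ν ζ)‖ ≤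
          ‖M.compLpL 2 ν (iro hν V g⁻¹ ζ) - iro hν V g⁻¹ (M.compLpL 2 ν ζ)‖ +
          ‖M.compLpL 2 ν (iro hν V g⁻¹ ζ) - (D n).compLpL 2 ν (iro hν V g⁻¹ ζ)‖ +
          ‖(D n).compLpL 2 ν (iro hν V g⁻¹ ζ)‖ := by
        have e2 : iro hν V g⁻¹ (M.compLpL 2 ν ζ) =
            -(M.compLpL 2 ν (iro hν V g⁻¹ ζ) - iro hν V g⁻¹ (M.compLpL 2 ν ζ)) +
            (M.compLpL 2 ν (iro hν V g⁻¹ ζ) - (D n).compLpL 2 ν (iro hν V g⁻¹ ζ)) +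
            (D n).compLpL 2 ν (iro hν V g⁻¹ ζ) := by abel
        conv_lhs => rw [e2]
        refine (norm_add_le _ _).trans ?_
        gcongr
        refine (norm_add_le _ _).trans ?_
        rw [norm_neg]
      have h7 : ‖M.compLpL 2 ν (iro hν V g⁻¹ ζ) - (D n).compLpL 2 ν (iro hν V g⁻¹ ζ)‖ ≤ δ := h2
      linarith
    rw [← ofReal_norm, ← ENNReal.ofReal_pow (norm_nonneg _)]
    exact ENNReal.ofReal_le_ofReal (pow_le_pow_left₀ hδ.le h5 2)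
  have hlow2 : ENNReal.ofReal (δ ^ 2) * μ univ ≤
      ∫⁻ g, ‖T (iro hν V (b n * g)⁻¹ (cst ν ω))‖ₑ ^ 2 ∂μ := by
    rw [← lintegral_const]
    exact lintegral_mono_ae hlow
  have hT2 : ‖T‖ₑ ^ 2 * ν X₀ᶜ ≤ q := by
    rw [hq, ← ofReal_norm, ← ENNReal.ofReal_pow (norm_nonneg _), ← ofReal_measureReal,
      ← ENNReal.ofReal_mul (by positivity)]
    refine ENNReal.ofReal_le_ofReal ?_
    calc ‖T‖ ^ 2 * ν.real X₀ᶜ ≤ (|C| * ‖B‖) ^ 2 * ε' := by gcongr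
      _ ≤ ((|C| * ‖B‖) ^ 2 + 1) * ε' := by
          have := hε'.le
          nlinarith
      _ = δ ^ 2 / 4 := by
          rw [hε'def]
          field_simp
  have hup : ∫⁻ g, ‖T (iro hν V (b n * g)⁻¹ (cst ν ω))‖ₑ ^ 2 ∂μ ≤ (q + q) * μ univ := by
    refine hmain.trans ?_
    rw [add_mul]
    refine add_le_add ?_ ?_
    · simp_rw [← hTe]
      rw [mul_assoc]
      exact hn2
    · gcongr
  have hfin := hlow2.trans hup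
  have h8 : ENNReal.ofReal (δ ^ 2) ≤ q + q :=
    (ENNReal.mul_le_mul_iff_left hM0 hMt).1 hfin
  rw [hq, ← ENNReal.ofReal_add (by positivity) (by positivity)] at h8
  have h9 := (ENNReal.ofReal_le_ofReal_iff (by positivity)).1 h8
  nlinarith [sq_nonneg δ, mul_pos hδ hδ]

include hVa in
/-- bounded pointwise -/
theorem orbit_bdd {B : Lp K 2 ν →L[ℂ] Lp K 2 ν} (hB : Dcp B) {ω : K} (hω : ‖ω‖ ≤ 1) (b : E) :
    ∀ᵐ x ∂ν, ‖(B (iro hν V b⁻¹ (cst ν ω))) x‖ ≤ ‖B‖ := by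
  filter_upwards [hB.norm_ae (iro hν V b⁻¹ (cst ν ω)), iro_inv_ae hν hVa b (cst ν ω),
    ae_comp (mpres hν b) (cst_ae (ν := ν) ω)] with x a1 a2 a3
  have e1 : ‖V (coc Λ b x)⁻¹ ω‖ₑ ≤ 1 := by
    rw [← ofReal_norm, Vale.Agent.P092.H885.u_norm hVa, ← ENNReal.ofReal_one]
    exact ENNReal.ofReal_le_ofReal hω
  rw [a2, a3] at a1
  have a1' : ‖(B (iro hν V b⁻¹ (cst ν ω))) x‖ₑ ^ 2 ≤ ‖B‖ₑ ^ 2 := a1.trans (by
    calc ‖B‖ₑ ^ 2 * ‖V (coc Λ b x)⁻¹ ω‖ₑ ^ 2 ≤ ‖B‖ₑ ^ 2 * 1 ^ 2 := by gcongr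
      _ = ‖B‖ₑ ^ 2 := by rw [one_pow, mul_one])
  have a4 := (ENNReal.toReal_le_toReal (by simp) (by simp)).2 a1'
  rw [ENNReal.toReal_pow, ENNReal.toReal_pow, toReal_enorm, toReal_enorm] at a4
  exact (pow_le_pow_iff_left₀ (norm_nonneg _) (norm_nonneg _) two_ne_zero).1 a4

include hVa in
/-- **[D-CNT], analytic part**, with the tails at `g = 1` only. -/
theorem cnt' {b : ℕ → E} {N : Set E} {e : ℕ → ℝ≥0∞} (hE : Expd b N e)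
    {B : Lp K 2 ν →L[ℂ] Lp K 2 ν} (hB : Dcp B)
    (hBN : ∀ g ∈ N, B * iro hν V g = iro hν V g * B)
    {ω : K} (hω : ‖ω‖ ≤ 1) (M : K →L[ℂ] K) {l : Filter ℕ}
    (hD : ∀ δ : ℝ, 0 < δ → ∃ D : ℕ → (K →L[ℂ] K), (∃ C : ℝ, ∀ n, ‖D n‖ ≤ C) ∧
      (∀ᶠ n in l, ‖(M - D n).compLpL 2 ν (B (iro hν V (b n)⁻¹ (cst ν ω)))‖ ≤ δ) ∧
      Tendsto (fun n => e n * ∑' v : Λ,
        ‖(D n).compLpL 2 ν (B ((V v).compLpL 2 ν (cst ν ω)))‖ₑ ^ 2) l (𝓝 0)) :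
    Tendsto (fun n => ‖M.compLpL 2 ν (B (iro hν V (b n)⁻¹ (cst ν ω)))‖) l (𝓝 0) := by
  refine cnt hν hVa hE hB hBN hω M fun δ hδ => ?_
  obtain ⟨D, ⟨C, hC⟩, hcarry, hlim⟩ := hD (δ / 2) (by positivity)
  refine ⟨D, ⟨C, hC⟩, ?_, hlim⟩
  obtain ⟨O, hOdef⟩ : ∃ O : Set E, O = {g | 2 * (‖M‖ + |C|) * ‖B‖ *
    Real.sqrt (ν.real {x : E ⧸ Λ | coc Λ g x ≠ 1}) ≤ δ / 2} := ⟨_, rfl⟩
  have hO : O ∈ 𝓝 (1 : E) := by
    have h1 := (ENNReal.tendsto_toReal ENNReal.zero_ne_top).comp (coc_cont Λ ν hν)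
    have h2 : Tendsto (fun g : E => 2 * (‖M‖ + |C|) * ‖B‖ *
        Real.sqrt (ν.real {x : E ⧸ Λ | coc Λ g x ≠ 1})) (𝓝 1) (𝓝 0) := by
      have h3 := ((Real.continuous_sqrt.tendsto 0).comp h1).const_mul (2 * (‖M‖ + |C|) * ‖B‖)
      rw [Real.sqrt_zero, mul_zero] at h3
      exact h3
    rw [hOdef]
    exact (h2.eventually (gt_mem_nhds (half_pos hδ))).mono fun g hg => le_of_lt hg
  refine ⟨O, hO, ?_⟩
  filter_upwards [hcarry] with n hn g hg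
  obtain ⟨ζ, hζ⟩ : ∃ ζ, ζ = B (iro hν V (b n)⁻¹ (cst ν ω)) := ⟨_, rfl⟩
  have hζb : ∀ᵐ x ∂ν, ‖ζ x‖ ≤ ‖B‖ := by rw [hζ]; exact orbit_bdd hν hVa hB hω (b n)
  have e1 : B (iro hν V (b n * g)⁻¹ (cst ν ω)) = iro hν V g⁻¹ ζ := by
    rw [mul_inv_rev, iro_mul_ap hν hVa, hζ]
    exact congrArg (fun X : Lp K 2 ν →L[ℂ] Lp K 2 ν => X (iro hν V (b n)⁻¹ (cst ν ω)))
      (iro_comm_inv hν hVa (hBN g hg.2))
  rw [← hζ] at hn
  rw [e1]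
  have h1 := const_comm hν hVa (M - D n) g (norm_nonneg B) hζb
  have h3 : 2 * (‖M‖ + |C|) * ‖B‖ * Real.sqrt (ν.real {x : E ⧸ Λ | coc Λ g x ≠ 1}) ≤ δ / 2 := by
    have := hg.1
    rw [hOdef] at this
    exact this
  have h4 : ‖iro hν V g⁻¹ ((M - D n).compLpL 2 ν ζ)‖ = ‖(M - D n).compLpL 2 ν ζ‖ :=
    iro_norm hν hVa _ _
  have h5 : ‖M - D n‖ ≤ ‖M‖ + |C| :=
    (norm_sub_le _ _).trans (add_le_add le_rfl ((hC n).trans (le_abs_self C)))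
  have h6 : 2 * ‖M - D n‖ * ‖B‖ * Real.sqrt (ν.real {x : E ⧸ Λ | coc Λ g x ≠ 1}) ≤
      2 * (‖M‖ + |C|) * ‖B‖ * Real.sqrt (ν.real {x : E ⧸ Λ | coc Λ g x ≠ 1}) := by
    gcongr
  calc ‖(M - D n).compLpL 2 ν (iro hν V g⁻¹ ζ)‖
      = ‖((M - D n).compLpL 2 ν (iro hν V g⁻¹ ζ) - iro hν V g⁻¹ ((M - D n).compLpL 2 ν ζ)) +
          iro hν V g⁻¹ ((M - D n).compLpL 2 ν ζ)‖ := by rw [sub_add_cancel]
    _ ≤ _ := norm_add_le _ _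
    _ ≤ δ := by
        rw [h4]
        linarith

end main

end Vale.Agent.P092.H103
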