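import Mathlib

/-!
The unitary representation attached to a family of vectors with invariant inner products.
-/

set_option linter.all false

open scoped InnerProductSpace
open Filter Topology ContinuousLinearMap

namespace Vale.Agent.P092.H103

section gns

variable {Γ H : Type} [Group Γ] [NormedAddCommGroup H] [InnerProductSpace ℂ H] [CompleteSpace H]

/-- the closed span -/
noncomputable def Mx (ξ : Γ → H) : Submodule ℂ H :=
  (LinearMap.range (Finsupp.linearCombination ℂ ξ)).topologicalClosure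

instance (ξ : Γ → H) : CompleteSpace (Mx ξ) :=
  (Submodule.isClosed_topologicalClosure _).completeSpace_coe

theorem zt_mem (ξ : Γ → H) (g : Γ) : ξ g ∈ Mx ξ :=
  Submodule.le_topologicalClosure _ ⟨Finsupp.single g 1, by simp⟩

/-- the vectors of the family, in the closed span -/
def zt (ξ : Γ → H) (g : Γ) : Mx ξ := ⟨ξ g, zt_mem ξ g⟩

/-- the translated linear combinations -/
noncomputable def ez (ξ : Γ → H) (k : Γ) : (Γ →₀ ℂ) →ₗ[ℂ] Mx ξ :=
  Finsupp.linearCombination ℂ (fun g => zt ξ (k * g))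

theorem ez_single (ξ : Γ → H) (k g : Γ) : ez ξ k (Finsupp.single g 1) = zt ξ (k * g) := by
  rw [ez, Finsupp.linearCombination_single, one_smul]

theorem ez_dense (ξ : Γ → H) : DenseRange (ez ξ 1) := by
  rw [Metric.denseRange_iff]
  rintro ⟨x, hx⟩ r hr
  have h1 : x ∈ closure ((LinearMap.range (Finsupp.linearCombination ℂ ξ) : Submodule ℂ H) :
      Set H) := hx
  rw [Metric.mem_closure_iff] at h1
  obtain ⟨_, ⟨a, rfl⟩, ha⟩ := h1 r hr
  refine ⟨a, ?_⟩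
  have h2 : ((ez ξ 1 a : Mx ξ) : H) = Finsupp.linearCombination ℂ ξ a := by
    have h3 : (Mx ξ).subtype ∘ₗ ez ξ 1 = Finsupp.linearCombination ℂ ξ := by
      apply Finsupp.lhom_ext'
      intro g
      apply LinearMap.ext_ring
      rw [LinearMap.comp_apply, LinearMap.comp_apply, LinearMap.comp_apply]
      change (Mx ξ).subtype (ez ξ 1 (Finsupp.single g 1)) = _
      rw [ez_single, one_mul]
      change ξ g = Finsupp.linearCombination ℂ ξ (Finsupp.single g 1)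
      rw [Finsupp.linearCombination_single, one_smul]
    exact congrArg (fun L : (Γ →₀ ℂ) →ₗ[ℂ] H => L a) h3
  rw [Subtype.dist_eq, h2]
  exact ha

/-- maps which agree on the family are equal -/
theorem gns_ext {ξ : Γ → H} {E : Type} [NormedAddCommGroup E] [NormedSpace ℂ E]
    {A B : Mx ξ →L[ℂ] E} (h : ∀ g, A (zt ξ g) = B (zt ξ g)) : A = B := by
  have h1 : A.toLinearMap ∘ₗ ez ξ 1 = B.toLinearMap ∘ₗ ez ξ 1 := by
    apply Finsupp.lhom_ext'
    intro g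
    apply LinearMap.ext_ring
    change A (ez ξ 1 (Finsupp.single g 1)) = B (ez ξ 1 (Finsupp.single g 1))
    rw [ez_single, h]
  have h2 : (A : Mx ξ → E) = B := by
    refine (ez_dense ξ).equalizer A.continuous B.continuous ?_
    funext a
    exact congrArg (fun L : (Γ →₀ ℂ) →ₗ[ℂ] E => L a) h1
  ext1 v
  exact congrFun h2 v

/-- invariance of the inner products -/
def InvF (ξ : Γ → H) : Prop := ∀ k g h, ⟪ξ (k * g), ξ (k * h)⟫_ℂ = ⟪ξ g, ξ h⟫_ℂ

theorem ez_inner {ξ : Γ → H} (hξ : InvF ξ) (k : Γ) (a b : Γ →₀ ℂ) :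
    ⟪ez ξ k a, ez ξ k b⟫_ℂ = ⟪ez ξ 1 a, ez ξ 1 b⟫_ℂ := by
  have h0 : ∀ g h, ⟪zt ξ (k * g), zt ξ (k * h)⟫_ℂ = ⟪zt ξ (1 * g), zt ξ (1 * h)⟫_ℂ := by
    intro g h
    change ⟪ξ (k * g), ξ (k * h)⟫_ℂ = ⟪ξ (1 * g), ξ (1 * h)⟫_ℂ
    rw [hξ, one_mul, one_mul]
  simp only [ez, Finsupp.linearCombination_apply, Finsupp.sum, sum_inner, inner_sum,
    inner_smul_left, inner_smul_right, h0]

theorem ez_norm {ξ : Γ → H} (hξ : InvF ξ) (k : Γ) (a : Γ →₀ ℂ) : ‖ez ξ k a‖ = ‖ez ξ 1 a‖ := by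
  have h := ez_inner hξ k a a
  rw [inner_self_eq_norm_sq_to_K, inner_self_eq_norm_sq_to_K] at h
  have h2 : ‖ez ξ k a‖ ^ 2 = ‖ez ξ 1 a‖ ^ 2 := by exact_mod_cast h
  exact (pow_left_inj₀ (norm_nonneg _) (norm_nonneg _) two_ne_zero).mp h2

/-- the operator of `k` -/
noncomputable def Uz (ξ : Γ → H) (k : Γ) : Mx ξ →L[ℂ] Mx ξ := (ez ξ k).extendOfNorm (ez ξ 1)

theorem Uz_ez {ξ : Γ → H} (hξ : InvF ξ) (k : Γ) (a : Γ →₀ ℂ) :
    Uz ξ k (ez ξ 1 a) = ez ξ k a :=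
  LinearMap.extendOfNorm_eq (ez_dense ξ) ⟨1, fun x => by rw [one_mul, ez_norm hξ]⟩ a

theorem Uz_zt {ξ : Γ → H} (hξ : InvF ξ) (k g : Γ) : Uz ξ k (zt ξ g) = zt ξ (k * g) := by
  have h := Uz_ez hξ k (Finsupp.single g 1)
  rwa [ez_single, ez_single, one_mul] at h

/-- The unitary representation of an invariant family. -/
noncomputable def gpi {ξ : Γ → H} (hξ : InvF ξ) : Γ →* (Mx ξ →L[ℂ] Mx ξ) where
  toFun := Uz ξ
  map_one' := gns_ext fun g => by rw [Uz_zt hξ, one_mul, one_apply_eq_self]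
  map_mul' k l := gns_ext fun g => by
    change Uz ξ (k * l) (zt ξ g) = Uz ξ k (Uz ξ l (zt ξ g))
    rw [Uz_zt hξ, Uz_zt hξ, Uz_zt hξ, mul_assoc]

theorem gpi_zt {ξ : Γ → H} (hξ : InvF ξ) (k g : Γ) : gpi hξ k (zt ξ g) = zt ξ (k * g) :=
  Uz_zt hξ k g

theorem gpi_adj {ξ : Γ → H} (hξ : InvF ξ) (k : Γ) : adjoint (gpi hξ k) = gpi hξ k⁻¹ := by
  refine gns_ext fun g => ?_
  refine ext_inner_right ℂ fun v => ?_
  have h : innerSL ℂ (adjoint (gpi hξ k) (zt ξ g)) = innerSL ℂ (gpi hξ k⁻¹ (zt ξ g)) := by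
    refine gns_ext fun h => ?_
    rw [innerSL_apply_apply, innerSL_apply_apply, adjoint_inner_left, gpi_zt, gpi_zt]
    change ⟪ξ _, ξ _⟫_ℂ = ⟪ξ _, ξ _⟫_ℂ
    rw [← hξ k (k⁻¹ * g) h, mul_inv_cancel_left]
  exact congrArg (fun L : Mx ξ →L[ℂ] ℂ => L v) h

theorem mx_closed (ξ : Γ → H) : IsClosed ((Mx ξ : Submodule ℂ H) : Set H) :=
  Submodule.isClosed_topologicalClosure _

end gns

end Vale.Agent.P092.H103
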