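import Vale.Agent.P092.H103.Gam3
import Vale.Agent.P092.H103.Gns

/-!
The cubic intertwiners of an amplified frame.
-/

set_option linter.all false

open scoped InnerProductSpace
open Filter Topology ContinuousLinearMap
open Vale.Agent.P092.H160

namespace Vale.Agent.P092.H103

section sym

variable {X : Type}

/-- Symmetry of the 4-linear form of `T`. -/
structure Sy (T : Ell2 X →L[ℂ] Ell2 (X × (X × X))) : Prop where
  bd : ∀ a b c d, T (dl a) (b, (c, d)) = T (dl a) (d, (c, b))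
  ac : ∀ a b c d, T (dl a) (b, (c, d)) = T (dl c) (b, (a, d))
  hc : ∀ a b c d, (starRingEnd ℂ) (T (dl a) (b, (c, d))) = T (dl b) (a, (d, c))

end sym

section t0

theorem orth_diag' {I Λ : Type} : Orthonormal ℂ (fun y : I × Λ => (dl (y, (y, y)) : Ell2 (Y3 I Λ))) := by
  refine ⟨fun s => norm_dl _, fun s t hne => ?_⟩
  change ⟪(dl (s, (s, s)) : Ell2 (Y3 I Λ)), dl (t, (t, t))⟫_ℂ = 0
  rw [inner_dl, dl_ne]
  intro h
  exact hne (congrArg Prod.fst h)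

/-- The isometry `δ_y ↦ δ_(y,y,y)`. -/
noncomputable def T0' (I Λ : Type) : Ell2 (I × Λ) →L[ℂ] Ell2 (Y3 I Λ) :=
  opOf (bes_of_orthonormal orth_diag')

end t0

section cub

variable {Γ Λ I : Type} [Group Γ] [Group Λ] [Fintype I]

theorem T0'_dl (y : I × Λ) : T0' I Λ (dl y) = dl (y, (y, y)) := opOf_dl _ y

theorem T0'_adj_apply (w : Ell2 (Y3 I Λ)) (y : I × Λ) :
    adjoint (T0' I Λ) w y = w (y, (y, y)) := by
  rw [← inner_dl, adjoint_inner_right, T0'_dl, inner_dl]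

theorem norm_T0' (v : Ell2 (I × Λ)) : ‖T0' I Λ v‖ = ‖v‖ :=
  norm_of_adj_comp (opOf_isometry orth_diag') v

theorem f3_act (s : Λ) (x y z : I × Λ) : (f3 I Λ).act (s, (s, s)) (x, (y, z)) =
    ((FS.mat I Λ).act s x, ((FS.mat I Λ).act s y, (FS.mat I Λ).act s z)) := rfl

theorem T0'_R (s : Λ) (v : Ell2 (I × Λ)) :
    T0' I Λ ((FS.mat I Λ).R s v) = (f3 I Λ).R (s, (s, s)) (T0' I Λ v) := by
  have h : T0' I Λ ∘L (FS.mat I Λ).R s = (f3 I Λ).R (s, (s, s)) ∘L T0' I Λ := by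
    apply op_ext
    intro x
    rw [comp_apply, comp_apply, FS.R_dl, T0'_dl, T0'_dl, FS.R_dl, f3_act]
  exact congrArg (fun L : Ell2 (I × Λ) →L[ℂ] Ell2 (Y3 I Λ) => L v) h

section tgt

variable {K Z J : Type} [Group K] {f : FS K Z J} {A : Γ → (Ell2 Z →L[ℂ] Ell2 Z)}

theorem Tgt.inner_map (hA : Tgt f A) (g : Γ) (u v : Ell2 Z) : ⟪A g u, A g v⟫_ℂ = ⟪u, A 1 v⟫_ℂ := by
  rw [← adjoint_inner_right, hA.adj]
  congr 1
  have h : A g⁻¹ * A g = A 1 := by rw [← hA.mul, inv_mul_cancel]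
  exact congrArg (fun L : Ell2 Z →L[ℂ] Ell2 Z => L v) h

theorem Tgt.norm_le (hA : Tgt f A) (g : Γ) (v : Ell2 Z) : ‖A g v‖ ≤ ‖v‖ := by
  have h1 : ∀ g, ‖A g v‖ ^ 2 ≤ ‖v‖ * ‖A 1 v‖ := by
    intro g
    have h2 := hA.inner_map g v v
    rw [re_inner_self] at h2
    have h3 := norm_inner_le_norm (𝕜 := ℂ) v (A 1 v)
    rw [← h2, Complex.norm_real, Real.norm_of_nonneg (by positivity)] at h3
    exact h3
  have h4 : ‖A 1 v‖ ≤ ‖v‖ := by
    by_cases h0 : ‖A 1 v‖ = 0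
    · rw [h0]; exact norm_nonneg _
    · have h5 : 0 < ‖A 1 v‖ := lt_of_le_of_ne (norm_nonneg _) (Ne.symm h0)
      have h6 := h1 1
      rw [pow_two] at h6
      exact le_of_mul_le_mul_right h6 h5
  have h7 : ‖A g v‖ ^ 2 ≤ ‖v‖ ^ 2 := by
    refine (h1 g).trans ?_
    rw [pow_two]
    gcongr
  exact (pow_le_pow_iff_left₀ (norm_nonneg _) (norm_nonneg _) two_ne_zero).mp h7

theorem Tgt.mul_apply (hA : Tgt f A) (g h : Γ) (v : Ell2 Z) : A (g * h) v = A g (A h v) :=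
  congrArg (fun L : Ell2 Z →L[ℂ] Ell2 Z => L v) (hA.mul g h)

end tgt

variable {α : Γ → (Ell2 (I × Λ) →L[ℂ] Ell2 (I × Λ))}

theorem AF.tgt (hα : AF α) : Tgt (FS.mat I Λ) α := ⟨hα.mul, hα.adj, hα.comm⟩

/-- Equivariant operators into the cube, supported by the projections. -/
structure Hm (α : Γ → (Ell2 (I × Λ) →L[ℂ] Ell2 (I × Λ)))
    (T : Ell2 (I × Λ) →L[ℂ] Ell2 (Y3 I Λ)) : Prop where
  r : ∀ s v, T ((FS.mat I Λ).R s v) = (f3 I Λ).R (s, (s, s)) (T v)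
  p : ∀ v, T (α 1 v) = T v
  q : ∀ v, A3' α 1 (T v) = T v

/-- Symmetric contractions among them. -/
structure Gd (α : Γ → (Ell2 (I × Λ) →L[ℂ] Ell2 (I × Λ)))
    (T : Ell2 (I × Λ) →L[ℂ] Ell2 (Y3 I Λ)) : Prop where
  hm : Hm α T
  norm_le : ‖T‖ ≤ 1
  sy : Sy T

variable (α) in
/-- `T_g`. -/
noncomputable def Tg' (g : Γ) : Ell2 (I × Λ) →L[ℂ] Ell2 (Y3 I Λ) :=
  A3' α g ∘L T0' I Λ ∘L α g⁻¹

variable (α) in
/-- conjugation -/
noncomputable def cnj (h : Γ) (T : Ell2 (I × Λ) →L[ℂ] Ell2 (Y3 I Λ)) :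
    Ell2 (I × Λ) →L[ℂ] Ell2 (Y3 I Λ) := A3' α h ∘L T ∘L α h⁻¹

theorem cnj_apply (h : Γ) (T : Ell2 (I × Λ) →L[ℂ] Ell2 (Y3 I Λ)) (v : Ell2 (I × Λ)) :
    cnj α h T v = A3' α h (T (α h⁻¹ v)) := rfl

theorem Tg'_apply (g : Γ) (v : Ell2 (I × Λ)) :
    Tg' α g v = A3' α g (T0' I Λ (α g⁻¹ v)) := rfl

theorem norm_Tg'_le (hα : AF α) (g : Γ) : ‖Tg' α g‖ ≤ 1 := by
  refine opNorm_le_bound _ zero_le_one fun v => ?_
  rw [one_mul, Tg'_apply]
  refine ((A3'_tgt hα).norm_le g _).trans ?_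
  rw [norm_T0']
  exact hα.tgt.norm_le _ _

theorem hm_Tg' (hα : AF α) (g : Γ) : Hm α (Tg' α g) where
  r s v := by
    rw [Tg'_apply, Tg'_apply, hα.comm, T0'_R]
    exact (A3'_tgt hα).comm g _ _
  p v := by rw [Tg'_apply, Tg'_apply, hα.mul_p_apply]
  q v := by rw [Tg'_apply, ← (A3'_tgt hα).mul_apply, one_mul]

theorem hm_cnj (hα : AF α) (h : Γ) {T : Ell2 (I × Λ) →L[ℂ] Ell2 (Y3 I Λ)} (hT : Hm α T) :
    Hm α (cnj α h T) where
  r s v := by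
    rw [cnj_apply, cnj_apply, hα.comm, hT.r]
    exact (A3'_tgt hα).comm h _ _
  p v := by rw [cnj_apply, cnj_apply, hα.mul_p_apply]
  q v := by rw [cnj_apply, ← (A3'_tgt hα).mul_apply, one_mul]

theorem cnj_Tg' (hα : AF α) (g h : Γ) : cnj α h (Tg' α g) = Tg' α (h * g) := by
  ext1 v
  rw [cnj_apply, Tg'_apply, Tg'_apply, ← (A3'_tgt hα).mul_apply, ← hα.mul_apply, mul_inv_rev]

theorem A3'_dl (g : Γ) (b c d : I × Λ) : A3' α g (dl (b, (c, d))) =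
    tv (α g (dl b)) (tv (cj (α g (dl c))) (α g (dl d))) := by
  unfold A3' Ax
  rw [tens_dl, tens_dl, bar_dl]

theorem Tg'_coord (hα : AF α) (g : Γ) (a b c d : I × Λ) : Tg' α g (dl a) (b, (c, d)) =
    ∑' s, (α g⁻¹ (dl a)) s * (starRingEnd ℂ) ((α g⁻¹ (dl b)) s) * (α g⁻¹ (dl c)) s *
      (starRingEnd ℂ) ((α g⁻¹ (dl d)) s) := by
  rw [← inner_dl, Tg'_apply, ← adjoint_inner_left, (A3'_tgt hα).adj, ← adjoint_inner_left,
    inner_eq]
  congr 1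
  funext s
  rw [T0'_adj_apply, A3'_dl, tv_apply, tv_apply, cj_apply, map_mul,
    map_mul, Complex.conj_conj]
  ring

/-- `∑_i ∑_s |(α(g) δ_(i,1))(s)|^4`. -/
noncomputable def q4 (α : Γ → (Ell2 (I × Λ) →L[ℂ] Ell2 (I × Λ))) (g : Γ) : ℝ :=
  ∑ i : I, ∑' s, ‖(α g (dl (i, 1))) s‖ ^ 4

theorem sy_Tg' (hα : AF α) (g : Γ) : Sy (Tg' α g) := by
  refine ⟨fun a b c d => ?_, fun a b c d => ?_, fun a b c d => ?_⟩
  · rw [Tg'_coord hα, Tg'_coord hα]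
    congr 1; funext s; ring
  · rw [Tg'_coord hα, Tg'_coord hα]
    congr 1; funext s; ring
  · rw [Tg'_coord hα, Tg'_coord hα, Complex.conj_tsum]
    congr 1; funext s
    simp only [map_mul, Complex.conj_conj]
    ring

theorem gd_Tg' (hα : AF α) (g : Γ) : Gd α (Tg' α g) := ⟨hm_Tg' hα g, norm_Tg'_le hα g, sy_Tg' hα g⟩

theorem lc_apply' (T S : Ell2 (I × Λ) →L[ℂ] Ell2 (Y3 I Λ)) (x y : ℂ) (v : Ell2 (I × Λ))
    (p : Y3 I Λ) : (x • T + y • S) v p = x * T v p + y * S v p := rfl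

theorem lc_ap (T S : Ell2 (I × Λ) →L[ℂ] Ell2 (Y3 I Λ)) (x y : ℂ) (v : Ell2 (I × Λ)) :
    (x • T + y • S) v = x • T v + y • S v := rfl

theorem cvx_gd : Cvx {T : Ell2 (I × Λ) →L[ℂ] Ell2 (Y3 I Λ) | Gd α T} := by
  intro T hT S hS x y hx hy hxy
  refine ⟨⟨fun s v => ?_, fun v => ?_, fun v => ?_⟩, ?_,
    ⟨fun a b c d => ?_, fun a b c d => ?_, fun a b c d => ?_⟩⟩
  · rw [lc_ap, lc_ap, hT.hm.r, hS.hm.r, map_add, map_smul, map_smul]
  · rw [lc_ap, lc_ap, hT.hm.p, hS.hm.p]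
  · rw [lc_ap, map_add, map_smul, map_smul, hT.hm.q, hS.hm.q]
  · calc ‖(x : ℂ) • T + (y : ℂ) • S‖ ≤ ‖(x : ℂ) • T‖ + ‖(y : ℂ) • S‖ := norm_add_le _ _
      _ = x * ‖T‖ + y * ‖S‖ := by
          rw [norm_smul, norm_smul, Complex.norm_real, Complex.norm_real, Real.norm_of_nonneg hx,
            Real.norm_of_nonneg hy]
      _ ≤ x * 1 + y * 1 := by gcongr; exacts [hT.norm_le, hS.norm_le]
      _ = 1 := by linarith
  · rw [lc_apply', lc_apply', hT.sy.bd, hS.sy.bd]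
  · rw [lc_apply', lc_apply', hT.sy.ac, hS.sy.ac]
  · rw [lc_apply', lc_apply', map_add, map_mul, map_mul, hT.sy.hc, hS.sy.hc, Complex.conj_ofReal,
      Complex.conj_ofReal]

theorem sl_vecs (T : Ell2 (I × Λ) →L[ℂ] Ell2 (Y3 I Λ)) (i : I) :
    sl (vecs (FS.mat I Λ) T) i = T (dl (i, 1)) := by
  classical
  apply ext_inner_dl
  intro x
  rw [sl_apply, vecs, lp.coeFn_sum, Finset.sum_apply, Finset.sum_eq_single i]
  · rw [tv_apply]
    change (dl i : Ell2 I) i * T (dl (i, 1)) x = _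
    rw [dl_self, one_mul]
  · intro j _ hj
    rw [tv_apply]
    change (dl j : Ell2 I) i * _ = 0
    rw [dl_ne hj.symm, zero_mul]
  · intro h
    exact absurd (Finset.mem_univ i) h

/-- the vector of an operator, linear version -/
noncomputable def ev' : (Ell2 (I × Λ) →L[ℂ] Ell2 (Y3 I Λ)) →ₗ[ℂ] Ell2 (I × Y3 I Λ) where
  toFun T := vecs (FS.mat I Λ) T
  map_add' T S := by
    unfold vecs
    rw [← Finset.sum_add_distrib]
    refine Finset.sum_congr rfl fun i _ => ?_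
    rw [ContinuousLinearMap.add_apply, tv_add_right]
  map_smul' c T := by
    unfold vecs
    rw [Finset.smul_sum]
    refine Finset.sum_congr rfl fun i _ => ?_
    rw [ContinuousLinearMap.smul_apply, tv_smul_right]
    rfl

theorem ev'_apply (T : Ell2 (I × Λ) →L[ℂ] Ell2 (Y3 I Λ)) : ev' T = vecs (FS.mat I Λ) T := rfl

theorem hm_ext {S T : Ell2 (I × Λ) →L[ℂ] Ell2 (Y3 I Λ)} (hS : Hm α S) (hT : Hm α T)
    (h : ev' S = ev' T) : S = T := by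
  apply op_ext
  rintro ⟨i, x⟩
  rw [FS.mat_dl, hS.r, hT.r, ← sl_vecs, ← sl_vecs, ← ev'_apply, ← ev'_apply, h]

theorem hm_adj {T : Ell2 (I × Λ) →L[ℂ] Ell2 (Y3 I Λ)} (hT : Hm α T) (s : Λ)
    (w : Ell2 (Y3 I Λ)) :
    adjoint T ((f3 I Λ).R (s, (s, s)) w) = (FS.mat I Λ).R s (adjoint T w) := by
  refine ext_inner_left ℂ fun u => ?_
  have h0 : ((s, (s, s)) : Λ × (Λ × Λ))⁻¹ = (s⁻¹, (s⁻¹, s⁻¹)) := rfl
  rw [adjoint_inner_right, FS.R_right, FS.R_right, adjoint_inner_right, hT.r, h0]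

theorem hm_BB {S T : Ell2 (I × Λ) →L[ℂ] Ell2 (Y3 I Λ)} (hS : Hm α S) (hT : Hm α T) :
    Eqv (FS.mat I Λ).R (FS.mat I Λ).R (adjoint S ∘L T) := by
  intro s v
  rw [comp_apply, comp_apply, hT.r, hm_adj hS]

/-- invariance of the inner products under conjugation -/
theorem cnj_inner (hα : AF α) (h : Γ) {S T : Ell2 (I × Λ) →L[ℂ] Ell2 (Y3 I Λ)} (hS : Hm α S)
    (hT : Hm α T) : ⟪ev' (cnj α h S), ev' (cnj α h T)⟫_ℂ = ⟪ev' S, ev' T⟫_ℂ := by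
  rw [ev'_apply, ev'_apply, ev'_apply, ev'_apply, vecs_inner, vecs_inner]
  set B := adjoint S ∘L T with hB
  have hBe : Eqv (FS.mat I Λ).R (FS.mat I Λ).R B := hm_BB hS hT
  have h1 : ∀ i : I, ⟪cnj α h S (dl ((FS.mat I Λ).base i)), cnj α h T (dl ((FS.mat I Λ).base i))⟫_ℂ
      = ⟪(dl ((FS.mat I Λ).base i) : Ell2 (I × Λ)), (α h ∘L (B ∘L α h⁻¹))
        (dl ((FS.mat I Λ).base i))⟫_ℂ := by
    intro i
    rw [cnj_apply, cnj_apply, (A3'_tgt hα).inner_map, hT.q, comp_apply, comp_apply,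
      hα.inner_right, hB, comp_apply, adjoint_inner_right]
  have h2 : ∀ i : I, ⟪S (dl ((FS.mat I Λ).base i)), T (dl ((FS.mat I Λ).base i))⟫_ℂ =
      ⟪(dl ((FS.mat I Λ).base i) : Ell2 (I × Λ)), B (dl ((FS.mat I Λ).base i))⟫_ℂ := by
    intro i
    rw [hB, comp_apply, adjoint_inner_right]
  rw [Finset.sum_congr rfl fun i _ => h1 i, Finset.sum_congr rfl fun i _ => h2 i]
  have h3 := (FS.mat I Λ).tr_comm (FS.mat I Λ) (X := B ∘L α h⁻¹) (Y := α h)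
    (hBe.comp (hα.comm _)) (hα.comm _)
  unfold FS.tr at h3
  rw [h3]
  refine Finset.sum_congr rfl fun i _ => ?_
  congr 1
  rw [comp_apply, comp_apply, hα.inv_apply, hB, comp_apply, comp_apply, hT.p]

end cub

end Vale.Agent.P092.H103
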