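import Vale.Agent.P092.H103.Cub

/-!
The minimal norm average of the cubic intertwiners.
-/

set_option linter.all false

open scoped InnerProductSpace
open Filter Topology ContinuousLinearMap
open Vale.Agent.P092.H160

namespace Vale.Agent.P092.H103

section cub2

variable {Γ Λ I : Type} [Group Γ] [Group Λ] [Fintype I]
  {α : Γ → (Ell2 (I × Λ) →L[ℂ] Ell2 (I × Λ))}

/-- Limits of good operators. -/
theorem gd_closed {ω : Ell2 (I × Y3 I Λ)}
    (h : ω ∈ closure (ev' '' {T : Ell2 (I × Λ) →L[ℂ] Ell2 (Y3 I Λ) | Gd α T})) :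
    ∃ T, Gd α T ∧ ev' T = ω := by
  rw [mem_closure_iff_seq_limit] at h
  obtain ⟨x, hx, hlim⟩ := h
  choose T hT hTx using hx
  have hsl : ∀ i, Tendsto (fun n => T n (dl (i, 1))) atTop (𝓝 (sl ω i)) := by
    intro i
    have h1 := ((slL (Y3 I Λ) i).continuous.tendsto ω).comp hlim
    refine h1.congr fun n => ?_
    rw [Function.comp_apply, ← hTx n]
    change sl (ev' (T n)) i = _
    rw [ev'_apply, sl_vecs]
  set W : I × Λ → Ell2 (Y3 I Λ) := fun y => (f3 I Λ).R (y.2⁻¹, (y.2⁻¹, y.2⁻¹)) (sl ω y.1) with hW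
  have hTs : ∀ y n, T n (dl y) = (f3 I Λ).R (y.2⁻¹, (y.2⁻¹, y.2⁻¹)) (T n (dl (y.1, 1))) := by
    rintro ⟨i, s⟩ n
    rw [FS.mat_dl i s, (hT n).hm.r]
  have hlims : ∀ y, Tendsto (fun n => T n (dl y)) atTop (𝓝 (W y)) := by
    intro y
    simp only [hTs y]
    exact (((f3 I Λ).R _).continuous.tendsto _).comp (hsl y.1)
  have hb : Bes 1 W := by
    intro s v
    have h1 : Tendsto (fun n => ∑ t ∈ s, ‖⟪T n (dl t), v⟫_ℂ‖ ^ 2) atTop
        (𝓝 (∑ t ∈ s, ‖⟪W t, v⟫_ℂ‖ ^ 2)) :=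
      tendsto_finsetSum s fun t _ => (((hlims t).inner tendsto_const_nhds).norm).pow 2
    refine le_of_tendsto h1 (Eventually.of_forall fun n => ?_)
    exact ((bes_of_op (T n)).mono (norm_nonneg _) (hT n).norm_le) s v
  set S := opOf hb with hS
  have hdl : ∀ y, S (dl y) = W y := fun y => opOf_dl hb y
  have hn : ∀ n x, ‖adjoint (T n) (dl x)‖ ≤ 1 := by
    intro n x
    refine (le_opNorm _ _).trans ?_
    rw [LinearIsometryEquiv.norm_map, norm_dl, mul_one]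
    exact (hT n).norm_le
  have hco : ∀ v x, Tendsto (fun n => T n v x) atTop (𝓝 (S v x)) := by
    intro v x
    have h1 := weak_lim (l := atTop) (W := fun n => adjoint (T n) (dl x)) (C := 1)
      (fun n => hn n x) (w := adjoint S (dl x)) (fun b => by
        simp only [adjoint_inner_left, inner_dl, hdl]
        have h2 := (tendsto_const_nhds (x := (dl x : Ell2 (Y3 I Λ)))).inner (𝕜 := ℂ) (hlims b)
        simpa only [inner_dl] using h2) v
    simpa only [adjoint_inner_left, inner_dl] using h1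
  have hwk : ∀ v w, Tendsto (fun n => ⟪T n v, w⟫_ℂ) atTop (𝓝 ⟪S v, w⟫_ℂ) := by
    intro v w
    refine weak_lim (l := atTop) (W := fun n => T n v) (C := ‖v‖) (fun n => ?_) (fun b => ?_) w
    · refine (le_opNorm _ _).trans ?_
      calc ‖T n‖ * ‖v‖ ≤ 1 * ‖v‖ := by gcongr; exact (hT n).norm_le
        _ = ‖v‖ := one_mul _
    · simp only [inner_dl_right]
      exact (Complex.continuous_conj.tendsto _).comp (hco v b)
  refine ⟨S, ⟨⟨fun s v => ?_, fun v => ?_, fun v => ?_⟩, ?_,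
    ⟨fun a b c d => ?_, fun a b c d => ?_, fun a b c d => ?_⟩⟩, ?_⟩
  · apply ext_inner_dl
    intro x
    refine tendsto_nhds_unique (hco _ _) ?_
    simp only [fun n => (hT n).hm.r s v, FS.R_val]
    exact hco _ _
  · apply ext_inner_dl
    intro x
    refine tendsto_nhds_unique (hco _ _) ?_
    simp only [fun n => (hT n).hm.p v]
    exact hco _ _
  · refine ext_inner_right ℂ fun w => ?_
    refine tendsto_nhds_unique ?_ (hwk v w)
    have h1 := hwk v (adjoint (A3' α 1) w)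
    rw [adjoint_inner_right] at h1
    refine h1.congr fun n => ?_
    rw [adjoint_inner_right, (hT n).hm.q]
  · simpa using norm_opOf_le hb
  · refine tendsto_nhds_unique (hco _ _) ?_
    simp only [fun n => (hT n).sy.bd a b c d]
    exact hco _ _
  · refine tendsto_nhds_unique (hco _ _) ?_
    simp only [fun n => (hT n).sy.ac a b c d]
    exact hco _ _
  · refine tendsto_nhds_unique ((Complex.continuous_conj.tendsto _).comp (hco (dl a) (b, (c, d)))) ?_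
    simp only [Function.comp_def, fun n => (hT n).sy.hc a b c d]
    exact hco _ _
  · apply ext_inner_dl
    rintro ⟨i, x⟩
    have h1 : sl (ev' S) i = sl ω i := by
      rw [ev'_apply, sl_vecs, hdl, hW]
      change (f3 I Λ).R (1⁻¹, (1⁻¹, 1⁻¹)) (sl ω i) = sl ω i
      rw [inv_one]
      exact (f3 I Λ).R_one_apply _
    exact congrArg (fun u : Ell2 (Y3 I Λ) => u x) h1

variable (α) in
/-- the closed convex hull -/
def KK : Set (Ell2 (I × Y3 I Λ)) := closure (ev' '' hull (Set.range (Tg' α)))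

theorem hull_gd (hα : AF α) : hull (Set.range (Tg' α)) ⊆ {T | Gd α T} := hull_subset cvx_gd (by
    rintro _ ⟨g, rfl⟩
    exact gd_Tg' hα g)

theorem cnj_lc (h : Γ) (T S : Ell2 (I × Λ) →L[ℂ] Ell2 (Y3 I Λ)) (x y : ℂ) :
    cnj α h (x • T + y • S) = x • cnj α h T + y • cnj α h S := by
  ext1 v
  rw [cnj_apply, lc_ap, lc_ap, cnj_apply, cnj_apply, map_add, map_smul, map_smul]

theorem cnj_hull (hα : AF α) (h : Γ) {S : Ell2 (I × Λ) →L[ℂ] Ell2 (Y3 I Λ)}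
    (hS : S ∈ hull (Set.range (Tg' α))) : cnj α h S ∈ hull (Set.range (Tg' α)) := by
  have hcv : Cvx {R : Ell2 (I × Λ) →L[ℂ] Ell2 (Y3 I Λ) |
      cnj α h R ∈ hull (Set.range (Tg' α))} := by
    intro R hR R' hR' a b ha hb hab
    change cnj α h ((a : ℂ) • R + (b : ℂ) • R') ∈ hull (Set.range (Tg' α))
    rw [cnj_lc]
    exact cvx_hull _ _ hR _ hR' a b ha hb hab
  refine hull_subset hcv ?_ hS
  rintro _ ⟨g, rfl⟩
  change cnj α h (Tg' α g) ∈ hull (Set.range (Tg' α))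
  rw [cnj_Tg' hα]
  exact subset_hull _ ⟨_, rfl⟩

theorem hm_sub {S T : Ell2 (I × Λ) →L[ℂ] Ell2 (Y3 I Λ)} (hS : Hm α S) (hT : Hm α T) :
    Hm α (S - T) where
  r s v := by
    rw [ContinuousLinearMap.sub_apply, ContinuousLinearMap.sub_apply, hS.r, hT.r, map_sub]
  p v := by
    rw [ContinuousLinearMap.sub_apply, ContinuousLinearMap.sub_apply, hS.p, hT.p]
  q v := by
    rw [ContinuousLinearMap.sub_apply, map_sub, hS.q, hT.q]

theorem cnj_norm (hα : AF α) (h : Γ) {T : Ell2 (I × Λ) →L[ℂ] Ell2 (Y3 I Λ)} (hT : Hm α T) :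
    ‖ev' (cnj α h T)‖ = ‖ev' T‖ := by
  have h1 := cnj_inner hα h hT hT
  rw [re_inner_self, re_inner_self] at h1
  have h2 : ‖ev' (cnj α h T)‖ ^ 2 = ‖ev' T‖ ^ 2 := by exact_mod_cast h1
  exact (pow_left_inj₀ (norm_nonneg _) (norm_nonneg _) two_ne_zero).mp h2

theorem cnj_sub (h : Γ) (T S : Ell2 (I × Λ) →L[ℂ] Ell2 (Y3 I Λ)) :
    cnj α h (T - S) = cnj α h T - cnj α h S := by
  ext1 v
  rw [cnj_apply, ContinuousLinearMap.sub_apply, ContinuousLinearMap.sub_apply, map_sub, cnj_apply,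
    cnj_apply]

theorem cnj_closure (hα : AF α) {T : Ell2 (I × Λ) →L[ℂ] Ell2 (Y3 I Λ)} (hT : Hm α T)
    (hω : ev' T ∈ KK α) (h : Γ) : ev' (cnj α h T) ∈ KK α := by
  unfold KK at *
  rw [Metric.mem_closure_iff] at hω ⊢
  intro ε hε
  obtain ⟨_, ⟨S, hS, rfl⟩, hd⟩ := hω ε hε
  refine ⟨ev' (cnj α h S), ⟨_, cnj_hull hα h hS, rfl⟩, ?_⟩
  rw [dist_eq_norm, ← map_sub, ← cnj_sub, cnj_norm hα h (hm_sub hT (hull_gd hα hS).hm), map_sub,
    ← dist_eq_norm]
  exact hd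

/-- a functional which is constant on the family is constant on the hull -/
theorem const_KK {ζ : Ell2 (I × Y3 I Λ)} {c : ℂ} (h : ∀ g, ⟪ζ, ev' (Tg' α g)⟫_ℂ = c)
    {v : Ell2 (I × Y3 I Λ)} (hv : v ∈ KK α) : ⟪ζ, v⟫_ℂ = c := by
  have hcl : IsClosed {v : Ell2 (I × Y3 I Λ) | ⟪ζ, v⟫_ℂ = c} :=
    isClosed_eq (by fun_prop) continuous_const
  refine closure_minimal ?_ hcl hv
  rintro _ ⟨S, hS, rfl⟩
  have hcv : Cvx {S : Ell2 (I × Λ) →L[ℂ] Ell2 (Y3 I Λ) | ⟪ζ, ev' S⟫_ℂ = c} := by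
    intro R hR R' hR' a b ha hb hab
    have hR1 : ⟪ζ, ev' R⟫_ℂ = c := hR
    have hR2 : ⟪ζ, ev' R'⟫_ℂ = c := hR'
    change ⟪ζ, ev' ((a : ℂ) • R + (b : ℂ) • R')⟫_ℂ = c
    rw [map_add, map_smul, map_smul, inner_add_right, inner_smul_right, inner_smul_right, hR1,
      hR2, ← add_mul, ← Complex.ofReal_add, hab, Complex.ofReal_one, one_mul]
  refine hull_subset hcv ?_ hS
  rintro _ ⟨g, rfl⟩
  exact h g

/-- The invariant cubic intertwiner. -/
theorem exists_inv' (hα : AF α) : ∃ T : Ell2 (I × Λ) →L[ℂ] Ell2 (Y3 I Λ), Gd α T ∧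
    (∀ g v, T (α g v) = A3' α g (T v)) ∧ ev' T ∈ KK α := by
  have hKc : Cvx (KK α) := ((cvx_hull _).image ev').closure
  have hne : (KK α).Nonempty :=
    ⟨ev' (Tg' α 1), subset_closure ⟨_, subset_hull _ ⟨1, rfl⟩, rfl⟩⟩
  obtain ⟨ω, hω, hmin, huniq⟩ := min_norm_ell2 hne isClosed_closure hKc
  have h1 : ω ∈ closure (ev' '' {T : Ell2 (I × Λ) →L[ℂ] Ell2 (Y3 I Λ) | Gd α T}) := by
    refine closure_mono ?_ hω
    rintro _ ⟨T, hT, rfl⟩
    exact ⟨T, hull_gd hα hT, rfl⟩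
  obtain ⟨T, hT, hTω⟩ := gd_closed h1
  have hmem : ev' T ∈ KK α := by rw [hTω]; exact hω
  refine ⟨T, hT, fun g v => ?_, hmem⟩
  have h2 : ev' (cnj α g T) = ev' T := by
    rw [hTω]
    refine huniq _ (cnj_closure hα hT.hm hmem g) ?_
    rw [cnj_norm hα g hT.hm, hTω]
  have h3 := hm_ext (hm_cnj hα g hT.hm) hT.hm h2
  have h4 : cnj α g T (α g v) = T (α g v) := by rw [h3]
  rw [cnj_apply, hα.inv_apply, hT.hm.p] at h4
  exact h4.symm

variable (α) in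
/-- the family of vectors -/
noncomputable def xf (g : Γ) : Ell2 (I × Y3 I Λ) := ev' (Tg' α g)

theorem xf_inv (hα : AF α) : InvF (xf α) := by
  intro k g h
  unfold xf
  rw [← cnj_Tg' hα, ← cnj_Tg' hα, cnj_inner hα k (hm_Tg' hα g) (hm_Tg' hα h)]

theorem xf_inner (hα : AF α) {S : Ell2 (I × Λ) →L[ℂ] Ell2 (Y3 I Λ)} (hS : Hm α S) :
    ⟪ev' S, xf α 1⟫_ℂ = ∑ i : I, (starRingEnd ℂ) (S (dl (i, 1)) ((i, 1), ((i, 1), (i, 1)))) := by
  unfold xf
  rw [ev'_apply, ev'_apply, vecs_inner]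
  have h1 : ∀ i : I, ⟪S (dl ((FS.mat I Λ).base i)), Tg' α 1 (dl ((FS.mat I Λ).base i))⟫_ℂ =
      ⟪(dl ((FS.mat I Λ).base i) : Ell2 (I × Λ)), ((adjoint S ∘L T0' I Λ) ∘L α 1)
        (dl ((FS.mat I Λ).base i))⟫_ℂ := by
    intro i
    rw [Tg'_apply, inv_one, ← adjoint_inner_left, (A3'_tgt hα).adj, inv_one, hS.q, comp_apply,
      comp_apply, adjoint_inner_right]
  rw [Finset.sum_congr rfl fun i _ => h1 i]
  have hT0 : Eqv (FS.mat I Λ).R (FS.mat I Λ).R (adjoint S ∘L T0' I Λ) := by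
    intro s v
    rw [comp_apply, comp_apply, T0'_R, hm_adj hS]
  have h3 := (FS.mat I Λ).tr_comm (FS.mat I Λ) (X := α 1) (Y := adjoint S ∘L T0' I Λ)
    (hα.comm _) hT0
  unfold FS.tr at h3
  rw [h3]
  refine Finset.sum_congr rfl fun i _ => ?_
  rw [comp_apply, ← hα.p_left, comp_apply, adjoint_inner_right, hS.p]
  change ⟪S (dl (i, 1)), T0' I Λ (dl (i, 1))⟫_ℂ = _
  rw [T0'_dl, inner_dl_right]

/-- The coefficient of the family. -/
theorem xf_coeff (hα : AF α) (g : Γ) : ⟪xf α g, xf α 1⟫_ℂ = (q4 α g⁻¹ : ℂ) := by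
  have h := xf_inner hα (hm_Tg' hα g)
  change ⟪xf α g, xf α 1⟫_ℂ = _ at h
  rw [h]
  unfold q4
  push_cast
  refine Finset.sum_congr rfl fun i _ => ?_
  rw [Tg'_coord hα, Complex.conj_tsum]
  congr 1
  funext s
  set z := (α g⁻¹ (dl (i, 1))) s
  rw [mul_assoc, Complex.mul_conj, Complex.normSq_eq_norm_sq, map_mul, Complex.conj_ofReal]
  push_cast
  ring

theorem q4_inv (hα : AF α) (g : Γ) : q4 α g⁻¹ = q4 α g := by
  have h1 := xf_coeff hα g
  have h2 := xf_coeff hα g⁻¹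
  have h3 := xf_inv hα g⁻¹ g 1
  rw [inv_mul_cancel, mul_one, h1, ← inner_conj_symm, h2, Complex.conj_ofReal, inv_inv] at h3
  exact_mod_cast h3.symm

theorem xf_coeff' (hα : AF α) (g : Γ) : ⟪xf α 1, xf α g⟫_ℂ = (q4 α g : ℂ) := by
  rw [← inner_conj_symm, xf_coeff hα, Complex.conj_ofReal, q4_inv hα]

/-- Either the average is nonzero on a diagonal vector, or the hull contains zero. -/
theorem cub_dich (hα : AF α) : ∃ T : Ell2 (I × Λ) →L[ℂ] Ell2 (Y3 I Λ), Gd α T ∧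
    (∀ g v, T (α g v) = A3' α g (T v)) ∧
    ((∃ y, T (dl y) (y, (y, y)) ≠ 0) ∨ (0 : Ell2 (I × Y3 I Λ)) ∈ KK α) := by
  obtain ⟨T, hT, hTα, hmem⟩ := exists_inv' hα
  refine ⟨T, hT, hTα, ?_⟩
  by_cases h0 : ev' T = 0
  · right
    rw [← h0]
    exact hmem
  · left
    by_contra hcon
    push Not at hcon
    apply h0
    have hcn : ∀ g, cnj α g T = T := by
      intro g
      ext1 v
      rw [cnj_apply, ← hTα, hα.apply_inv, hT.hm.p]
    have h1 : ∀ g, ⟪ev' T, ev' (Tg' α g)⟫_ℂ = ⟪ev' T, xf α 1⟫_ℂ := by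
      intro g
      have h2 := cnj_inner hα g hT.hm (hm_Tg' hα 1)
      rw [cnj_Tg' hα, mul_one, hcn] at h2
      exact h2
    have h2 := const_KK h1 hmem
    rw [xf_inner hα hT.hm] at h2
    have h3 : ∑ i : I, (starRingEnd ℂ) (T (dl (i, 1)) ((i, 1), ((i, 1), (i, 1)))) = 0 :=
      Finset.sum_eq_zero fun i _ => by rw [hcon, map_zero]
    rw [h3] at h2
    exact inner_self_eq_zero.mp h2

theorem zt_orth (hα : AF α) (h0 : (0 : Ell2 (I × Y3 I Λ)) ∈ KK α) (η : Mx (xf α))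
    (hη : ∀ g, gpi (xf_inv hα) g η = η) : ⟪η, zt (xf α) 1⟫_ℂ = 0 := by
  have h1 : ∀ g, ⟪(η : Ell2 (I × Y3 I Λ)), ev' (Tg' α g)⟫_ℂ = ⟪η, zt (xf α) 1⟫_ℂ := by
    intro g
    have h2 : ⟪η, zt (xf α) g⟫_ℂ = ⟪η, zt (xf α) 1⟫_ℂ := by
      have h3 : zt (xf α) g = gpi (xf_inv hα) g (zt (xf α) 1) := by rw [gpi_zt, mul_one]
      rw [h3, ← adjoint_inner_left, gpi_adj, hη]
    exact h2
  have h2 := const_KK h1 h0
  rw [inner_zero_right] at h2
  exact h2.symm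

end cub2

end Vale.Agent.P092.H103
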