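import Vale.Agent.P092.H160.Rep

/-!
Free actions of a group with finitely many orbits, the permutation representations on `ℓ²`, and
the trace identity for equivariant operators.
-/

set_option linter.all false

open scoped InnerProductSpace Pointwise
open Filter Topology ContinuousLinearMap
open Vale.Agent.P092.H160

namespace Vale.Agent.P092.H103

/-- A free action of the group `K` on `Z` with orbits indexed by `J`. -/
structure FS (K Z J : Type) [Group K] where
  act : K →* Equiv.Perm Z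
  base : J → Z
  bij : Function.Bijective (fun p : J × K => act p.2 (base p.1))

/-- `A` intertwines two families of operators -/
def Eqv {K Z Z' : Type} (R : K → (Ell2 Z →L[ℂ] Ell2 Z)) (R' : K → (Ell2 Z' →L[ℂ] Ell2 Z'))
    (A : Ell2 Z →L[ℂ] Ell2 Z') : Prop := ∀ x v, A (R x v) = R' x (A v)

namespace FS

variable {K Z J Z' J' K' : Type} [Group K] [Group K'] (f : FS K Z J) (f' : FS K Z' J')

/-- The permutation representation on `ℓ²(Z)`. -/
noncomputable def R : K →* (Ell2 Z →L[ℂ] Ell2 Z) where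
  toFun x := rei (f.act x)
  map_one' := by rw [map_one]; exact rei_one
  map_mul' x y := by rw [map_mul]; exact rei_mul _ _

theorem R_apply (x : K) : f.R x = rei (f.act x) := rfl

theorem R_dl (x : K) (z : Z) : f.R x (dl z) = dl (f.act x z) := rei_dl _ _

theorem R_adj (x : K) : adjoint (f.R x) = f.R x⁻¹ := by
  rw [R_apply, R_apply, adjoint_rei, map_inv]
  rfl

theorem R_val (x : K) (v : Ell2 Z) (z : Z) : f.R x v z = v (f.act x⁻¹ z) := by
  rw [R_apply, rei_apply, map_inv]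
  rfl

theorem R_inner (x : K) (u v : Ell2 Z) : ⟪f.R x u, f.R x v⟫_ℂ = ⟪u, v⟫_ℂ := inner_rei _ _ _

theorem R_norm (x : K) (v : Ell2 Z) : ‖f.R x v‖ = ‖v‖ := norm_rei _ _

theorem R_left (x : K) (u v : Ell2 Z) : ⟪f.R x u, v⟫_ℂ = ⟪u, f.R x⁻¹ v⟫_ℂ := by
  rw [← R_adj, adjoint_inner_right]

theorem R_right (x : K) (u v : Ell2 Z) : ⟪u, f.R x v⟫_ℂ = ⟪f.R x⁻¹ u, v⟫_ℂ := by
  rw [← R_adj, adjoint_inner_left]

theorem R_mul_apply (x y : K) (v : Ell2 Z) : f.R (x * y) v = f.R x (f.R y v) := by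
  rw [map_mul]; rfl

theorem R_one_apply (v : Ell2 Z) : f.R 1 v = v := by
  rw [map_one]; rfl

theorem R_inv_self (x : K) (v : Ell2 Z) : f.R x⁻¹ (f.R x v) = v := by
  rw [← R_mul_apply, inv_mul_cancel, R_one_apply]

theorem R_self_inv (x : K) (v : Ell2 Z) : f.R x (f.R x⁻¹ v) = v := by
  rw [← R_mul_apply, mul_inv_cancel, R_one_apply]

/-- every point is a translate of a base point -/
theorem exists_rep (z : Z) : ∃ (j : J) (x : K), z = f.act x (f.base j) := by
  obtain ⟨⟨j, x⟩, h⟩ := f.bij.2 z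
  exact ⟨j, x, h.symm⟩

theorem dl_rep (j : J) (x : K) : (dl (f.act x (f.base j)) : Ell2 Z) = f.R x (dl (f.base j)) :=
  (f.R_dl _ _).symm

/-- The bijection `J × K ≃ Z`. -/
noncomputable def eq : J × K ≃ Z := Equiv.ofBijective _ f.bij

theorem eq_apply (p : J × K) : f.eq p = f.act p.2 (f.base p.1) := rfl

theorem inner_expand [Fintype J] (u v : Ell2 Z) : ⟪u, v⟫_ℂ =
    ∑ j, ∑' x : K, v (f.act x (f.base j)) * (starRingEnd ℂ) (u (f.act x (f.base j))) := by
  have h0 : Summable (fun z : Z => v z * (starRingEnd ℂ) (u z)) := (hasSum_inner' u v).summable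
  have hs : Summable (fun p : J × K => v (f.act p.2 (f.base p.1)) *
      (starRingEnd ℂ) (u (f.act p.2 (f.base p.1)))) :=
    h0.comp_injective f.bij.1
  have h1 : ⟪u, v⟫_ℂ = ∑' p : J × K, v (f.act p.2 (f.base p.1)) *
      (starRingEnd ℂ) (u (f.act p.2 (f.base p.1))) := by
    rw [inner_eq]
    exact (f.eq.tsum_eq (fun z : Z => v z * (starRingEnd ℂ) (u z))).symm
  rw [h1, hs.tsum_prod, tsum_fintype]

theorem eqv_adjoint {A : Ell2 Z →L[ℂ] Ell2 Z'} (hA : Eqv f.R f'.R A) :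
    Eqv f'.R f.R (adjoint A) := by
  intro x v
  refine ext_inner_right ℂ fun u => ?_
  rw [adjoint_inner_left, f'.R_left, ← hA, f.R_left, adjoint_inner_left]

theorem ext_base {A B : Ell2 Z →L[ℂ] Ell2 Z'} (hA : Eqv f.R f'.R A) (hB : Eqv f.R f'.R B)
    (h : ∀ j, A (dl (f.base j)) = B (dl (f.base j))) : A = B := by
  apply op_ext
  intro z
  obtain ⟨j, x, rfl⟩ := f.exists_rep z
  rw [dl_rep, hA, hB, h]

theorem coef_swap {A : Ell2 Z →L[ℂ] Ell2 Z'} (hA : Eqv f.R f'.R A) (j : J) (j' : J') (x : K) :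
    A (dl (f.base j)) (f'.act x (f'.base j')) =
      (starRingEnd ℂ) (adjoint A (dl (f'.base j')) (f.act x⁻¹ (f.base j))) := by
  rw [← inner_dl, f'.dl_rep, f'.R_left, ← hA, ← f.dl_rep, ← adjoint_inner_left,
    ← inner_conj_symm, inner_dl]

/-- The trace identity. -/
theorem tr_swap [Fintype J] [Fintype J'] {A B : Ell2 Z →L[ℂ] Ell2 Z'} (hA : Eqv f.R f'.R A)
    (hB : Eqv f.R f'.R B) :
    ∑ j, ⟪A (dl (f.base j)), B (dl (f.base j))⟫_ℂ =
      ∑ j', ⟪adjoint B (dl (f'.base j')), adjoint A (dl (f'.base j'))⟫_ℂ := by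
  have h1 : ∀ j, ⟪A (dl (f.base j)), B (dl (f.base j))⟫_ℂ = ∑ j', ∑' x : K,
      (adjoint A (dl (f'.base j')) (f.act x (f.base j))) *
      (starRingEnd ℂ) (adjoint B (dl (f'.base j')) (f.act x (f.base j))) := by
    intro j
    rw [f'.inner_expand]
    refine Finset.sum_congr rfl fun j' _ => ?_
    rw [← (Equiv.inv K).tsum_eq]
    congr 1
    funext x
    rw [Equiv.inv_apply, f.coef_swap f' hA, f.coef_swap f' hB, inv_inv, Complex.conj_conj,
      mul_comm]
  rw [Finset.sum_congr rfl fun j _ => h1 j, Finset.sum_comm]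
  refine Finset.sum_congr rfl fun j' _ => ?_
  rw [f.inner_expand]

/-- The trace of an equivariant operator. -/
noncomputable def tr [Fintype J] (X : Ell2 Z →L[ℂ] Ell2 Z) : ℂ :=
  ∑ j, ⟪(dl (f.base j) : Ell2 Z), X (dl (f.base j))⟫_ℂ

theorem tr_comm [Fintype J] [Fintype J'] {X : Ell2 Z →L[ℂ] Ell2 Z'} {Y : Ell2 Z' →L[ℂ] Ell2 Z}
    (hX : Eqv f.R f'.R X) (hY : Eqv f'.R f.R Y) : f.tr (Y ∘L X) = f'.tr (X ∘L Y) := by
  have h := f.tr_swap f' (A := adjoint Y) (B := X) (f'.eqv_adjoint f hY) hX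
  rw [adjoint_adjoint] at h
  unfold tr
  simp only [comp_apply]
  rw [Finset.sum_congr rfl fun j _ => (adjoint_inner_left Y (X (dl (f.base j)))
    (dl (f.base j))).symm, h]
  exact Finset.sum_congr rfl fun j _ => adjoint_inner_left X _ _

/-- Product of two actions. -/
def prod (f : FS K Z J) (f' : FS K' Z' J') : FS (K × K') (Z × Z') (J × J') where
  act :=
    { toFun := fun x => Equiv.prodCongr (f.act x.1) (f'.act x.2)
      map_one' := by
        ext1 z
        simp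
      map_mul' := fun x y => by
        refine Equiv.ext fun z => Prod.ext ?_ ?_
        · change f.act (x.1 * y.1) z.1 = f.act x.1 (f.act y.1 z.1)
          rw [map_mul]
          rfl
        · change f'.act (x.2 * y.2) z.2 = f'.act x.2 (f'.act y.2 z.2)
          rw [map_mul]
          rfl }
  base j := (f.base j.1, f'.base j.2)
  bij := by
    constructor
    · rintro ⟨⟨j, j'⟩, ⟨x, x'⟩⟩ ⟨⟨k, k'⟩, ⟨y, y'⟩⟩ h
      have h1 : f.act x (f.base j) = f.act y (f.base k) := congrArg Prod.fst h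
      have h2 : f'.act x' (f'.base j') = f'.act y' (f'.base k') := congrArg Prod.snd h
      have h3 := f.bij.1 (a₁ := (j, x)) (a₂ := (k, y)) h1
      have h4 := f'.bij.1 (a₁ := (j', x')) (a₂ := (k', y')) h2
      rw [Prod.mk.injEq] at h3 h4
      rw [h3.1, h3.2, h4.1, h4.2]
    · rintro ⟨z, z'⟩
      obtain ⟨⟨j, x⟩, h1⟩ := f.bij.2 z
      obtain ⟨⟨j', x'⟩, h2⟩ := f'.bij.2 z'
      exact ⟨((j, j'), (x, x')), Prod.ext h1 h2⟩

theorem prod_R (f : FS K Z J) (f' : FS K' Z' J') (x : K) (x' : K') :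
    (f.prod f').R (x, x') = tens (f.R x) (f'.R x') := by
  rw [R_apply, R_apply, R_apply, tens_rei]
  rfl

theorem prod_base (f : FS K Z J) (f' : FS K' Z' J') (j : J) (j' : J') :
    (f.prod f').base (j, j') = (f.base j, f'.base j') := rfl

/-- `K` acting on itself from the right -/
def reg (K : Type) [Group K] : FS K K Unit where
  act :=
    { toFun := fun x => Equiv.mulRight x⁻¹
      map_one' := by ext1 z; simp
      map_mul' := fun x y => by ext1 z; simp [mul_assoc] }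
  base _ := 1
  bij := by
    constructor
    · rintro ⟨j, x⟩ ⟨k, y⟩ h
      have h1 : 1 * x⁻¹ = 1 * y⁻¹ := h
      rw [one_mul, one_mul, inv_inj] at h1
      rw [h1]
    · intro z
      exact ⟨((), z⁻¹), by change 1 * z⁻¹⁻¹ = z; rw [one_mul, inv_inv]⟩

theorem reg_R (x : K) : (reg K).R x = rho x := rfl

/-- `K` acting on `I × K` from the right -/
def mat (I K : Type) [Group K] : FS K (I × K) I where
  act :=
    { toFun := fun x => Equiv.prodCongr (Equiv.refl I) (Equiv.mulRight x⁻¹)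
      map_one' := by ext1 z; simp
      map_mul' := fun x y => by
        refine Equiv.ext fun z => Prod.ext rfl ?_
        change z.2 * (x * y)⁻¹ = z.2 * y⁻¹ * x⁻¹
        rw [mul_inv_rev, mul_assoc] }
  base i := (i, 1)
  bij := by
    constructor
    · rintro ⟨j, x⟩ ⟨k, y⟩ h
      have h1 : (j, 1 * x⁻¹) = (k, 1 * y⁻¹) := h
      rw [one_mul, one_mul, Prod.mk.injEq, inv_inj] at h1
      rw [h1.1, h1.2]
    · rintro ⟨i, z⟩
      exact ⟨(i, z⁻¹), by change (i, 1 * z⁻¹⁻¹) = (i, z); rw [one_mul, inv_inv]⟩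

theorem mat_act {I : Type} (x : K) (i : I) (y : K) : (mat I K).act x (i, y) = (i, y * x⁻¹) := rfl

theorem mat_base {I : Type} (i : I) : (mat I K).base i = (i, 1) := rfl

theorem mat_R {I : Type} (x : K) : (mat I K).R x = tens 1 (rho x) := by
  have h : (1 : Ell2 I →L[ℂ] Ell2 I) = rei (Equiv.refl I) := rfl
  rw [h, rho, tens_rei]
  rfl

theorem mat_dl {I : Type} (i : I) (x : K) :
    (dl (i, x) : Ell2 (I × K)) = (mat I K).R x⁻¹ (dl (i, 1)) := by
  rw [R_dl, mat_act, inv_inv, one_mul]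

end FS

/-! ### Matrix coefficients vanish at infinity -/

/-- Weak convergence on basis vectors, with a bound, gives weak convergence. -/
theorem weak_lim {Y ι : Type} {l : Filter ι} {W : ι → Ell2 Y} {C : ℝ} (hC : ∀ s, ‖W s‖ ≤ C)
    {w : Ell2 Y} (h : ∀ b, Tendsto (fun s => ⟪W s, dl b⟫_ℂ) l (𝓝 ⟪w, dl b⟫_ℂ)) (v : Ell2 Y) :
    Tendsto (fun s => ⟪W s, v⟫_ℂ) l (𝓝 ⟪w, v⟫_ℂ) := by
  rw [Metric.tendsto_nhds]
  intro ε hε
  set D := |C| + ‖w‖ + 1 with hD
  have hD0 : 0 < D := by positivity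
  have h1 := (hasSum_dl v).eventually (Metric.ball_mem_nhds v (ε := ε / (2 * D)) (by positivity))
  obtain ⟨F, hF⟩ := h1.exists
  set v' : Ell2 Y := ∑ y ∈ F, v y • dl y with hv'
  have h2 : Tendsto (fun s => ⟪W s, v'⟫_ℂ) l (𝓝 ⟪w, v'⟫_ℂ) := by
    simp only [hv', inner_sum, inner_smul_right]
    exact tendsto_finsetSum F fun a _ => (h a).const_mul _
  have h3 := (Metric.tendsto_nhds.mp h2) (ε / 2) (by positivity)
  have hF' : ‖v - v'‖ < ε / (2 * D) := by
    rw [← dist_eq_norm, dist_comm]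
    exact hF
  filter_upwards [h3] with s hs
  rw [dist_eq_norm] at hs ⊢
  have e : ⟪W s, v⟫_ℂ - ⟪w, v⟫_ℂ =
      ⟪W s - w, v - v'⟫_ℂ + (⟪W s, v'⟫_ℂ - ⟪w, v'⟫_ℂ) := by
    rw [inner_sub_left, inner_sub_right, inner_sub_right]
    ring
  rw [e]
  have h4 : ‖W s - w‖ ≤ D := by
    refine (norm_sub_le _ _).trans ?_
    have := hC s
    have := le_abs_self C
    linarith
  have h5 : ‖⟪W s - w, v - v'⟫_ℂ‖ ≤ ε / 2 := by
    calc ‖⟪W s - w, v - v'⟫_ℂ‖ ≤ ‖W s - w‖ * ‖v - v'‖ := norm_inner_le_norm _ _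
      _ ≤ D * (ε / (2 * D)) := by gcongr
      _ = ε / 2 := by field_simp
  calc _ ≤ ‖⟪W s - w, v - v'⟫_ℂ‖ + ‖⟪W s, v'⟫_ℂ - ⟪w, v'⟫_ℂ‖ := norm_add_le _ _
    _ < ε := by linarith

/-- Matrix coefficients of a free permutation representation vanish at infinity. -/
theorem FS.coeff_c0 {K Z J : Type} [Group K] (f : FS K Z J) (u v : Ell2 Z) :
    Tendsto (fun x : K => ⟪u, f.R x v⟫_ℂ) cofinite (𝓝 0) := by
  have hb : ∀ a b : Z, Tendsto (fun x : K => ⟪f.R x (dl b), (dl a : Ell2 Z)⟫_ℂ) cofinite (𝓝 0) := by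
    intro a b
    have hinj : Set.Subsingleton {x : K | f.act x b = a} := by
      intro x hx y hy
      obtain ⟨j, z, rfl⟩ := f.exists_rep b
      have h1 : f.act x (f.act z (f.base j)) = f.act y (f.act z (f.base j)) := by
        rw [Set.mem_setOf_eq] at hx hy
        rw [hx, hy]
      have h2 : f.act (x * z) (f.base j) = f.act (y * z) (f.base j) := by
        rw [map_mul, map_mul]
        exact h1
      have h3 := f.bij.1 (a₁ := (j, x * z)) (a₂ := (j, y * z)) h2
      rw [Prod.mk.injEq] at h3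
      exact mul_right_cancel h3.2
    refine tendsto_const_nhds.congr' ?_
    rw [EventuallyEq, eventually_cofinite]
    refine hinj.finite.subset ?_
    intro x hx
    by_contra hne
    refine hx ?_
    rw [f.R_dl, inner_dl_right, dl_ne, map_zero]
    intro h
    exact hne h.symm
  have h1 : ∀ b : Z, Tendsto (fun x : K => ⟪f.R x (dl b), u⟫_ℂ) cofinite (𝓝 0) := by
    intro b
    have := weak_lim (l := cofinite) (W := fun x : K => f.R x (dl b : Ell2 Z)) (C := 1)
      (fun s => by rw [f.R_norm, norm_dl]) (w := 0)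
      (fun a => by rw [inner_zero_left]; exact hb a b) u
    rwa [inner_zero_left] at this
  have h2 : ∀ b : Z, Tendsto (fun x : K => ⟪f.R x⁻¹ u, (dl b : Ell2 Z)⟫_ℂ) cofinite (𝓝 0) := by
    intro b
    have h3 := (Complex.continuous_conj.tendsto _).comp (h1 b)
    rw [map_zero] at h3
    refine h3.congr fun x => ?_
    rw [Function.comp_apply, inner_conj_symm, f.R_right]
  have h3 := weak_lim (l := cofinite) (W := fun x : K => f.R x⁻¹ u) (C := ‖u‖)
      (fun s => by rw [f.R_norm]) (w := 0)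
      (fun a => by rw [inner_zero_left]; exact h2 a) v
  rw [inner_zero_left] at h3
  refine h3.congr fun x => ?_
  rw [f.R_right]

/-! ### Conjugations which move every nontrivial element to infinity -/

section neumann

variable {Λ K : Type} [Group Λ] [Group K] (ι : Λ →* K)

theorem exists_avoid (hι : ∀ x : K, x ≠ 1 → Set.Infinite {y | ∃ s : Λ, y = ι s * x * (ι s)⁻¹})
    (D C : Finset K) (hD : (1 : K) ∉ D) : ∃ s : Λ, ∀ y ∈ D, ι s * y * (ι s)⁻¹ ∉ C := by
  classical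
  by_contra hcon
  push Not at hcon
  -- the centralizers
  let H : K × K → Subgroup Λ := fun p => (Subgroup.centralizer {p.1}).comap ι
  have hH : ∀ (p : K × K) (s : Λ), s ∈ H p ↔ ι s * p.1 * (ι s)⁻¹ = p.1 := by
    intro p s
    change ι s ∈ Subgroup.centralizer {p.1} ↔ _
    rw [Subgroup.mem_centralizer_singleton_iff]
    constructor
    · intro h
      rw [h, mul_assoc, mul_inv_cancel, mul_one]
    · intro h
      exact mul_inv_eq_iff_eq_mul.mp h
  let g : K × K → Λ := fun p =>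
    if h : ∃ s : Λ, ι s * p.1 * (ι s)⁻¹ = p.2 then h.choose else 1
  have hcov : ⋃ p ∈ (D ×ˢ C), (g p) • (H p : Set Λ) = Set.univ := by
    rw [Set.eq_univ_iff_forall]
    intro s
    obtain ⟨y, hy, hyC⟩ := hcon s
    rw [Set.mem_iUnion₂]
    refine ⟨(y, ι s * y * (ι s)⁻¹), Finset.mem_product.mpr ⟨hy, hyC⟩, ?_⟩
    have hex : ∃ t : Λ, ι t * y * (ι t)⁻¹ = ι s * y * (ι s)⁻¹ := ⟨s, rfl⟩
    have hg : g (y, ι s * y * (ι s)⁻¹) = hex.choose := dif_pos hex
    have hspec := hex.choose_spec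
    rw [mem_leftCoset_iff, hg]
    change hex.choose⁻¹ * s ∈ H (y, ι s * y * (ι s)⁻¹)
    rw [hH]
    change ι (hex.choose⁻¹ * s) * y * (ι (hex.choose⁻¹ * s))⁻¹ = y
    rw [map_mul, map_inv, mul_inv_rev, inv_inv]
    calc (ι hex.choose)⁻¹ * ι s * y * ((ι s)⁻¹ * ι hex.choose)
        = (ι hex.choose)⁻¹ * (ι s * y * (ι s)⁻¹) * ι hex.choose := by group
      _ = (ι hex.choose)⁻¹ * (ι hex.choose * y * (ι hex.choose)⁻¹) * ι hex.choose := by
          rw [hspec]
      _ = y := by group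
  obtain ⟨p, hp, hfi⟩ := Subgroup.exists_finiteIndex_of_leftCoset_cover hcov
  have hp1 : p.1 ≠ 1 := by
    intro h
    exact hD (h ▸ (Finset.mem_product.mp hp).1)
  refine hι p.1 hp1 ?_
  -- the orbit is the image of the finite quotient
  have hfin : Finite (Λ ⧸ H p) := Subgroup.finite_quotient_of_finiteIndex
  have h1 : {y | ∃ s : Λ, y = ι s * p.1 * (ι s)⁻¹} =
      Set.range (fun q : Λ ⧸ H p => ι q.out * p.1 * (ι q.out)⁻¹) := by
    ext y
    constructor
    · rintro ⟨s, rfl⟩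
      refine ⟨(s : Λ ⧸ H p), ?_⟩
      have h2 : (s : Λ ⧸ H p).out⁻¹ * s ∈ H p := by
        rw [← QuotientGroup.eq, QuotientGroup.out_eq']
      rw [hH] at h2
      rw [map_mul, map_inv, mul_inv_rev, inv_inv] at h2
      set t := (s : Λ ⧸ H p).out with ht
      change ι t * p.1 * (ι t)⁻¹ = _
      calc ι t * p.1 * (ι t)⁻¹
          = ι t * ((ι t)⁻¹ * ι s * p.1 * ((ι s)⁻¹ * ι t)) * (ι t)⁻¹ := by rw [h2]
        _ = ι s * p.1 * (ι s)⁻¹ := by group
    · rintro ⟨q, rfl⟩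
      exact ⟨q.out, rfl⟩
  rw [h1]
  exact Set.finite_range _

/-- The filter of conjugations moving nontrivial elements to infinity. -/
def nf : Filter Λ :=
  ⨅ p : {p : Finset K × Finset K // (1 : K) ∉ p.1},
    𝓟 {s : Λ | ∀ y ∈ p.1.1, ι s * y * (ι s)⁻¹ ∉ p.1.2}

theorem nf_neBot (hι : ∀ x : K, x ≠ 1 → Set.Infinite {y | ∃ s : Λ, y = ι s * x * (ι s)⁻¹}) :
    (nf ι).NeBot := by
  classical
  haveI : Nonempty {p : Finset K × Finset K // (1 : K) ∉ p.1} := ⟨⟨(∅, ∅), by simp⟩⟩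
  refine iInf_neBot_of_directed' ?_ ?_
  · rintro ⟨⟨D, C⟩, hD⟩ ⟨⟨D', C'⟩, hD'⟩
    have hD1 : (1 : K) ∉ D := hD
    have hD2 : (1 : K) ∉ D' := hD'
    refine ⟨⟨(D ∪ D', C ∪ C'), ?_⟩, ?_, ?_⟩
    · change (1 : K) ∉ D ∪ D'
      rw [Finset.mem_union]
      exact not_or.mpr ⟨hD1, hD2⟩
    · change 𝓟 _ ≤ 𝓟 _
      rw [principal_mono]
      intro s hs y hy hyC
      exact hs y (Finset.mem_union_left _ hy) (Finset.mem_union_left _ hyC)
    · change 𝓟 _ ≤ 𝓟 _
      rw [principal_mono]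
      intro s hs y hy hyC
      exact hs y (Finset.mem_union_right _ hy) (Finset.mem_union_right _ hyC)
  · rintro ⟨⟨D, C⟩, hD⟩
    rw [principal_neBot_iff]
    obtain ⟨s, hs⟩ := exists_avoid ι hι D C hD
    exact ⟨s, hs⟩

theorem nf_tendsto {y : K} (hy : y ≠ 1) :
    Tendsto (fun s : Λ => ι s * y * (ι s)⁻¹) (nf ι) cofinite := by
  classical
  rw [tendsto_def]
  intro C hC
  rw [mem_cofinite] at hC
  have h1 : 𝓟 {s : Λ | ∀ z ∈ ({y} : Finset K), ι s * z * (ι s)⁻¹ ∉ hC.toFinset} ∈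
      Set.range (fun p : {p : Finset K × Finset K // (1 : K) ∉ p.1} =>
        𝓟 {s : Λ | ∀ y ∈ p.1.1, ι s * y * (ι s)⁻¹ ∉ p.1.2}) := by
    refine ⟨⟨({y}, hC.toFinset), ?_⟩, rfl⟩
    rw [Finset.mem_singleton]
    exact fun h => hy h.symm
  have h2 : nf ι ≤ 𝓟 {s : Λ | ∀ z ∈ ({y} : Finset K), ι s * z * (ι s)⁻¹ ∉ hC.toFinset} := by
    obtain ⟨p, hp⟩ := h1
    rw [← hp]
    exact iInf_le _ p
  refine h2 ?_
  intro s hs
  have h3 := hs y (Finset.mem_singleton_self y)
  rw [Set.Finite.mem_toFinset, Set.mem_compl_iff, not_not] at h3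
  exact h3

end neumann

end Vale.Agent.P092.H103
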