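import Vale.Agent.P092.H103.Big

/-!
The `Γ`-side: an equivariant operator on the cube which commutes with the diagonal action of `Γ`
is a multiple of the projection. A nonzero intertwiner forces the trace of the projection to be
one.
-/

set_option linter.all false

open scoped InnerProductSpace
open Filter Topology ContinuousLinearMap
open Vale.Agent.P092.H160

namespace Vale.Agent.P092.H103

section vecs

variable {K Z J K' Z' J' : Type} [Group K] [Group K'] (f : FS K Z J) (f' : FS K' Z' J')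

/-- the vector of an operator -/
noncomputable def vecs {W : Type} [Fintype J] (X : Ell2 Z →L[ℂ] Ell2 W) : Ell2 (J × W) :=
  ∑ j : J, tv (dl j) (X (dl (f.base j)))

theorem vecs_inner {W : Type} [Fintype J] (X Y : Ell2 Z →L[ℂ] Ell2 W) :
    ⟪vecs f X, vecs f Y⟫_ℂ = ∑ j, ⟪X (dl (f.base j)), Y (dl (f.base j))⟫_ℂ := by
  classical
  unfold vecs
  rw [sum_inner]
  refine Finset.sum_congr rfl fun j _ => ?_
  rw [inner_sum, Finset.sum_eq_single j]
  · rw [inner_tv, inner_dl, dl_self, one_mul]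
  · intro k _ hk
    rw [inner_tv, inner_dl, dl_ne hk.symm, zero_mul]
  · intro h
    exact absurd (Finset.mem_univ j) h

theorem tr_tens [Fintype J] [Fintype J'] (X : Ell2 Z →L[ℂ] Ell2 Z) (X' : Ell2 Z' →L[ℂ] Ell2 Z') :
    (f.prod f').tr (tens X X') = f.tr X * f'.tr X' := by
  unfold FS.tr
  rw [Fintype.sum_prod_type, Finset.sum_mul_sum]
  refine Finset.sum_congr rfl fun j _ => Finset.sum_congr rfl fun j' _ => ?_
  rw [FS.prod_base, tens_dl, dl_prod, inner_tv]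

theorem tr_bar [Fintype J] (X : Ell2 Z →L[ℂ] Ell2 Z) : f.tr (bar X) = (starRingEnd ℂ) (f.tr X) := by
  unfold FS.tr
  rw [map_sum]
  refine Finset.sum_congr rfl fun j _ => ?_
  rw [bar_dl, ← cj_dl, inner_cj_cj, cj_dl]

theorem eqv_tens {A : Ell2 Z →L[ℂ] Ell2 Z} {B : Ell2 Z' →L[ℂ] Ell2 Z'} (hA : Eqv f.R f.R A)
    (hB : Eqv f'.R f'.R B) : Eqv (f.prod f').R (f.prod f').R (tens A B) := by
  rintro ⟨x, x'⟩ v
  rw [FS.prod_R]
  have h1 : A * f.R x = f.R x * A := by ext1 v; exact hA x v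
  have h2 : B * f'.R x' = f'.R x' * B := by ext1 v; exact hB x' v
  have h : tens A B * tens (f.R x) (f'.R x') = tens (f.R x) (f'.R x') * tens A B := by
    rw [← tens_mul, ← tens_mul, h1, h2]
  exact congrArg (fun L : Ell2 (Z × Z') →L[ℂ] Ell2 (Z × Z') => L v) h

theorem bar_R (x : K) : bar (f.R x) = f.R x := bar_rei _

theorem eqv_bar {A : Ell2 Z →L[ℂ] Ell2 Z} (hA : Eqv f.R f.R A) : Eqv f.R f.R (bar A) := by
  intro x v
  have h1 : A * f.R x = f.R x * A := by ext1 v; exact hA x v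
  have h2 := congrArg bar h1
  rw [bar_mul, bar_mul, bar_R] at h2
  exact congrArg (fun L : Ell2 Z →L[ℂ] Ell2 Z => L v) h2

end vecs

section pt

variable {Γ Λ I M : Type} [Group Γ] [Group Λ] [Fintype I]

/-- Totality of a family. -/
def Tot (β : Γ → (Ell2 (I × Λ) →L[ℂ] Ell2 (I × Λ))) : Prop :=
  ∀ X, Eqv (FS.mat I Λ).R (FS.mat I Λ).R X → β 1 * X = X → X * β 1 = X →
    (∀ g, ∑ i : I, ⟪β g (dl (i, 1)), X (dl (i, 1))⟫_ℂ = 0) → X = 0

theorem AF.total {α : Γ → (Ell2 (I × Λ) →L[ℂ] Ell2 (I × Λ))} (hα : AF α) : Tot α := by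
  intro X hX h1 h2 h
  obtain ⟨a, ha⟩ := hα.exp X hX h1 h2
  have h3 : HasSum (fun g => ∑ i : I, ⟪X (dl (i, 1)), a g • α g (dl (i, 1))⟫_ℂ)
      (∑ i : I, ⟪X (dl (i, 1)), X (dl (i, 1))⟫_ℂ) := by
    refine hasSum_sum fun i _ => ?_
    exact (ha i).mapL (innerSL ℂ (X (dl (i, 1))))
  have h4 : (fun g => ∑ i : I, ⟪X (dl (i, 1)), a g • α g (dl (i, 1))⟫_ℂ) = fun _ => 0 := by
    funext g
    have h5 := congrArg (starRingEnd ℂ) (h g)
    rw [map_sum, map_zero] at h5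
    simp only [inner_conj_symm] at h5
    simp only [inner_smul_right]
    rw [← Finset.mul_sum, h5, mul_zero]
  rw [h4] at h3
  have h6 := h3.unique hasSum_zero
  have h7 : ((∑ i : I, ‖X (dl (i, 1))‖ ^ 2 : ℝ) : ℂ) = 0 := by
    rw [← h6]
    push_cast
    refine Finset.sum_congr rfl fun i _ => ?_
    rw [re_inner_self]
    push_cast
    rfl
  have h8 : ∑ i : I, ‖X (dl (i, 1))‖ ^ 2 = 0 := by exact_mod_cast h7
  refine (FS.mat I Λ).ext_base (FS.mat I Λ) hX (fun x v => by simp) fun i => ?_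
  have h9 := (Finset.sum_eq_zero_iff_of_nonneg (fun _ _ => by positivity)).mp h8 i
    (Finset.mem_univ i)
  exact norm_eq_zero.mp ((pow_eq_zero_iff two_ne_zero).mp h9)

theorem bar_bar {X Y : Type} (S : Ell2 X →L[ℂ] Ell2 Y) : bar (bar S) = S := by
  ext1 v
  rw [bar_apply, bar_apply, cj_cj, cj_cj]

theorem Tot.bar {β : Γ → (Ell2 (I × Λ) →L[ℂ] Ell2 (I × Λ))} (hβ : Tot β) :
    Tot (fun g => bar (β g)) := by
  intro X hX h1 h2 h
  have h0 : H160.bar X = 0 := by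
    refine hβ (H160.bar X) (eqv_bar _ hX) ?_ ?_ fun g => ?_
    · have := congrArg H160.bar h1
      rw [bar_mul, bar_bar] at this
      exact this
    · have := congrArg H160.bar h2
      rw [bar_mul, bar_bar] at this
      exact this
    · have h3 := congrArg (starRingEnd ℂ) (h g)
      rw [map_sum, map_zero] at h3
      rw [← h3]
      refine Finset.sum_congr rfl fun i _ => ?_
      rw [bar_dl, bar_dl, ← inner_cj_cj, cj_cj]
  have h4 := congrArg H160.bar h0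
  rw [bar_bar] at h4
  rw [h4]
  ext1 v
  rw [bar_apply, ContinuousLinearMap.zero_apply, ContinuousLinearMap.zero_apply]
  apply ext_inner_dl
  intro x
  rw [cj_apply]
  exact map_zero _

/-- partial trace -/
noncomputable def pt (u : I → Ell2 (I × Λ)) (E : Ell2 ((I × Λ) × M) →L[ℂ] Ell2 ((I × Λ) × M)) :
    Ell2 M →L[ℂ] Ell2 M :=
  ∑ i : I, adjoint (tvr (u i)) ∘L E ∘L tvr (dl (i, 1))

theorem pt_inner (u : I → Ell2 (I × Λ)) (E : Ell2 ((I × Λ) × M) →L[ℂ] Ell2 ((I × Λ) × M))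
    (v w : Ell2 M) :
    ⟪v, pt u E w⟫_ℂ = ∑ i : I, ⟪tv (u i) v, E (tv (dl (i, 1)) w)⟫_ℂ := by
  rw [pt, sum_apply, inner_sum]
  refine Finset.sum_congr rfl fun i _ => ?_
  rw [comp_apply, comp_apply, adjoint_inner_right]
  rfl

theorem ampR_inner {X Y Z : Type} (B : Ell2 Y →L[ℂ] Ell2 Z) (u : Ell2 X) (v : Ell2 Z)
    (w : Ell2 (X × Y)) : ⟪tv u v, ampR X B w⟫_ℂ = ⟪tv u (adjoint B v), w⟫_ℂ := by
  rw [← ampR_tv, ← ampR_adj, adjoint_inner_left]

theorem pt_left (u : I → Ell2 (I × Λ)) (E : Ell2 ((I × Λ) × M) →L[ℂ] Ell2 ((I × Λ) × M))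
    (B : Ell2 M →L[ℂ] Ell2 M) (w : Ell2 M) :
    pt u (ampR (I × Λ) B ∘L E) w = B (pt u E w) := by
  refine ext_inner_left ℂ fun v => ?_
  rw [pt_inner, ← adjoint_inner_left B, pt_inner]
  refine Finset.sum_congr rfl fun i _ => ?_
  rw [comp_apply, ampR_inner]

theorem pt_right (u : I → Ell2 (I × Λ)) (E : Ell2 ((I × Λ) × M) →L[ℂ] Ell2 ((I × Λ) × M))
    (B : Ell2 M →L[ℂ] Ell2 M) (w : Ell2 M) :
    pt u (E ∘L ampR (I × Λ) B) w = pt u E (B w) := by
  refine ext_inner_left ℂ fun v => ?_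
  rw [pt_inner, pt_inner]
  refine Finset.sum_congr rfl fun i _ => ?_
  rw [comp_apply, ampR_tv]

/-- slices of an operator -/
noncomputable def slc (m m' : M) (E : Ell2 ((I × Λ) × M) →L[ℂ] Ell2 ((I × Λ) × M)) :
    Ell2 (I × Λ) →L[ℂ] Ell2 (I × Λ) := adjoint (tvl (dl m)) ∘L E ∘L tvl (dl m')

theorem slc_inner (m m' : M) (E : Ell2 ((I × Λ) × M) →L[ℂ] Ell2 ((I × Λ) × M))
    (u v : Ell2 (I × Λ)) :
    ⟪u, slc m m' E v⟫_ℂ = ⟪tv u (dl m), E (tv v (dl m'))⟫_ℂ := by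
  rw [slc, comp_apply, comp_apply, adjoint_inner_right]
  rfl

/-- `B ⊗ 1` -/
noncomputable def lt (M : Type) (B : Ell2 (I × Λ) →L[ℂ] Ell2 (I × Λ)) :
    Ell2 ((I × Λ) × M) →L[ℂ] Ell2 ((I × Λ) × M) := ampL M B

theorem lt_tv (B : Ell2 (I × Λ) →L[ℂ] Ell2 (I × Λ)) (u : Ell2 (I × Λ)) (v : Ell2 M) :
    lt M B (tv u v) = tv (B u) v := ampL_tv _ _ _

theorem lt_inner (B : Ell2 (I × Λ) →L[ℂ] Ell2 (I × Λ)) (u : Ell2 (I × Λ)) (v : Ell2 M)
    (w : Ell2 ((I × Λ) × M)) : ⟪tv u v, lt M B w⟫_ℂ = ⟪tv (adjoint B u) v, w⟫_ℂ := by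
  have h : adjoint (lt M B) = lt M (adjoint B) := by
    apply op_ext
    rintro ⟨x, y⟩
    apply ext_inner_dl
    rintro ⟨a, b⟩
    rw [← inner_dl, adjoint_inner_right, dl_prod x y, dl_prod a b, lt_tv, lt_tv, inner_tv,
      tv_apply, inner_dl b, ← inner_dl a (adjoint B (dl x)), adjoint_inner_right]
  rw [← adjoint_inner_left, h, lt_tv]

theorem slc_left (m m' : M) (E : Ell2 ((I × Λ) × M) →L[ℂ] Ell2 ((I × Λ) × M))
    (B : Ell2 (I × Λ) →L[ℂ] Ell2 (I × Λ)) : slc m m' (lt M B ∘L E) = B * slc m m' E := by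
  ext1 v
  refine ext_inner_left ℂ fun u => ?_
  rw [slc_inner, comp_apply, lt_inner, ← slc_inner, adjoint_inner_left]
  rfl

theorem slc_right (m m' : M) (E : Ell2 ((I × Λ) × M) →L[ℂ] Ell2 ((I × Λ) × M))
    (B : Ell2 (I × Λ) →L[ℂ] Ell2 (I × Λ)) : slc m m' (E ∘L lt M B) = slc m m' E * B := by
  ext1 v
  refine ext_inner_left ℂ fun u => ?_
  rw [slc_inner, comp_apply, lt_tv, ← slc_inner]
  rfl

/-- uniqueness from the partial traces -/
theorem pt_zero {β : Γ → (Ell2 (I × Λ) →L[ℂ] Ell2 (I × Λ))} (hβ : Tot β)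
    {E : Ell2 ((I × Λ) × M) →L[ℂ] Ell2 ((I × Λ) × M)}
    (h1 : ∀ s, E ∘L lt M ((FS.mat I Λ).R s) = lt M ((FS.mat I Λ).R s) ∘L E)
    (h2 : lt M (β 1) ∘L E = E) (h3 : E ∘L lt M (β 1) = E)
    (h : ∀ g, pt (fun i => β g (dl (i, 1))) E = 0) : E = 0 := by
  have key : ∀ m m' : M, slc m m' E = 0 := by
    intro m m'
    refine hβ _ ?_ ?_ ?_ ?_
    · intro s v
      have e : slc m m' E * (FS.mat I Λ).R s = (FS.mat I Λ).R s * slc m m' E := by
        rw [← slc_right, ← slc_left, h1]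
      exact congrArg (fun L : Ell2 (I × Λ) →L[ℂ] Ell2 (I × Λ) => L v) e
    · rw [← slc_left, h2]
    · rw [← slc_right, h3]
    · intro g
      have h4 : ⟪(dl m : Ell2 M), pt (fun i => β g (dl (i, 1))) E (dl m')⟫_ℂ = 0 := by
        rw [h g, ContinuousLinearMap.zero_apply, inner_zero_right]
      rw [pt_inner] at h4
      rw [← h4]
      exact Finset.sum_congr rfl fun i _ => slc_inner _ _ _ _ _
  apply op_ext
  rintro ⟨y, m'⟩
  apply ext_inner_dl
  rintro ⟨y', m⟩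
  have h5 : ⟪(dl y' : Ell2 (I × Λ)), slc m m' E (dl y)⟫_ℂ = 0 := by
    rw [key m m', ContinuousLinearMap.zero_apply, inner_zero_right]
  rw [slc_inner] at h5
  rw [← inner_dl, dl_prod y m', dl_prod y' m, h5]
  rfl

end pt

end Vale.Agent.P092.H103
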