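import Vale.Agent.P092.H103.Gam

/-!
Equivariant operators on the cube.
-/

set_option linter.all false

open scoped InnerProductSpace
open Filter Topology ContinuousLinearMap
open Vale.Agent.P092.H160

namespace Vale.Agent.P092.H103

section cube

variable {Γ Λ I : Type} [Group Γ] [Group Λ] [Fintype I]

theorem sum3 (a : I → I → I → ℂ) :
    ∑ k, ∑ j, ∑ i, a i j k = ∑ i, ∑ j, ∑ k, a i j k := by
  calc ∑ k, ∑ j, ∑ i, a i j k = ∑ k, ∑ i, ∑ j, a i j k :=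
        Finset.sum_congr rfl fun k _ => Finset.sum_comm
    _ = ∑ i, ∑ k, ∑ j, a i j k := Finset.sum_comm
    _ = _ := Finset.sum_congr rfl fun i _ => Finset.sum_comm

theorem tens_one_left {X Y : Type} (B : Ell2 Y →L[ℂ] Ell2 Y) :
    tens (1 : Ell2 X →L[ℂ] Ell2 X) B = ampR X B := by
  apply op_ext
  rintro ⟨x, y⟩
  rw [tens_dl, dl_prod x y, ampR_tv, one_apply_eq_self]

theorem tens_one_right {M : Type} (B : Ell2 (I × Λ) →L[ℂ] Ell2 (I × Λ)) :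
    tens B (1 : Ell2 M →L[ℂ] Ell2 M) = lt M B := by
  apply op_ext
  rintro ⟨x, y⟩
  rw [tens_dl, dl_prod x y, lt_tv, one_apply_eq_self]

/-- The cube. -/
abbrev Y3 (I Λ : Type) : Type := (I × Λ) × ((I × Λ) × (I × Λ))

/-- the action of `Λ³` on the cube -/
def f3 (I Λ : Type) [Group Λ] : FS (Λ × (Λ × Λ)) (Y3 I Λ) (I × (I × I)) :=
  (FS.mat I Λ).prod ((FS.mat I Λ).prod (FS.mat I Λ))

/-- `α(x₁) ⊗ conj α(x₂) ⊗ α(x₃)` -/
noncomputable def Ax (α : Γ → (Ell2 (I × Λ) →L[ℂ] Ell2 (I × Λ))) (x : Γ × (Γ × Γ)) :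
    Ell2 (Y3 I Λ) →L[ℂ] Ell2 (Y3 I Λ) := tens (α x.1) (tens (bar (α x.2.1)) (α x.2.2))

/-- `α(g) ⊗ conj α(g) ⊗ α(g)` -/
noncomputable def A3' (α : Γ → (Ell2 (I × Λ) →L[ℂ] Ell2 (I × Λ))) (g : Γ) :
    Ell2 (Y3 I Λ) →L[ℂ] Ell2 (Y3 I Λ) := Ax α (g, (g, g))

variable {α : Γ → (Ell2 (I × Λ) →L[ℂ] Ell2 (I × Λ))}

theorem Ax_mul (hα : AF α) (x y : Γ × (Γ × Γ)) : Ax α (x * y) = Ax α x * Ax α y := by
  unfold Ax
  rw [Prod.fst_mul, Prod.snd_mul, Prod.fst_mul, Prod.snd_mul, hα.mul, hα.mul, hα.mul, bar_mul,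
    tens_mul, tens_mul]

theorem Ax_adj (hα : AF α) (x : Γ × (Γ × Γ)) : adjoint (Ax α x) = Ax α x⁻¹ := by
  unfold Ax
  rw [adjoint_tens, adjoint_tens, adjoint_bar, hα.adj, hα.adj, hα.adj]
  rfl

theorem Ax_eqv (hα : AF α) (x : Γ × (Γ × Γ)) : Eqv (f3 I Λ).R (f3 I Λ).R (Ax α x) :=
  eqv_tens _ _ (hα.comm _) (eqv_tens _ _ (eqv_bar _ (hα.comm _)) (hα.comm _))

theorem A3'_tgt (hα : AF α) : Tgt (f3 I Λ) (A3' α) where
  mul g h := Ax_mul hα (g, (g, g)) (h, (h, h))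
  adj g := Ax_adj hα (g, (g, g))
  comm g := Ax_eqv hα (g, (g, g))

theorem Ax_mul_one (hα : AF α) (x : Γ × (Γ × Γ)) : Ax α x * A3' α 1 = Ax α x := by
  have h : (((1 : Γ), ((1 : Γ), (1 : Γ))) : Γ × (Γ × Γ)) = 1 := rfl
  rw [A3', h, ← Ax_mul hα, mul_one]

theorem Ax_one_mul (hα : AF α) (x : Γ × (Γ × Γ)) : A3' α 1 * Ax α x = Ax α x := by
  have h : (((1 : Γ), ((1 : Γ), (1 : Γ))) : Γ × (Γ × Γ)) = 1 := rfl
  rw [A3', h, ← Ax_mul hα, one_mul]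

theorem tr_Ax (hα : AF α) (x : Γ × (Γ × Γ)) (hx : x ≠ 1) : (f3 I Λ).tr (Ax α x) = 0 := by
  unfold f3 Ax
  rw [tr_tens, tr_tens, tr_bar]
  obtain ⟨a, b, c⟩ := x
  by_cases ha : a = 1
  · by_cases hb : b = 1
    · have hc : c ≠ 1 := by
        rintro rfl
        apply hx
        rw [ha, hb]
        rfl
      rw [hα.tr0 c hc, mul_zero, mul_zero]
    · rw [hα.tr0 b hb, map_zero, zero_mul, mul_zero]
  · rw [hα.tr0 a ha, zero_mul]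

theorem tr_A3'_one (hα : AF α) : (f3 I Λ).tr (A3' α 1) = ((dm α ^ 3 : ℝ) : ℂ) := by
  unfold f3 A3' Ax
  rw [tr_tens, tr_tens, tr_bar]
  change (FS.mat I Λ).tr (α 1) * ((starRingEnd ℂ) ((FS.mat I Λ).tr (α 1)) *
    (FS.mat I Λ).tr (α 1)) = _
  rw [tr_p hα, Complex.conj_ofReal]
  push_cast
  ring

theorem tens_lt {M : Type} (B C : Ell2 (I × Λ) →L[ℂ] Ell2 (I × Λ)) (D : Ell2 M →L[ℂ] Ell2 M) :
    lt M B ∘L tens C D = tens (B * C) D := by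
  rw [← tens_one_right, tens_comp]
  rfl

theorem tens_lt' {M : Type} (B C : Ell2 (I × Λ) →L[ℂ] Ell2 (I × Λ)) (D : Ell2 M →L[ℂ] Ell2 M) :
    tens C D ∘L lt M B = tens (C * B) D := by
  rw [← tens_one_right, tens_comp]
  rfl

theorem tens_rt {X M : Type} (B : Ell2 M →L[ℂ] Ell2 M) (C : Ell2 X →L[ℂ] Ell2 X)
    (D : Ell2 M →L[ℂ] Ell2 M) : ampR X B ∘L tens C D = tens C (B * D) := by
  rw [← tens_one_left, tens_comp]
  rfl

theorem tens_rt' {X M : Type} (B : Ell2 M →L[ℂ] Ell2 M) (C : Ell2 X →L[ℂ] Ell2 X)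
    (D : Ell2 M →L[ℂ] Ell2 M) : tens C D ∘L ampR X B = tens C (D * B) := by
  rw [← tens_one_left, tens_comp]
  rfl

theorem pt_comm {M : Type} (u : I → Ell2 (I × Λ))
    {E : Ell2 ((I × Λ) × M) →L[ℂ] Ell2 ((I × Λ) × M)} {B : Ell2 M →L[ℂ] Ell2 M}
    (h : E ∘L ampR (I × Λ) B = ampR (I × Λ) B ∘L E) : pt u E ∘L B = B ∘L pt u E := by
  ext1 w
  rw [comp_apply, comp_apply, ← pt_right, ← pt_left, h]

theorem pt_l {M : Type} (u : I → Ell2 (I × Λ))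
    {E : Ell2 ((I × Λ) × M) →L[ℂ] Ell2 ((I × Λ) × M)} {B : Ell2 M →L[ℂ] Ell2 M}
    (h : ampR (I × Λ) B ∘L E = E) : B ∘L pt u E = pt u E := by
  ext1 w
  rw [comp_apply, ← pt_left, h]

theorem pt_r {M : Type} (u : I → Ell2 (I × Λ))
    {E : Ell2 ((I × Λ) × M) →L[ℂ] Ell2 ((I × Λ) × M)} {B : Ell2 M →L[ℂ] Ell2 M}
    (h : E ∘L ampR (I × Λ) B = E) : pt u E ∘L B = pt u E := by
  ext1 w
  rw [comp_apply, ← pt_right, h]

theorem f3_R1 (s : Λ) : (f3 I Λ).R (s, (1, 1)) =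
    lt ((I × Λ) × (I × Λ)) ((FS.mat I Λ).R s) := by
  unfold f3
  rw [FS.prod_R, FS.prod_R, map_one, tens_one, tens_one_right]

theorem f3_R2 (s : Λ) : (f3 I Λ).R (1, (s, 1)) =
    ampR (I × Λ) (lt (I × Λ) ((FS.mat I Λ).R s)) := by
  unfold f3
  rw [FS.prod_R, FS.prod_R, map_one, tens_one_right, tens_one_left]

theorem f3_R3 (s : Λ) : (f3 I Λ).R (1, (1, s)) =
    ampR (I × Λ) (ampR (I × Λ) ((FS.mat I Λ).R s)) := by
  unfold f3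
  rw [FS.prod_R, FS.prod_R, map_one, tens_one_left, tens_one_left]

theorem A3'_one_eq : A3' α 1 = tens (α 1) (tens (bar (α 1)) (α 1)) := rfl

theorem bb_one (hα : AF α) : bar (α 1) * bar (α 1) = bar (α 1) := by rw [← bar_mul, hα.pp]

theorem kl1 (hα : AF α) : lt ((I × Λ) × (I × Λ)) (α 1) ∘L A3' α 1 = A3' α 1 := by
  rw [A3'_one_eq, tens_lt, hα.pp]

theorem kr1 (hα : AF α) : A3' α 1 ∘L lt ((I × Λ) × (I × Λ)) (α 1) = A3' α 1 := by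
  rw [A3'_one_eq, tens_lt', hα.pp]

theorem kl2 (hα : AF α) :
    ampR (I × Λ) (lt (I × Λ) (bar (α 1))) ∘L A3' α 1 = A3' α 1 := by
  rw [A3'_one_eq, tens_rt]
  have e := tens_lt (M := I × Λ) (bar (α 1)) (bar (α 1)) (α 1)
  rw [bb_one hα] at e
  exact congrArg (tens (α 1)) e

theorem kr2 (hα : AF α) :
    A3' α 1 ∘L ampR (I × Λ) (lt (I × Λ) (bar (α 1))) = A3' α 1 := by
  rw [A3'_one_eq, tens_rt']
  have e := tens_lt' (M := I × Λ) (bar (α 1)) (bar (α 1)) (α 1)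
  rw [bb_one hα] at e
  exact congrArg (tens (α 1)) e

theorem kl3 (hα : AF α) :
    ampR (I × Λ) (ampR (I × Λ) (α 1)) ∘L A3' α 1 = A3' α 1 := by
  rw [A3'_one_eq, tens_rt]
  have e := tens_rt (X := I × Λ) (α 1) (bar (α 1)) (α 1)
  rw [hα.pp] at e
  exact congrArg (tens (α 1)) e

theorem kr3 (hα : AF α) :
    A3' α 1 ∘L ampR (I × Λ) (ampR (I × Λ) (α 1)) = A3' α 1 := by
  rw [A3'_one_eq, tens_rt']
  have e := tens_rt' (X := I × Λ) (α 1) (bar (α 1)) (α 1)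
  rw [hα.pp] at e
  exact congrArg (tens (α 1)) e

theorem absl {Z : Type} {A B E : Ell2 Z →L[ℂ] Ell2 Z} (h : A ∘L B = B) (h1 : B ∘L E = E) :
    A ∘L E = E := by
  rw [← h1, ← comp_assoc, h]

theorem absr {Z : Type} {A B E : Ell2 Z →L[ℂ] Ell2 Z} (h : B ∘L A = B) (h1 : E ∘L B = E) :
    E ∘L A = E := by
  rw [← h1, comp_assoc, h]

theorem f3_base (i j k : I) : (dl ((f3 I Λ).base (i, (j, k))) : Ell2 (Y3 I Λ)) =
    tv (dl (i, 1)) (tv (dl (j, 1)) (dl (k, 1))) := by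
  have h : (f3 I Λ).base (i, (j, k)) = ((i, (1 : Λ)), ((j, (1 : Λ)), (k, (1 : Λ)))) := rfl
  rw [h, dl_prod (i, (1 : Λ)) ((j, (1 : Λ)), (k, (1 : Λ))), dl_prod (j, (1 : Λ)) (k, (1 : Λ))]

theorem Ax_base (g₁ g₂ g₃ : Γ) (i j k : I) :
    Ax α (g₁, (g₂, g₃)) (dl ((f3 I Λ).base (i, (j, k)))) =
      tv (α g₁ (dl (i, 1))) (tv (bar (α g₂) (dl (j, 1))) (α g₃ (dl (k, 1)))) := by
  rw [f3_base]
  unfold Ax
  rw [tens_tv, tens_tv]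

theorem cube_sum (E : Ell2 (Y3 I Λ) →L[ℂ] Ell2 (Y3 I Λ)) (g₁ g₂ g₃ : Γ) :
    (∑ y : I × (I × I), ⟪Ax α (g₁, (g₂, g₃)) (dl ((f3 I Λ).base y)),
        E (dl ((f3 I Λ).base y))⟫_ℂ) = ∑ i : I, ∑ j : I, ∑ k : I,
        ⟪tv (α g₁ (dl (i, 1))) (tv (bar (α g₂) (dl (j, 1))) (α g₃ (dl (k, 1)))),
          E (tv (dl (i, 1)) (tv (dl (j, 1)) (dl (k, 1))))⟫_ℂ := by
  rw [Fintype.sum_prod_type]
  refine Finset.sum_congr rfl fun i _ => ?_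
  rw [Fintype.sum_prod_type]
  refine Finset.sum_congr rfl fun j _ => Finset.sum_congr rfl fun k _ => ?_
  rw [Ax_base, f3_base]

/-- iterated partial traces -/
theorem pt_sum (E : Ell2 (Y3 I Λ) →L[ℂ] Ell2 (Y3 I Λ)) (g₁ g₂ g₃ : Γ) :
    (∑ k : I, ⟪α g₃ (dl (k, 1)), pt (fun j => bar (α g₂) (dl (j, 1)))
      (pt (fun i => α g₁ (dl (i, 1))) E) (dl (k, 1))⟫_ℂ) =
      ∑ y : I × (I × I), ⟪Ax α (g₁, (g₂, g₃)) (dl ((f3 I Λ).base y)),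
        E (dl ((f3 I Λ).base y))⟫_ℂ := by
  rw [cube_sum, ← sum3]
  refine Finset.sum_congr rfl fun k _ => ?_
  rw [pt_inner]
  refine Finset.sum_congr rfl fun j _ => ?_
  rw [pt_inner]

/-- Uniqueness on the cube. -/
theorem cube_zero (hα : AF α) {E : Ell2 (Y3 I Λ) →L[ℂ] Ell2 (Y3 I Λ)}
    (hR : ∀ x, E ∘L (f3 I Λ).R x = (f3 I Λ).R x ∘L E) (h1 : A3' α 1 ∘L E = E)
    (h2 : E ∘L A3' α 1 = E)
    (h : ∀ x : Γ × (Γ × Γ), ∑ j : I × (I × I), ⟪Ax α x (dl ((f3 I Λ).base j)),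
      E (dl ((f3 I Λ).base j))⟫_ℂ = 0) : E = 0 := by
  have hl1 := absl (kl1 hα) h1
  have hr1 := absr (kr1 hα) h2
  have hl2 := absl (kl2 hα) h1
  have hr2 := absr (kr2 hα) h2
  have hl3 := absl (kl3 hα) h1
  have hr3 := absr (kr3 hα) h2
  have hR1 : ∀ s : Λ, E ∘L lt ((I × Λ) × (I × Λ)) ((FS.mat I Λ).R s) =
      lt ((I × Λ) × (I × Λ)) ((FS.mat I Λ).R s) ∘L E := by
    intro s
    rw [← f3_R1]
    exact hR _
  have hR2 : ∀ s : Λ, E ∘L ampR (I × Λ) (lt (I × Λ) ((FS.mat I Λ).R s)) =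
      ampR (I × Λ) (lt (I × Λ) ((FS.mat I Λ).R s)) ∘L E := by
    intro s
    rw [← f3_R2]
    exact hR _
  have hR3 : ∀ s : Λ, E ∘L ampR (I × Λ) (ampR (I × Λ) ((FS.mat I Λ).R s)) =
      ampR (I × Λ) (ampR (I × Λ) ((FS.mat I Λ).R s)) ∘L E := by
    intro s
    rw [← f3_R3]
    exact hR _
  refine pt_zero hα.total (E := E) hR1 hl1 hr1 fun g₁ => ?_
  refine pt_zero hα.total.bar (E := pt (fun i => α g₁ (dl (i, 1))) E)
    (fun s => pt_comm _ (hR2 s)) (pt_l _ hl2) (pt_r _ hr2) fun g₂ => ?_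
  refine hα.total _ (fun s v => ?_) (pt_l _ (pt_l _ hl3)) (pt_r _ (pt_r _ hr3)) fun g₃ => ?_
  · exact congrArg (fun L : Ell2 (I × Λ) →L[ℂ] Ell2 (I × Λ) => L v)
      (pt_comm (fun i => bar (α g₂) (dl (i, 1))) (pt_comm (fun i => α g₁ (dl (i, 1))) (hR3 s)))
  · rw [pt_sum]
    exact h (g₁, (g₂, g₃))

end cube

end Vale.Agent.P092.H103
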