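import Vale.Agent.P092.H103.Gam2

/-!
The commutant on the cube is trivial, and the trace of the projection is one.
-/

set_option linter.all false

open scoped InnerProductSpace
open Filter Topology ContinuousLinearMap
open Vale.Agent.P092.H160

namespace Vale.Agent.P092.H103

theorem orth_inf {H ι : Type} [NormedAddCommGroup H] [InnerProductSpace ℂ H] {u : ι → H} {c : ℝ}
    (hc : 0 < c) (h1 : ∀ i, ‖u i‖ ^ 2 = c) (h2 : ∀ i j, i ≠ j → ⟪u i, u j⟫_ℂ = 0) (w : H)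
    {s : Set ι} (hs : s.Infinite) {b : ℂ} (hb : ∀ i ∈ s, ⟪u i, w⟫_ℂ = b) : b = 0 := by
  set r : ℝ := (Real.sqrt c)⁻¹ with hr
  have hsq : Real.sqrt c ≠ 0 := (Real.sqrt_pos.mpr hc).ne'
  have hr0 : r ≠ 0 := inv_ne_zero hsq
  have hon : Orthonormal ℂ (fun i => (r : ℂ) • u i) := by
    constructor
    · intro i
      have h3 : ‖u i‖ = Real.sqrt c := by rw [← h1 i, Real.sqrt_sq (norm_nonneg _)]
      rw [norm_smul, Complex.norm_real, Real.norm_of_nonneg (by positivity), h3, hr,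
        inv_mul_cancel₀ hsq]
    · intro i j hij
      change ⟪(r : ℂ) • u i, (r : ℂ) • u j⟫_ℂ = 0
      rw [inner_smul_left, inner_smul_right, h2 i j hij, mul_zero, mul_zero]
  have h4 := (hon.inner_products_summable (x := w)).tendsto_cofinite_zero
  by_contra hb0
  have h5 : 0 < ‖(r : ℂ) * b‖ ^ 2 := by
    have : (r : ℂ) * b ≠ 0 := mul_ne_zero (by exact_mod_cast hr0) hb0
    have := norm_pos_iff.mpr this
    positivity
  have h6 := h4.eventually (gt_mem_nhds h5)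
  rw [eventually_cofinite] at h6
  refine hs (h6.subset ?_)
  intro i hi
  rw [Set.mem_setOf_eq, not_lt]
  rw [inner_smul_left, hb i hi, Complex.conj_ofReal]

section scal

variable {Γ Λ I : Type} [Group Γ] [Group Λ] [Fintype I]
variable {α : Γ → (Ell2 (I × Λ) →L[ℂ] Ell2 (I × Λ))}

/-- coefficients on the cube -/
noncomputable def Cx (α : Γ → (Ell2 (I × Λ) →L[ℂ] Ell2 (I × Λ)))
    (E : Ell2 (Y3 I Λ) →L[ℂ] Ell2 (Y3 I Λ)) (x : Γ × (Γ × Γ)) : ℂ :=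
  ∑ j : I × (I × I), ⟪Ax α x (dl ((f3 I Λ).base j)), E (dl ((f3 I Λ).base j))⟫_ℂ

theorem Cx_tr (hα : AF α) (E : Ell2 (Y3 I Λ) →L[ℂ] Ell2 (Y3 I Λ)) (x : Γ × (Γ × Γ)) :
    Cx α E x = (f3 I Λ).tr (Ax α x⁻¹ ∘L E) := by
  unfold Cx FS.tr
  refine Finset.sum_congr rfl fun j _ => ?_
  rw [comp_apply, ← Ax_adj hα, adjoint_inner_right]

/-- the diagonal -/
def dg3 : Γ →* Γ × (Γ × Γ) := dgl (dgl (MonoidHom.id Γ))

theorem dg3_apply (g : Γ) : dg3 g = (g, (g, g)) := rfl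

theorem Ax_dg3 (g : Γ) : Ax α (dg3 g) = A3' α g := rfl

theorem Cx_conj (hα : AF α) {E : Ell2 (Y3 I Λ) →L[ℂ] Ell2 (Y3 I Λ)}
    (hE : Eqv (f3 I Λ).R (f3 I Λ).R E) (hc : ∀ g, A3' α g ∘L E = E ∘L A3' α g) (g : Γ)
    (x : Γ × (Γ × Γ)) : Cx α E (dg3 g * x * (dg3 g)⁻¹) = Cx α E x := by
  rw [Cx_tr hα, Cx_tr hα]
  have e : (dg3 g * x * (dg3 g)⁻¹)⁻¹ = dg3 g * (x⁻¹ * dg3 g⁻¹) := by
    rw [map_inv]; group
  rw [e, Ax_mul hα, Ax_mul hα, Ax_dg3, Ax_dg3]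
  have h1 : (A3' α g * (Ax α x⁻¹ * A3' α g⁻¹)) ∘L E =
      A3' α g ∘L (Ax α x⁻¹ ∘L (A3' α g⁻¹ ∘L E)) := rfl
  have h0 : (f3 I Λ).tr (A3' α g ∘L (Ax α x⁻¹ ∘L (A3' α g⁻¹ ∘L E))) =
      (f3 I Λ).tr ((Ax α x⁻¹ ∘L (A3' α g⁻¹ ∘L E)) ∘L A3' α g) :=
    (f3 I Λ).tr_comm (f3 I Λ) ((Ax_eqv hα _).comp (((A3'_tgt hα).comm _).comp hE))
      ((A3'_tgt hα).comm _)
  rw [h1, h0]
  have h2 : (Ax α x⁻¹ ∘L (A3' α g⁻¹ ∘L E)) ∘L A3' α g =
      (Ax α x⁻¹ * (A3' α g⁻¹ * A3' α g)) ∘L E := by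
    have h3 : (Ax α x⁻¹ ∘L (A3' α g⁻¹ ∘L E)) ∘L A3' α g =
      Ax α x⁻¹ ∘L (A3' α g⁻¹ ∘L (E ∘L A3' α g)) := rfl
    rw [h3, ← hc]
    rfl
  rw [h2]
  congr 2
  have h4 : A3' α g⁻¹ * A3' α g = A3' α 1 := by
    rw [← (A3'_tgt hα).mul, inv_mul_cancel]
  rw [h4, Ax_mul_one hα]

theorem Cx_vecs (E : Ell2 (Y3 I Λ) →L[ℂ] Ell2 (Y3 I Λ)) (x : Γ × (Γ × Γ)) :
    Cx α E x = ⟪vecs (f3 I Λ) (Ax α x), vecs (f3 I Λ) E⟫_ℂ := (vecs_inner _ _ _).symm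

theorem vecs_Ax (hα : AF α) (x y : Γ × (Γ × Γ)) :
    ⟪vecs (f3 I Λ) (Ax α x), vecs (f3 I Λ) (Ax α y)⟫_ℂ = (f3 I Λ).tr (Ax α (x⁻¹ * y)) := by
  rw [← Cx_vecs, Cx_tr hα, Ax_mul hα]
  rfl

theorem Cx_zero (hα : AF α) (hΓ : ∀ s : Γ, s ≠ 1 → Set.Infinite {y : Γ | ∃ h, y = h * s * h⁻¹})
    {E : Ell2 (Y3 I Λ) →L[ℂ] Ell2 (Y3 I Λ)}
    (hE : Eqv (f3 I Λ).R (f3 I Λ).R E) (hc : ∀ g, A3' α g ∘L E = E ∘L A3' α g)
    {x : Γ × (Γ × Γ)} (hx : x ≠ 1) : Cx α E x = 0 := by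
  have hicc := dgl_icc hΓ (ι' := dgl (MonoidHom.id Γ)) (dgl_icc hΓ (ι' := MonoidHom.id Γ) hΓ)
  refine orth_inf (u := fun x => vecs (f3 I Λ) (Ax α x)) (c := dm α ^ 3)
    (pow_pos (dm_pos hα) 3) (fun i => ?_) (fun i j hij => ?_) (vecs (f3 I Λ) E) (hicc x hx)
    (b := Cx α E x) ?_
  · have h1 := vecs_Ax hα i i
    rw [inv_mul_cancel, re_inner_self] at h1
    have h2 : (Ax α (1 : Γ × (Γ × Γ))) = A3' α 1 := rfl
    rw [h2, tr_A3'_one hα] at h1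
    exact_mod_cast h1
  · rw [vecs_Ax hα]
    exact tr_Ax hα _ (fun h => hij (inv_mul_eq_one.mp h))
  · rintro _ ⟨s, rfl⟩
    rw [← Cx_vecs]
    exact Cx_conj hα hE hc s x

/-- The commutant on the cube. -/
theorem scalar_of_comm (hα : AF α)
    (hΓ : ∀ s : Γ, s ≠ 1 → Set.Infinite {y : Γ | ∃ h, y = h * s * h⁻¹})
    {E : Ell2 (Y3 I Λ) →L[ℂ] Ell2 (Y3 I Λ)}
    (hE : Eqv (f3 I Λ).R (f3 I Λ).R E) (hc : ∀ g, A3' α g ∘L E = E ∘L A3' α g)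
    (h1 : A3' α 1 ∘L E = E) : ∃ κ : ℂ, E = κ • A3' α 1 := by
  have h2 : E ∘L A3' α 1 = E := by rw [← hc, h1]
  have hAA : A3' α 1 ∘L A3' α 1 = A3' α 1 := by
    have := (A3'_tgt hα).mul 1 1
    rw [mul_one] at this
    exact this.symm
  have hd : ((dm α ^ 3 : ℝ) : ℂ) ≠ 0 := by exact_mod_cast (pow_pos (dm_pos hα) 3).ne'
  set κ : ℂ := Cx α E 1 / ((dm α ^ 3 : ℝ) : ℂ) with hκ
  set D : Ell2 (Y3 I Λ) →L[ℂ] Ell2 (Y3 I Λ) := E - κ • A3' α 1 with hD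
  have hDe : Eqv (f3 I Λ).R (f3 I Λ).R D := hE.sub (((A3'_tgt hα).comm 1).smul κ)
  have hDC : ∀ x, Cx α D x = Cx α E x - κ * Cx α (A3' α 1) x := by
    intro x
    unfold Cx
    rw [Finset.mul_sum, ← Finset.sum_sub_distrib]
    refine Finset.sum_congr rfl fun j _ => ?_
    rw [hD, ContinuousLinearMap.sub_apply, ContinuousLinearMap.smul_apply, inner_sub_right,
      inner_smul_right]
  have hA1 : Cx α (A3' α 1) (1 : Γ × (Γ × Γ)) = ((dm α ^ 3 : ℝ) : ℂ) := by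
    rw [Cx_tr hα, ← tr_A3'_one hα, inv_one]
    congr 1
  have h0 : D = 0 := by
    refine cube_zero hα ?_ ?_ ?_ ?_
    · intro x
      ext1 v
      exact hDe x v
    · rw [hD, ContinuousLinearMap.comp_sub, ContinuousLinearMap.comp_smul, h1, hAA]
    · rw [hD, ContinuousLinearMap.sub_comp, ContinuousLinearMap.smul_comp, h2, hAA]
    · intro x
      change Cx α D x = 0
      rw [hDC]
      by_cases hx : x = 1
      · rw [hx, hA1, hκ, div_mul_cancel₀ _ hd, sub_self]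
      · rw [Cx_zero hα hΓ hE hc hx, Cx_zero hα hΓ ((A3'_tgt hα).comm 1) (fun g => ?_) hx, mul_zero,
          sub_zero]
        rw [← ContinuousLinearMap.mul_def, ← ContinuousLinearMap.mul_def, ← (A3'_tgt hα).mul,
          ← (A3'_tgt hα).mul, mul_one, one_mul]
  exact ⟨κ, sub_eq_zero.mp h0⟩

/-- A nonzero intertwiner into the cube forces the trace of the projection to be one. -/
theorem dm_one (hα : AF α) (hΓ : ∀ s : Γ, s ≠ 1 → Set.Infinite {y : Γ | ∃ h, y = h * s * h⁻¹})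
    (hΛ : ∀ s : Λ, s ≠ 1 → Set.Infinite {y : Λ | ∃ h, y = h * s * h⁻¹})
    {S : Ell2 (I × Λ) →L[ℂ] Ell2 (Y3 I Λ)}
    (hS : It α (f3 I Λ) (dgl (dgl (MonoidHom.id Λ))) (A3' α) S) (hS0 : S ≠ 0) : dm α = 1 := by
  obtain ⟨E, hE1, hE2, hE3, hE4, hE5, -, hE7⟩ := exists_E hα (A3'_tgt hα) hΛ
    (dgl_icc hΛ (ι' := MonoidHom.id Λ) hΛ) hS hS0
  obtain ⟨κ, hκ⟩ := scalar_of_comm hα hΓ hE1 (fun g => by ext1 v; exact hE2 g v)
    (by ext1 v; exact hE5 v)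
  have hd := dm_pos hα
  have htr : (dm α : ℂ) = κ * ((dm α ^ 3 : ℝ) : ℂ) := by
    rw [← hE7, ← tr_A3'_one hα, hκ]
    unfold FS.tr
    rw [Finset.mul_sum]
    refine Finset.sum_congr rfl fun j _ => ?_
    rw [ContinuousLinearMap.smul_apply, inner_smul_right]
  have hκ0 : κ ≠ 0 := by
    intro h
    rw [h, zero_mul] at htr
    exact hd.ne' (by exact_mod_cast htr)
  have hA0 : A3' α 1 ≠ 0 := by
    intro h
    have h1 := tr_A3'_one hα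
    rw [h] at h1
    have h2 : (f3 I Λ).tr (0 : Ell2 (Y3 I Λ) →L[ℂ] Ell2 (Y3 I Λ)) = 0 := by
      unfold FS.tr
      exact Finset.sum_eq_zero fun j _ => by
        rw [ContinuousLinearMap.zero_apply, inner_zero_right]
    rw [h2] at h1
    exact (pow_pos hd 3).ne' (by exact_mod_cast h1.symm)
  have hAA : ∀ v, A3' α 1 (A3' α 1 v) = A3' α 1 v := by
    intro v
    have := (A3'_tgt hα).mul 1 1
    rw [mul_one] at this
    exact (congrArg (fun L : Ell2 (Y3 I Λ) →L[ℂ] Ell2 (Y3 I Λ) => L v) this).symm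
  have hκ1 : κ = 1 := by
    obtain ⟨v, hv⟩ : ∃ v, A3' α 1 v ≠ 0 := by
      by_contra h
      push Not at h
      exact hA0 (ContinuousLinearMap.ext h)
    have h3 := hE3 v
    rw [hκ, ContinuousLinearMap.smul_apply, ContinuousLinearMap.smul_apply, map_smul, hAA] at h3
    have h4 : (κ * κ - κ) • A3' α 1 v = 0 := by
      rw [sub_smul, mul_smul, h3, sub_self]
    have h5 := (smul_eq_zero.mp h4).resolve_right hv
    have h6 : κ * (κ - 1) = 0 := by rw [mul_sub, mul_one, h5]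
    exact sub_eq_zero.mp ((mul_eq_zero.mp h6).resolve_left hκ0)
  rw [hκ1, one_mul] at htr
  have h7 : dm α = dm α ^ 3 := by exact_mod_cast htr
  have h8 : (dm α - 1) * (dm α * (dm α + 1)) = 0 := by linear_combination -h7
  rcases mul_eq_zero.mp h8 with h | h
  · linarith
  · exfalso
    have : 0 < dm α * (dm α + 1) := by positivity
    exact this.ne' h

end scal

end Vale.Agent.P092.H103
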