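import Vale.Agent.P092.H103.IndFix

/-!
P092: equivariant functions on a totally disconnected group have nonzero smooth averages.
-/

set_option linter.all false

open scoped InnerProductSpace ENNReal Pointwise
open Set Filter Topology MeasureTheory ContinuousLinearMap

namespace Vale.Agent.P092.H103

open Vale.Agent.P092.H790 Vale.Agent.P092.H85

/-- The compact open subgroups form a basis of neighbourhoods of `1`. -/
def CptOpenBasis (G : Type) [Group G] [TopologicalSpace G] : Prop :=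
  ∀ V ∈ 𝓝 (1 : G), ∃ L : Subgroup G, IsOpen (L : Set G) ∧ IsCompact (L : Set G) ∧ (L : Set G) ⊆ V

section avg

variable {G : Type} [Group G] [TopologicalSpace G] [IsTopologicalGroup G]
  [LocallyCompactSpace G] [SecondCountableTopology G] [T2Space G] [MeasurableSpace G]
  [BorelSpace G]
  {K : Type} [NormedAddCommGroup K] [InnerProductSpace ℂ K] [CompleteSpace K]

/-- left cosets of the compact open subgroups contained in `V` -/
def cosets (V : Set G) : Set (Set G) :=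
  {s | ∃ (L : Subgroup G) (b : G), IsOpen (L : Set G) ∧ IsCompact (L : Set G) ∧ (L : Set G) ⊆ V ∧
    s = b • (L : Set G)}

theorem mem_cos {L : Subgroup G} {b x : G} : x ∈ b • (L : Set G) ↔ b⁻¹ * x ∈ L := by
  rw [mem_smul_set_iff_inv_smul_mem]
  exact Iff.rfl

theorem cos_eq {L : Subgroup G} {b x : G} (h : x ∈ b • (L : Set G)) :
    b • (L : Set G) = x • (L : Set G) := by
  rw [mem_cos] at h
  ext y
  rw [mem_cos, mem_cos]
  constructor
  · intro hy
    have := L.mul_mem (L.inv_mem h) hy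
    have e : (b⁻¹ * x)⁻¹ * (b⁻¹ * y) = x⁻¹ * y := by group
    rwa [e] at this
  · intro hy
    have := L.mul_mem h hy
    have e : (b⁻¹ * x) * (x⁻¹ * y) = b⁻¹ * y := by group
    rwa [e] at this

theorem cosets_pi (V : Set G) : IsPiSystem (cosets V) := by
  rintro _ ⟨L, b, h1, h2, h3, rfl⟩ _ ⟨L', b', h1', h2', h3', rfl⟩ ⟨x, hx, hx'⟩
  refine ⟨L ⊓ L', x, ?_, ?_, ?_, ?_⟩
  · rw [Subgroup.coe_inf]; exact h1.inter h1'
  · rw [Subgroup.coe_inf]; exact h2.inter h2'
  · rw [Subgroup.coe_inf]; exact inter_subset_left.trans h3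
  · rw [cos_eq hx, cos_eq hx']
    ext y
    rw [mem_inter_iff, mem_cos, mem_cos, mem_cos]
    exact Subgroup.mem_inf.symm

theorem isOpen_cos {L : Subgroup G} (h : IsOpen (L : Set G)) (b : G) :
    IsOpen (b • (L : Set G)) := h.smul b

theorem isCompact_cos {L : Subgroup G} (h : IsCompact (L : Set G)) (b : G) :
    IsCompact (b • (L : Set G)) := h.smul b

theorem cosets_basis (hG : CptOpenBasis G) {V : Set G} (hV : V ∈ 𝓝 (1 : G)) :
    TopologicalSpace.IsTopologicalBasis (cosets V) := by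
  refine TopologicalSpace.isTopologicalBasis_of_isOpen_of_nhds ?_ ?_
  · rintro _ ⟨L, b, h1, h2, h3, rfl⟩
    exact isOpen_cos h1 b
  · intro a u ha hu
    have h1 : (fun x => a * x) ⁻¹' u ∈ 𝓝 (1 : G) := by
      refine (continuous_const_mul a).continuousAt.preimage_mem_nhds ?_
      rw [mul_one]
      exact hu.mem_nhds ha
    obtain ⟨L, h2, h3, h4⟩ := hG _ (inter_mem h1 hV)
    refine ⟨a • (L : Set G), ⟨L, a, h2, h3, h4.trans inter_subset_right, rfl⟩, ?_, ?_⟩
    · rw [mem_cos, inv_mul_cancel]; exact L.one_mem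
    · intro y hy
      rw [mem_cos] at hy
      have := (h4 hy).1
      rw [mem_preimage, mul_inv_cancel_left] at this
      exact this

theorem exists_avg (hG : CptOpenBasis G) {V : Set G} (hV : V ∈ 𝓝 (1 : G)) {ψ : G → K} {R : ℝ}
    (hψ : StronglyMeasurable ψ) (hR : ∀ h, ‖ψ h‖ ≤ R) {μ : Measure G} [μ.IsOpenPosMeasure]
    [IsFiniteMeasureOnCompacts μ] (h0 : ¬ (ψ =ᵐ[μ] 0)) :
    ∃ (L : Subgroup G) (b : G), IsOpen (L : Set G) ∧ IsCompact (L : Set G) ∧ (L : Set G) ⊆ V ∧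
      ∫ h in b • (L : Set G), ψ h ∂μ ≠ 0 := by
  by_contra hcon
  push Not at hcon
  apply h0
  obtain ⟨L₀, hL1, hL2, hL3⟩ := hG V hV
  have hloc : ∀ b : G, ∀ᵐ h ∂(μ.restrict (b • (L₀ : Set G))), ψ h = 0 := by
    intro b
    obtain ⟨B, hB⟩ : ∃ B : Set G, B = b • (L₀ : Set G) := ⟨_, rfl⟩
    have hBm : MeasurableSet B := by rw [hB]; exact (isOpen_cos hL1 b).measurableSet
    have hBt : μ B ≠ ∞ := by rw [hB]; exact (isCompact_cos hL2 b).measure_lt_top.ne
    rw [← hB]
    haveI : IsFiniteMeasure (μ.restrict B) := ⟨by rw [Measure.restrict_apply_univ]; exact hBt.lt_top⟩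
    have hint : Integrable ψ (μ.restrict B) :=
      Integrable.of_bound hψ.aestronglyMeasurable R (Eventually.of_forall hR)
    have key : ∀ s, MeasurableSet s → ∫ h in s, ψ h ∂(μ.restrict B) = 0 := by
      have hgen : ‹MeasurableSpace G› = MeasurableSpace.generateFrom (cosets V) := by
        rw [BorelSpace.measurable_eq (α := G)]
        exact (cosets_basis hG hV).borel_eq_generateFrom
      intro s hs
      induction s, hs using MeasurableSpace.induction_on_inter hgen (cosets_pi V) with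
      | empty => simp
      | basic t ht =>
        obtain ⟨L, c, h1, h2, h3, rfl⟩ := ht
        rw [Measure.restrict_restrict (isOpen_cos h1 c).measurableSet]
        rcases (c • (L : Set G) ∩ B).eq_empty_or_nonempty with he | hne
        · rw [he]; simp
        · have h5 := cosets_pi V (c • (L : Set G)) ⟨L, c, h1, h2, h3, rfl⟩ B
            ⟨L₀, b, hL1, hL2, hL3, hB⟩ hne
          obtain ⟨L', c', h1', h2', h3', h4'⟩ := h5
          rw [h4']
          exact hcon L' c' h1' h2' h3'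
      | compl t ht ih =>
        have h5 := integral_add_compl ht hint
        rw [ih, zero_add] at h5
        rw [h5, hB]
        exact hcon L₀ b hL1 hL2 hL3
      | iUnion f hd hfm ih =>
        rw [integral_iUnion hfm hd hint.integrableOn]
        simp [ih]
    exact Integrable.ae_eq_zero_of_forall_setIntegral_eq_zero hint fun s hs _ => key s hs
  obtain ⟨s, hs, hsu⟩ := TopologicalSpace.countable_cover_nhds
    (f := fun x : G => x • (L₀ : Set G)) (fun x => (isOpen_cos hL1 x).mem_nhds (by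
      rw [mem_cos, inv_mul_cancel]; exact L₀.one_mem))
  have h5 : ∀ᵐ h ∂μ, ∀ b ∈ s, h ∈ b • (L₀ : Set G) → ψ h = 0 := by
    rw [ae_ball_iff hs]
    intro b hb
    exact (ae_restrict_iff' (isOpen_cos hL1 b).measurableSet).1 (hloc b)
  filter_upwards [h5] with h hh
  obtain ⟨b, hb, hb2⟩ := mem_iUnion₂.1 (hsu ▸ mem_univ h : h ∈ ⋃ x ∈ s, x • (L₀ : Set G))
  exact hh b hb hb2

/-- A bounded equivariant function on a totally disconnected group gives fixed vectors. -/
theorem fix_of_fun (hG : CptOpenBasis G) {V : Set G} (hV : V ∈ 𝓝 (1 : G)) {Λ : Type} [Group Λ]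
    {p : Λ → G} {π : Λ →* (K →L[ℂ] K)} {ψ : G → K} {R : ℝ} (hψ : StronglyMeasurable ψ)
    (hR : ∀ h, ‖ψ h‖ ≤ R) (h0 : ¬ (ψ =ᵐ[(Measure.haar : Measure G)] 0))
    (he : ∀ γ : Λ, ∀ᵐ h ∂(Measure.haar : Measure G), ψ (h * p γ) = π γ⁻¹ (ψ h)) :
    ∃ L : Subgroup G, IsOpen (L : Set G) ∧ IsCompact (L : Set G) ∧ (L : Set G) ⊆ V ∧
      ∃ w : K, w ≠ 0 ∧ ∀ γ : Λ, p γ ∈ L → π γ w = w := by
  obtain ⟨μ, hμ⟩ : ∃ μ : Measure G, μ = (Measure.haar : Measure G).inv := ⟨_, rfl⟩
  haveI hri : μ.IsMulRightInvariant := by rw [hμ]; infer_instance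
  haveI hfc : IsFiniteMeasureOnCompacts μ := by
    rw [hμ]; infer_instance
  haveI hop : μ.IsOpenPosMeasure := by
    rw [hμ]; infer_instance
  have hnull : ∀ {P : G → Prop}, (∀ᵐ h ∂(Measure.haar : Measure G), P h) ↔ ∀ᵐ h ∂μ, P h := by
    intro P
    rw [ae_iff, ae_iff, hμ, Measure.inv_apply, measure_inv_null]
  have h0' : ¬ (ψ =ᵐ[μ] 0) := fun h => h0 (hnull.2 h)
  obtain ⟨L, b, h1, h2, h3, h4⟩ := exists_avg hG hV hψ hR h0'
  obtain ⟨B, hB⟩ : ∃ B : Set G, B = b • (L : Set G) := ⟨_, rfl⟩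
  have hBm : MeasurableSet B := by rw [hB]; exact (isOpen_cos h1 b).measurableSet
  have hBt : μ B ≠ ∞ := by rw [hB]; exact (isCompact_cos h2 b).measure_lt_top.ne
  haveI : IsFiniteMeasure (μ.restrict B) := ⟨by rw [Measure.restrict_apply_univ]; exact hBt.lt_top⟩
  have hint : Integrable ψ (μ.restrict B) :=
    Integrable.of_bound hψ.aestronglyMeasurable R (Eventually.of_forall hR)
  rw [← hB] at h4
  refine ⟨L, h1, h2, h3, _, h4, fun γ hγ => ?_⟩
  have key : ∀ γ : Λ, p γ ∈ L → π γ⁻¹ (∫ h in B, ψ h ∂μ) = ∫ h in B, ψ h ∂μ := by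
    intro γ hγ
    have e1 : π γ⁻¹ (∫ h in B, ψ h ∂μ) = ∫ h in B, ψ (h * p γ) ∂μ := by
      rw [← ContinuousLinearMap.integral_comp_comm _ hint]
      refine integral_congr_ae ?_
      have h5 : ∀ᵐ h ∂μ, ψ (h * p γ) = π γ⁻¹ (ψ h) := hnull.1 (he γ)
      filter_upwards [ae_restrict_of_ae h5] with h hh
      exact hh.symm
    rw [e1, ← integral_indicator hBm, ← integral_indicator hBm,
      ← integral_mul_right_eq_self (μ := μ) (B.indicator ψ) (p γ)]
    congr 1
    funext h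
    have h6 : h * p γ ∈ B ↔ h ∈ B := by
      rw [hB, mem_cos, mem_cos, ← mul_assoc]
      exact L.mul_mem_cancel_right hγ
    by_cases hh : h ∈ B
    · rw [Set.indicator_of_mem hh, Set.indicator_of_mem (h6.2 hh)]
    · rw [Set.indicator_of_notMem hh, Set.indicator_of_notMem (fun h7 => hh (h6.1 h7))]
  have h8 := congrArg (π γ) (key γ hγ)
  have h9 : π γ (π γ⁻¹ (∫ h in B, ψ h ∂μ)) = ∫ h in B, ψ h ∂μ := by
    have : (π γ * π γ⁻¹) (∫ h in B, ψ h ∂μ) = ∫ h in B, ψ h ∂μ := by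
      rw [← map_mul, mul_inv_cancel, map_one]; rfl
    exact this
  rw [h9] at h8
  exact h8.symm

end avg

section fixtd

variable {G₁ G₂ : Type} [Group G₁] [TopologicalSpace G₁] [IsTopologicalGroup G₁]
  [LocallyCompactSpace G₁] [SecondCountableTopology G₁] [T2Space G₁] [MeasurableSpace G₁]
  [BorelSpace G₁] [Group G₂] [TopologicalSpace G₂] [IsTopologicalGroup G₂]
  [LocallyCompactSpace G₂] [SecondCountableTopology G₂] [T2Space G₂] [MeasurableSpace G₂]
  [BorelSpace G₂]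
  {Λ : Subgroup (G₁ × G₂)} [DiscreteTopology Λ] [MeasurableSpace ((G₁ × G₂) ⧸ Λ)]
  [BorelSpace ((G₁ × G₂) ⧸ Λ)] {ν : Measure ((G₁ × G₂) ⧸ Λ)} [IsProbabilityMeasure ν]
  (hν : ∀ g : G₁ × G₂, ν.map (fun x => g • x) = ν)
  {K : Type} [NormedAddCommGroup K] [InnerProductSpace ℂ K] [CompleteSpace K]
  {π : Λ →* (K →L[ℂ] K)} (hπ : ∀ g, adjoint (π g) = π g⁻¹) [Countable Λ]

include hπ in
/-- **Fixed vectors.**  If the representation induced to `G₁ × G₂` has a nonzero vector fixed by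
`1 × G₂` and `G₁` has a basis of compact open subgroups, then `{γ ∈ Λ : γ₁ ∈ L}` has a nonzero
fixed vector for arbitrarily small compact open subgroups `L`. -/
theorem ind_fix_td (hG : CptOpenBasis G₁) {V : Set G₁} (hV : V ∈ 𝓝 (1 : G₁)) (η : Lp K 2 ν)
    (hη : ∀ g₂ : G₂, iro hν π ((1 : G₁), g₂) η = η) (h0 : η ≠ 0) :
    ∃ L : Subgroup G₁, IsOpen (L : Set G₁) ∧ IsCompact (L : Set G₁) ∧ (L : Set G₁) ⊆ V ∧
      ∃ w : K, w ≠ 0 ∧ ∀ γ : Λ, (γ : G₁ × G₂).1 ∈ L → π γ w = w := by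
  obtain ⟨ψ, R, h1, h2, h3, h4⟩ := ind_fix hν hπ η hη h0
  exact fix_of_fun hG hV (p := fun γ : Λ => (γ : G₁ × G₂).1) h1 h2 h3 h4

end fixtd

end Vale.Agent.P092.H103
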