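import Vale.Agent.P092.H103.IndFix2

/-!
P092: vectors of the induced representation fixed by one factor (version for a group which is a
product up to an isomorphism, with values in an invariant closed convex set).
-/

set_option linter.all false

open scoped InnerProductSpace ENNReal
open Set Filter Topology MeasureTheory ContinuousLinearMap

namespace Vale.Agent.P092.H103

open Vale.Agent.P092.H790 Vale.Agent.P092.H85

section fixe

variable {G₁ G₂ : Type} [Group G₁] [TopologicalSpace G₁] [IsTopologicalGroup G₁]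
  [LocallyCompactSpace G₁] [SecondCountableTopology G₁] [T2Space G₁] [MeasurableSpace G₁]
  [BorelSpace G₁] [Group G₂] [TopologicalSpace G₂] [IsTopologicalGroup G₂]
  [LocallyCompactSpace G₂] [SecondCountableTopology G₂] [T2Space G₂] [MeasurableSpace G₂]
  [BorelSpace G₂]
  {E : Type} [Group E] [TopologicalSpace E] [IsTopologicalGroup E] [LocallyCompactSpace E]
  [SecondCountableTopology E] [T2Space E] [MeasurableSpace E] [BorelSpace E]
  {Λ : Subgroup E} [DiscreteTopology Λ] [MeasurableSpace (E ⧸ Λ)]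
  [BorelSpace (E ⧸ Λ)] {ν : Measure (E ⧸ Λ)} [IsProbabilityMeasure ν]
  (hν : ∀ g : E, ν.map (fun x => g • x) = ν)
  {K : Type} [NormedAddCommGroup K] [InnerProductSpace ℂ K] [CompleteSpace K]
  {π : Λ →* (K →L[ℂ] K)} (hπ : ∀ g, adjoint (π g) = π g⁻¹) [Countable Λ]

theorem eq_meas_e {f : E ⧸ Λ → K} (hfm : StronglyMeasurable f) :
    MeasurableSet {p : E × (E ⧸ Λ) | f (p.1 • p.2) = π (coc Λ p.1 p.2) (f p.2)} := by
  haveI hcl : IsClosed (Λ : Set E) := Subgroup.isClosed_of_discrete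
  have hsm : Measurable fun p : E × (E ⧸ Λ) => p.1 • p.2 := continuous_smul.measurable
  have s1 : StronglyMeasurable fun p : E × (E ⧸ Λ) => f (p.1 • p.2) := hfm.comp_measurable hsm
  have s2 : ∀ v : Λ, StronglyMeasurable fun p : E × (E ⧸ Λ) => π v (f p.2) :=
    fun v => (π v).continuous.comp_stronglyMeasurable (hfm.comp_measurable measurable_snd)
  have s3 : StronglyMeasurable fun p : E × (E ⧸ Λ) => π (coc Λ p.1 p.2) (f p.2) := by
    borelize K
    exact sm_glue (c := fun p : E × (E ⧸ Λ) => coc Λ p.1 p.2)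
      (F := fun v p => π v (f p.2)) (fun v => coc_meas2 v) s2
  exact StronglyMeasurable.measurableSet_eq_fun s1 s3

include hπ in
/-- A vector of the induced representation fixed by the second factor is given by a bounded
function on the first factor, equivariant for the right translations by `Λ`. -/
theorem ind_fix_e (e : G₁ × G₂ ≃* E) (he : Continuous e) (η : Lp K 2 ν)
    (hη : ∀ g₂ : G₂, iro hν π (e ((1 : G₁), g₂)) η = η) (h0 : η ≠ 0)
    {𝒞 : Set K} (hC : IsClosed 𝒞) (hC2 : Convex ℝ 𝒞) (hC0 : (0 : K) ∈ 𝒞)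
    (hCπ : ∀ v, ∀ w ∈ 𝒞, π v w ∈ 𝒞) (hηC : ∀ᵐ x ∂ν, η x ∈ 𝒞) :
    ∃ (ψ : G₁ → K) (R : ℝ), StronglyMeasurable ψ ∧ (∀ h, ‖ψ h‖ ≤ R) ∧ (∀ h, ψ h ∈ 𝒞) ∧
      ¬ (ψ =ᵐ[(Measure.haar : Measure G₁)] 0) ∧
      ∀ γ : Λ, ∀ᵐ h ∂(Measure.haar : Measure G₁),
        ψ (h * (e.symm (γ : E)).1) = π γ⁻¹ (ψ h) := by
  classical
  borelize K
  obtain ⟨f, hf⟩ : ∃ f : E ⧸ Λ → K, f = fun x => if η x ∈ 𝒞 then η x else 0 := ⟨_, rfl⟩
  have hfη : f =ᵐ[ν] ⇑η := by
    filter_upwards [hηC] with x hx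
    rw [hf]
    exact if_pos hx
  have hfC : ∀ x, f x ∈ 𝒞 := by
    intro x
    rw [hf]
    dsimp only
    split_ifs with hx
    · exact hx
    · exact hC0
  have hfm : StronglyMeasurable f := by
    rw [hf]
    refine StronglyMeasurable.ite ?_ (Lp.stronglyMeasurable η) stronglyMeasurable_const
    exact (Lp.stronglyMeasurable η).measurable hC.measurableSet
  haveI hcl : IsClosed (Λ : Set E) := Subgroup.isClosed_of_discrete
  have hsm0 : Measurable fun p : E × (E ⧸ Λ) => p.1 • p.2 := continuous_smul.measurable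
  have hem : Measurable e := he.measurable
  have hem2 : Measurable fun p : (G₁ × G₂) × (E ⧸ Λ) => (e p.1, p.2) :=
    (hem.comp measurable_fst).prodMk measurable_snd
  have hsm : Measurable fun p : (G₁ × G₂) × (E ⧸ Λ) => e p.1 • p.2 := hsm0.comp hem2
  set m₁ : Measure G₁ := Measure.haar with hm₁
  set m₂ : Measure G₂ := Measure.haar with hm₂
  have hπi : ∀ (v : Λ) (w : K), π v⁻¹ (π v w) = w := by
    intro v w
    have : (π v⁻¹ * π v) w = w := by
      rw [← map_mul, inv_mul_cancel, map_one]; rfl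
    exact this
  have hall : ∀ g : G₂, ∀ᵐ x ∂ν, f (e ((1 : G₁), g) • x) = π (coc Λ (e (1, g)) x) (f x) := by
    intro g
    have h1 := iro_ae hν hπ (e (1, g)) η
    rw [hη g] at h1
    have h2 := ae_comp (mpres hν (e (1, g))) h1
    have h3 := ae_comp (mpres hν (e (1, g))) hfη
    filter_upwards [h2, h3, hfη] with x hx hx2 hx3
    rw [inv_smul_smul] at hx
    rw [hx2, hx3]
    exact hx
  have hS0 := eq_meas_e (π := π) hfm
  have hN1 : MeasurableSet {p : G₂ × (E ⧸ Λ) |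
      f (e ((1 : G₁), p.1) • p.2) = π (coc Λ (e (1, p.1)) p.2) (f p.2)} := by
    have h1 : Measurable fun p : G₂ × (E ⧸ Λ) => (e ((1 : G₁), p.1), p.2) :=
      (hem.comp (measurable_const.prodMk measurable_fst)).prodMk measurable_snd
    exact h1 hS0
  have h2 : ∀ᵐ x ∂ν, ∀ᵐ g ∂m₂, f (e ((1 : G₁), g) • x) = π (coc Λ (e (1, g)) x) (f x) :=
    (Measure.ae_ae_comm (μ := m₂) (ν := ν) hN1).1 (Eventually.of_forall hall)
  obtain ⟨N, hN⟩ : ∃ N : Set (E ⧸ Λ), N = toMeasurable ν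
    {x | ¬ ∀ᵐ g ∂m₂, f (e ((1 : G₁), g) • x) = π (coc Λ (e (1, g)) x) (f x)} := ⟨_, rfl⟩
  have hNm : MeasurableSet N := by rw [hN]; exact measurableSet_toMeasurable _ _
  have hN0 : ν N = 0 := by rw [hN, measure_toMeasurable]; exact h2
  have hNs : ∀ x, x ∉ N → ∀ᵐ g ∂m₂, f (e ((1 : G₁), g) • x) = π (coc Λ (e (1, g)) x) (f x) := by
    intro x hx
    by_contra hcon
    exact hx (by rw [hN]; exact subset_toMeasurable _ _ hcon)
  have hNt : ∀ h : G₁ × G₂, ∀ᵐ x ∂ν, e h • x ∉ N := by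
    intro h
    have h3 := (mpres hν (e h)).measure_preimage hNm.nullMeasurableSet
    rw [hN0] at h3
    exact measure_eq_zero_iff_ae_notMem.1 h3
  have h3 : ∀ᵐ x ∂ν, ∀ᵐ h ∂(m₁.prod m₂), e h • x ∉ N := by
    refine (Measure.ae_ae_comm (μ := m₁.prod m₂) (ν := ν)
      (p := fun h x => e h • x ∉ N) ?_).1 (Eventually.of_forall hNt)
    exact (hsm hNm).compl
  have h4 : ∃ᶠ x in ae ν, ¬ ∀ᵐ h ∂(m₁.prod m₂), f (e h • x) = 0 := by
    rw [Filter.Frequently]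
    intro hcon
    have h5 : ∀ᵐ x ∂ν, ∀ᵐ h ∂(m₁.prod m₂), f (e h • x) = 0 := by
      filter_upwards [hcon] with x hx
      exact not_not.1 hx
    have hZm : MeasurableSet {p : (G₁ × G₂) × (E ⧸ Λ) | f (e p.1 • p.2) = 0} :=
      StronglyMeasurable.measurableSet_eq_fun (hfm.comp_measurable hsm) stronglyMeasurable_const
    have h6 := (Measure.ae_ae_comm (μ := m₁.prod m₂) (ν := ν)
      (p := fun h x => f (e h • x) = 0) hZm).2 h5
    obtain ⟨h, hh⟩ := h6.exists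
    have h7 := ae_comp (mpres hν (e h)⁻¹) hh
    apply h0
    rw [Lp.eq_zero_iff_ae_eq_zero]
    filter_upwards [h7, hfη] with x hx hx2
    rw [smul_inv_smul] at hx
    rw [← hx2]
    exact hx
  obtain ⟨x, hx0, hx⟩ := (h4.and_eventually h3).exists
  obtain ⟨σ, hσ⟩ : ∃ σ : E, σ = sec Λ x := ⟨_, rfl⟩
  obtain ⟨Φ, hΦ⟩ : ∃ Φ : G₁ × G₂ → K, Φ = fun h => π (coc Λ (e h) x)⁻¹ (f (e h • x)) := ⟨_, rfl⟩
  have hΦm : StronglyMeasurable Φ := by
    rw [hΦ]
    refine sm_glue (c := fun h : G₁ × G₂ => coc Λ (e h) x) (F := fun v h => π v⁻¹ (f (e h • x)))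
      (fun v => ?_) fun v => ?_
    · have h1 : Measurable fun h : G₁ × G₂ => (e h, x) := hem.prodMk measurable_const
      exact h1 (coc_meas2 v)
    · have h1 : Measurable fun h : G₁ × G₂ => e h • x :=
        hsm0.comp (hem.prodMk measurable_const)
      exact (π v⁻¹).continuous.comp_stronglyMeasurable (hfm.comp_measurable h1)
  have hΦC : ∀ h, Φ h ∈ 𝒞 := by
    intro h
    rw [hΦ]
    exact hCπ _ _ (hfC _)
  -- (a)
  have ha : ∀ᵐ h ∂(m₁.prod m₂), ∀ᵐ g ∂m₂, Φ ((1, g) * h) = Φ h := by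
    filter_upwards [hx] with h hh
    filter_upwards [hNs _ hh] with g hg
    rw [hΦ]
    dsimp only
    rw [map_mul, mul_smul, hg, coc_mul, mul_inv_rev, map_mul]
    change π (coc Λ (e h) x)⁻¹ (π (coc Λ (e (1, g)) (e h • x))⁻¹
      (π (coc Λ (e (1, g)) (e h • x)) (f (e h • x)))) = _
    rw [hπi]
  -- (b)
  obtain ⟨κ, hκ⟩ : ∃ κ : Λ → G₁ × G₂, κ = fun γ : Λ => e.symm (σ * (γ : E) * σ⁻¹) := ⟨_, rfl⟩
  have hb : ∀ (γ : Λ) (h : G₁ × G₂), Φ (h * κ γ) = π γ⁻¹ (Φ h) := by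
    intro γ h
    obtain ⟨k, hk⟩ : ∃ k : E, k = σ * (γ : E) * σ⁻¹ := ⟨_, rfl⟩
    have hkx : k • x = x := by
      have e1 : ((σ : E) : E ⧸ Λ) = x := by rw [hσ]; exact sec_coe Λ x
      rw [← e1]
      change ((k * σ : E) : E ⧸ Λ) = _
      rw [hk, inv_mul_cancel_right]
      rw [QuotientGroup.eq]
      have : (σ * (γ : E))⁻¹ * σ = ((γ⁻¹ : Λ) : E) := by
        rw [Subgroup.coe_inv]; group
      rw [this]
      exact (γ⁻¹).2
    have hck : coc Λ k x = γ := by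
      apply Subtype.ext
      rw [coc_coe, hkx, ← hσ, hk]
      group
    have hek : e (h * κ γ) = e h * k := by
      rw [map_mul, hκ]
      dsimp only
      rw [MulEquiv.apply_symm_apply, ← hk]
    rw [hΦ]
    dsimp only
    rw [hek, mul_smul, hkx, coc_mul, hkx, hck, mul_inv_rev, map_mul]
    rfl
  -- truncation
  have hΦ0 : ∃ R : ℕ, ¬ ∀ᵐ h ∂(m₁.prod m₂), (if ‖Φ h‖ ≤ (R : ℝ) then Φ h else 0) = 0 := by
    by_contra hcon
    push Not at hcon
    apply hx0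
    filter_upwards [ae_all_iff.2 hcon] with h hh
    obtain ⟨R, hR⟩ := exists_nat_ge ‖Φ h‖
    have h5 := hh R
    rw [if_pos hR, hΦ] at h5
    dsimp only at h5
    have h6 : π (coc Λ (e h) x) (π (coc Λ (e h) x)⁻¹ (f (e h • x))) = 0 := by rw [h5, map_zero]
    have h7 := hπi (coc Λ (e h) x)⁻¹ (f (e h • x))
    rw [inv_inv] at h7
    rw [← h7]
    exact h6
  obtain ⟨R, hR0⟩ := hΦ0
  obtain ⟨Ψ, hΨ⟩ : ∃ Ψ : G₁ × G₂ → K, Ψ = fun h => if ‖Φ h‖ ≤ (R : ℝ) then Φ h else 0 := ⟨_, rfl⟩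
  have hΨm : StronglyMeasurable Ψ := by
    rw [hΨ]
    refine StronglyMeasurable.ite ?_ hΦm stronglyMeasurable_const
    exact hΦm.norm.measurable measurableSet_Iic
  have hΨR : ∀ h, ‖Ψ h‖ ≤ R := by
    intro h
    rw [hΨ]
    dsimp only
    split_ifs with h5
    · exact h5
    · rw [norm_zero]; exact Nat.cast_nonneg _
  have hΨC : ∀ h, Ψ h ∈ 𝒞 := by
    intro h
    rw [hΨ]
    dsimp only
    split_ifs with h5
    · exact hΦC h
    · exact hC0
  have hΨa : ∀ᵐ h ∂(m₁.prod m₂), ∀ᵐ g ∂m₂, Ψ ((1, g) * h) = Ψ h := by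
    filter_upwards [ha] with h hh
    filter_upwards [hh] with g hg
    rw [hΨ]
    dsimp only
    rw [hg]
  have hnorm : ∀ (v : Λ) (w : K), ‖π v w‖ = ‖w‖ := fun v w => Vale.Agent.P092.H885.u_norm hπ v w
  have hΨb : ∀ (γ : Λ) (h : G₁ × G₂), Ψ (h * κ γ) = π γ⁻¹ (Ψ h) := by
    intro γ h
    rw [hΨ]
    dsimp only
    rw [hb, hnorm]
    split_ifs with h5
    · rfl
    · rw [map_zero]
  -- the probability measure on `G₂`
  obtain ⟨B, hB⟩ : ∃ B : TopologicalSpace.PositiveCompacts G₂, True := ⟨Classical.arbitrary _, trivial⟩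
  have hBm : MeasurableSet (B : Set G₂) := B.isCompact.measurableSet
  have hB0 : m₂ (B : Set G₂) ≠ 0 := (B.interior_nonempty.mono Subset.rfl |> fun h =>
    (isOpen_interior.measure_pos m₂ h).trans_le (measure_mono interior_subset)).ne'
  have hBt : m₂ (B : Set G₂) ≠ ∞ := B.isCompact.measure_lt_top.ne
  obtain ⟨ρ, hρ⟩ : ∃ ρ : Measure G₂, ρ = (m₂ (B : Set G₂))⁻¹ • m₂.restrict (B : Set G₂) := ⟨_, rfl⟩
  have hρp : IsProbabilityMeasure ρ := by
    constructor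
    rw [hρ, Measure.smul_apply, Measure.restrict_apply_univ, smul_eq_mul]
    exact ENNReal.inv_mul_cancel hB0 hBt
  have hρa : ρ ≪ m₂ := by
    rw [hρ]
    exact (Measure.smul_absolutelyContinuous).trans Measure.restrict_le_self.absolutelyContinuous
  obtain ⟨ψ₀, hψ₀⟩ : ∃ ψ₀ : G₁ → K, ψ₀ = fun h₁ => ∫ h₂, Ψ (h₁, h₂) ∂ρ := ⟨_, rfl⟩
  have hψm : StronglyMeasurable ψ₀ := by
    rw [hψ₀]
    exact StronglyMeasurable.integral_prod_right (f := fun h₁ h₂ => Ψ (h₁, h₂)) hΨm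
  have hψR : ∀ h₁, ‖ψ₀ h₁‖ ≤ R := by
    intro h₁
    rw [hψ₀]
    dsimp only
    have h5 := norm_integral_le_of_norm_le_const (μ := ρ) (f := fun h₂ => Ψ (h₁, h₂)) (C := R)
      (Eventually.of_forall fun h₂ => hΨR _)
    rw [probReal_univ, mul_one] at h5
    exact h5
  have hψC : ∀ h₁, ψ₀ h₁ ∈ 𝒞 := by
    intro h₁
    rw [hψ₀]
    dsimp only
    have h6 : Measurable fun h₂ : G₂ => (h₁, h₂) := measurable_const.prodMk measurable_id
    refine hC2.integral_mem hC (Eventually.of_forall fun h₂ => hΨC _) ?_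
    exact Integrable.of_bound (hΨm.comp_measurable h6).aestronglyMeasurable R
      (Eventually.of_forall fun h₂ => hΨR _)
  have hgood : ∀ᵐ h₁ ∂m₁, ∀ᵐ h₂ ∂m₂, Ψ (h₁, h₂) = ψ₀ h₁ := by
    have h5 := Measure.ae_ae_of_ae_prod hΨa
    filter_upwards [h5] with h₁ hh
    haveI : NeZero m₂ := ⟨by rw [hm₂]; exact NeZero.ne _⟩
    obtain ⟨h₂, hh₂⟩ := hh.exists
    have h6 : ∀ᵐ g ∂m₂, Ψ (h₁, g * h₂) = Ψ (h₁, h₂) := by
      filter_upwards [hh₂] with g hg
      have e : ((1 : G₁), g) * (h₁, h₂) = (h₁, g * h₂) := by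
        ext
        · exact one_mul _
        · rfl
      rw [e] at hg
      exact hg
    have h7 : ∀ᵐ g ∂m₂, Ψ (h₁, g) = Ψ (h₁, h₂) := by
      rw [ae_iff] at h6 ⊢
      exact (measure_mul_right_null m₂ h₂ (s := {g | ¬ Ψ (h₁, g) = Ψ (h₁, h₂)})).1 h6
    have h8 : ψ₀ h₁ = Ψ (h₁, h₂) := by
      rw [hψ₀]
      dsimp only
      have h9 : ∀ᵐ g ∂ρ, Ψ (h₁, g) = Ψ (h₁, h₂) := hρa.ae_le h7
      rw [integral_congr_ae h9, integral_const, probReal_univ, one_smul]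
    filter_upwards [h7] with g hg
    rw [hg, h8]
  have hψe : ∀ γ : Λ, ∀ᵐ h ∂m₁, ψ₀ (h * (κ γ).1) = π γ⁻¹ (ψ₀ h) := by
    intro γ
    obtain ⟨k, hk⟩ : ∃ k : G₁ × G₂, k = κ γ := ⟨_, rfl⟩
    rw [← hk]
    have h5 : ∀ᵐ h ∂m₁, ∀ᵐ h₂ ∂m₂, Ψ (h * k.1, h₂) = ψ₀ (h * k.1) := by
      rw [ae_iff] at hgood ⊢
      exact (measure_mul_right_null m₁ k.1
        (s := {h | ¬ ∀ᵐ h₂ ∂m₂, Ψ (h, h₂) = ψ₀ h})).2 hgood
    filter_upwards [hgood, h5] with h hh1 hh2
    have h6 : ∀ᵐ h₂ ∂m₂, Ψ (h * k.1, h₂ * k.2) = ψ₀ (h * k.1) := by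
      rw [ae_iff] at hh2 ⊢
      exact (measure_mul_right_null m₂ k.2
        (s := {h₂ | ¬ Ψ (h * k.1, h₂) = ψ₀ (h * k.1)})).2 hh2
    haveI : NeZero m₂ := ⟨by rw [hm₂]; exact NeZero.ne _⟩
    obtain ⟨h₂, a1, a2⟩ := (hh1.and h6).exists
    rw [← a2, ← a1]
    have a3 := hΨb γ (h, h₂)
    rw [← hk] at a3
    exact a3
  have hψ0 : ¬ (ψ₀ =ᵐ[m₁] 0) := by
    intro hcon
    apply hR0
    have hZm : MeasurableSet {h : G₁ × G₂ | Ψ h = 0} :=
      StronglyMeasurable.measurableSet_eq_fun hΨm stronglyMeasurable_const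
    have h5 : ∀ᵐ h ∂(m₁.prod m₂), Ψ h = 0 := by
      rw [Measure.ae_prod_iff_ae_ae hZm]
      filter_upwards [hcon, hgood] with h₁ hh1 hh2
      filter_upwards [hh2] with h₂ hh3
      rw [hh3, hh1]
      rfl
    filter_upwards [h5] with h hh
    rw [hΨ] at hh
    exact hh
  obtain ⟨s, hs⟩ : ∃ s : G₁, s = (e.symm σ).1 := ⟨_, rfl⟩
  refine ⟨fun h => ψ₀ (h * s⁻¹), R, ?_, fun h => hψR _, fun h => hψC _, ?_, fun γ => ?_⟩
  · exact hψm.comp_measurable (measurable_mul_const _)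
  · intro hcon
    apply hψ0
    have h5 : ∀ᵐ h ∂m₁, ψ₀ (h * s⁻¹) = 0 := hcon
    have h6 : ∀ᵐ h ∂m₁, ψ₀ h = 0 := by
      rw [ae_iff] at h5 ⊢
      exact (measure_mul_right_null m₁ s⁻¹ (s := {h | ¬ ψ₀ h = 0})).1 h5
    exact h6
  · have h5 : ∀ᵐ h ∂m₁, ψ₀ (h * s⁻¹ * (κ γ).1) = π γ⁻¹ (ψ₀ (h * s⁻¹)) := by
      have h6 := hψe γ
      rw [ae_iff] at h6 ⊢
      exact (measure_mul_right_null m₁ s⁻¹
        (s := {h | ¬ ψ₀ (h * (κ γ).1) = π γ⁻¹ (ψ₀ h)})).2 h6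
    have hκ1 : (κ γ).1 = s * (e.symm (γ : E)).1 * s⁻¹ := by
      rw [hκ, hs]
      dsimp only
      rw [map_mul, map_mul, map_inv]
      rfl
    filter_upwards [h5] with h hh
    rw [← hh, hκ1]
    congr 1
    group

end fixe

section avg2

variable {G : Type} [Group G] [TopologicalSpace G] [IsTopologicalGroup G]
  [LocallyCompactSpace G] [SecondCountableTopology G] [T2Space G] [MeasurableSpace G]
  [BorelSpace G]
  {K : Type} [NormedAddCommGroup K] [InnerProductSpace ℂ K] [CompleteSpace K]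

open scoped Pointwise

/-- A bounded equivariant function on a totally disconnected group with values in a closed convex
set gives fixed vectors in the convex set. -/
theorem fix_of_fun_c (hG : CptOpenBasis G) {V : Set G} (hV : V ∈ 𝓝 (1 : G)) {Λ : Type} [Group Λ]
    {p : Λ → G} {π : Λ →* (K →L[ℂ] K)} {ψ : G → K} {R : ℝ} (hψ : StronglyMeasurable ψ)
    (hR : ∀ h, ‖ψ h‖ ≤ R) (h0 : ¬ (ψ =ᵐ[(Measure.haar : Measure G)] 0))
    (he : ∀ γ : Λ, ∀ᵐ h ∂(Measure.haar : Measure G), ψ (h * p γ) = π γ⁻¹ (ψ h))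
    {𝒞 : Set K} (hC : IsClosed 𝒞) (hC2 : Convex ℝ 𝒞) (hψC : ∀ h, ψ h ∈ 𝒞) :
    ∃ L : Subgroup G, IsOpen (L : Set G) ∧ IsCompact (L : Set G) ∧ (L : Set G) ⊆ V ∧
      ∃ w ∈ 𝒞, w ≠ 0 ∧ ∀ γ : Λ, p γ ∈ L → π γ w = w := by
  obtain ⟨μ, hμ⟩ : ∃ μ : Measure G, μ = (Measure.haar : Measure G).inv := ⟨_, rfl⟩
  haveI hri : μ.IsMulRightInvariant := by rw [hμ]; infer_instance
  haveI hfc : IsFiniteMeasureOnCompacts μ := by
    rw [hμ]; infer_instance
  haveI hop : μ.IsOpenPosMeasure := by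
    rw [hμ]; infer_instance
  have hnull : ∀ {P : G → Prop}, (∀ᵐ h ∂(Measure.haar : Measure G), P h) ↔ ∀ᵐ h ∂μ, P h := by
    intro P
    rw [ae_iff, ae_iff, hμ, Measure.inv_apply, measure_inv_null]
  have h0' : ¬ (ψ =ᵐ[μ] 0) := fun h => h0 (hnull.2 h)
  obtain ⟨L, b, h1, h2, h3, h4⟩ := exists_avg hG hV hψ hR h0'
  obtain ⟨B, hB⟩ : ∃ B : Set G, B = b • (L : Set G) := ⟨_, rfl⟩
  have hBm : MeasurableSet B := by rw [hB]; exact (isOpen_cos h1 b).measurableSet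
  have hBt : μ B ≠ ∞ := by rw [hB]; exact (isCompact_cos h2 b).measure_lt_top.ne
  have hB0 : μ B ≠ 0 := by
    rw [hB]
    refine ((isOpen_cos h1 b).measure_pos μ ⟨b, ?_⟩).ne'
    rw [mem_cos, inv_mul_cancel]
    exact L.one_mem
  haveI : IsFiniteMeasure (μ.restrict B) := ⟨by rw [Measure.restrict_apply_univ]; exact hBt.lt_top⟩
  have hint : Integrable ψ (μ.restrict B) :=
    Integrable.of_bound hψ.aestronglyMeasurable R (Eventually.of_forall hR)
  rw [← hB] at h4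
  have key : ∀ γ : Λ, p γ ∈ L → π γ⁻¹ (∫ h in B, ψ h ∂μ) = ∫ h in B, ψ h ∂μ := by
    intro γ hγ
    have e1 : π γ⁻¹ (∫ h in B, ψ h ∂μ) = ∫ h in B, ψ (h * p γ) ∂μ := by
      rw [← ContinuousLinearMap.integral_comp_comm _ hint]
      refine integral_congr_ae ?_
      have h5 : ∀ᵐ h ∂μ, ψ (h * p γ) = π γ⁻¹ (ψ h) := hnull.1 (he γ)
      filter_upwards [ae_restrict_of_ae h5] with h hh
      exact hh.symm
    rw [e1, ← integral_indicator hBm, ← integral_indicator hBm,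
      ← integral_mul_right_eq_self (μ := μ) (B.indicator ψ) (p γ)]
    congr 1
    funext h
    have h6 : h * p γ ∈ B ↔ h ∈ B := by
      rw [hB, mem_cos, mem_cos, ← mul_assoc]
      exact L.mul_mem_cancel_right hγ
    by_cases hh : h ∈ B
    · rw [Set.indicator_of_mem hh, Set.indicator_of_mem (h6.2 hh)]
    · rw [Set.indicator_of_notMem hh, Set.indicator_of_notMem (fun h7 => hh (h6.1 h7))]
  have key2 : ∀ γ : Λ, p γ ∈ L → π γ (∫ h in B, ψ h ∂μ) = ∫ h in B, ψ h ∂μ := by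
    intro γ hγ
    have h8 := key γ⁻¹
    rw [inv_inv] at h8
    have h8 := congrArg (π γ) (key γ hγ)
    have h9 : π γ (π γ⁻¹ (∫ h in B, ψ h ∂μ)) = ∫ h in B, ψ h ∂μ := by
      have : (π γ * π γ⁻¹) (∫ h in B, ψ h ∂μ) = ∫ h in B, ψ h ∂μ := by
        rw [← map_mul, mul_inv_cancel, map_one]; rfl
      exact this
    rw [h9] at h8
    exact h8.symm
  have hav : (⨍ h in B, ψ h ∂μ) = (((μ.real B)⁻¹ : ℝ) : ℂ) • ∫ h in B, ψ h ∂μ := by
    rw [setAverage_eq, Complex.coe_smul]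
  refine ⟨L, h1, h2, h3, ⨍ h in B, ψ h ∂μ, ?_, ?_, fun γ hγ => ?_⟩
  · exact hC2.set_average_mem hC hB0 hBt (Eventually.of_forall fun h => hψC h) hint
  · rw [hav]
    refine smul_ne_zero ?_ h4
    have : μ.real B ≠ 0 := by
      rw [measureReal_def]
      exact (ENNReal.toReal_pos hB0 hBt).ne'
    exact_mod_cast inv_ne_zero this
  · rw [hav, map_smul, key2 γ hγ]

end avg2

end Vale.Agent.P092.H103
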