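import Vale.Agent.P092.H103.PT2

/-!
Kazhdan groups in displacement form: `SL_n(ℝ)`, `SL_n(ℂ)`, finite products.
-/

set_option linter.all false

open scoped InnerProductSpace Pointwise
open Filter Topology ContinuousLinearMap Matrix
open Vale.Agent.P092.H885 Vale.Agent.P092.H160

namespace Vale.Agent.P092.H103

/-- a unitary representation, continuous at `1` -/
structure CRep {E : Type} [Group E] [TopologicalSpace E] {H : Type} [NormedAddCommGroup H]
    [InnerProductSpace ℂ H] [CompleteSpace H] (ρ : E →* (H →L[ℂ] H)) : Prop where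
  adj : ∀ g, adjoint (ρ g) = ρ g⁻¹
  cont : ∀ v, Tendsto (fun g => ρ g v) (𝓝 1) (𝓝 v)

/-- property (T) in displacement form -/
def KGroup (E : Type) [Group E] [TopologicalSpace E] : Prop :=
  ∃ (F : Set E) (C : ℝ), F.Finite ∧ 0 < C ∧
    ∀ {H : Type} [NormedAddCommGroup H] [InnerProductSpace ℂ H] [CompleteSpace H]
      (ρ : E →* (H →L[ℂ] H)), CRep ρ → ∀ (v : H) (c : ℝ),
      (∀ s ∈ F, ‖ρ s v - v‖ ≤ c) → ∀ g, ‖ρ g v - v‖ ≤ C * c

theorem CRep.comp {E E' : Type} [Group E] [TopologicalSpace E] [Group E'] [TopologicalSpace E']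
    {H : Type} [NormedAddCommGroup H] [InnerProductSpace ℂ H] [CompleteSpace H]
    {ρ : E →* (H →L[ℂ] H)} (hρ : CRep ρ) (f : E' →* E) (hf : Continuous f) : CRep (ρ.comp f) where
  adj g := by
    rw [MonoidHom.comp_apply, MonoidHom.comp_apply, hρ.adj, map_inv f]
  cont v := by
    have h1 : Tendsto f (𝓝 1) (𝓝 1) := by
      have := hf.tendsto 1
      rwa [map_one] at this
    exact (hρ.cont v).comp h1

section near

variable {Γ : Type} [Group Γ] {H : Type} [NormedAddCommGroup H] [InnerProductSpace ℂ H]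
  [CompleteSpace H] {π : Γ →* (H →L[ℂ] H)}

/-- a vector moved uniformly little is near an invariant vector -/
theorem near_fixed (hπ : ∀ g, adjoint (π g) = π g⁻¹) {v : H} {r : ℝ}
    (h : ∀ g, ‖π g v - v‖ ≤ r) : ∃ w : H, (∀ g, π g w = w) ∧ ‖w - v‖ ≤ r := by
  set S : Set H := Set.range fun g => π g v with hS
  set K : Set H := closure (hull S) with hK
  have hKc : Cvx K := (cvx_hull S).closure
  have hne : K.Nonempty := ⟨π 1 v, subset_closure (subset_hull _ ⟨1, rfl⟩)⟩
  obtain ⟨w, hw, hmin, huniq⟩ := exists_min_norm hne isClosed_closure hKc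
  have hinv : ∀ (g : Γ) (x : H), x ∈ K → π g x ∈ K := by
    intro g x hx
    have h1 : hull S ⊆ {x | π g x ∈ hull S} := by
      refine hull_subset ?_ ?_
      · intro x hx y hy a b ha hb hab
        change π g ((a : ℂ) • x + (b : ℂ) • y) ∈ hull S
        rw [map_add, map_smul, map_smul]
        exact cvx_hull S _ hx _ hy a b ha hb hab
      · rintro _ ⟨k, rfl⟩
        refine subset_hull S ⟨g * k, ?_⟩
        simp only [map_mul]; rfl
    have h2 : Set.MapsTo (fun y : H => π g y) (hull S) (hull S) := fun y hy => h1 hy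
    exact map_mem_closure (π g).continuous hx h2
  have hball : ∀ x ∈ K, ‖x - v‖ ≤ r := by
    intro x hx
    have h1 : K ⊆ {x | ‖x - v‖ ≤ r} := by
      refine closure_minimal (hull_subset ?_ ?_) (isClosed_le (by fun_prop) continuous_const)
      · intro x hx y hy a b ha hb hab
        change ‖_‖ ≤ _
        have hx' : ‖x - v‖ ≤ r := hx
        have hy' : ‖y - v‖ ≤ r := hy
        have e : (a : ℂ) • x + (b : ℂ) • y - v = (a : ℂ) • (x - v) + (b : ℂ) • (y - v) := by
          have h2 : (a : ℂ) • v + (b : ℂ) • v = v := by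
            rw [← add_smul, ← Complex.ofReal_add, hab, Complex.ofReal_one, one_smul]
          rw [smul_sub, smul_sub]
          nth_rewrite 1 [← h2]
          abel
        rw [e]
        refine (norm_add_le _ _).trans ?_
        rw [norm_smul, norm_smul, Complex.norm_real, Complex.norm_real, Real.norm_of_nonneg ha,
          Real.norm_of_nonneg hb]
        calc a * ‖x - v‖ + b * ‖y - v‖ ≤ a * r + b * r := by gcongr
          _ = (a + b) * r := by ring
          _ = _ := by rw [hab, one_mul]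
      · rintro _ ⟨g, rfl⟩
        exact h g
    exact h1 hx
  exact ⟨w, fun g => huniq _ (hinv g w hw) (u_norm hπ g w).le, hball w hw⟩

theorem disp_of_near (hπ : ∀ g, adjoint (π g) = π g⁻¹) {v w : H} {r : ℝ} (hw : ∀ g, π g w = w)
    (h : ‖w - v‖ ≤ r) (g : Γ) : ‖π g v - v‖ ≤ 2 * r := by
  have e : π g v - v = π g (v - w) - (v - w) := by
    rw [map_sub, hw]; abel
  rw [e]
  calc _ ≤ ‖π g (v - w)‖ + ‖v - w‖ := norm_sub_le _ _
    _ = 2 * ‖w - v‖ := by rw [u_norm hπ, norm_sub_rev]; ring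
    _ ≤ _ := by linarith

end near

section elemk

variable {n : ℕ} {𝕜 : Type} [RCLike 𝕜]

/-- elementary elements over the field -/
def xk (i j : Fin n) (h : i ≠ j) (a : 𝕜) : Matrix.SpecialLinearGroup (Fin n) 𝕜 :=
  ⟨transvection i j a, det_transvection_of_ne i j h a⟩

theorem xk_coe (i j : Fin n) (h : i ≠ j) (a : 𝕜) :
    ((xk i j h a : Matrix.SpecialLinearGroup (Fin n) 𝕜) : Matrix (Fin n) (Fin n) 𝕜) =
      transvection i j a := rfl

/-- the matrix `diag(t, 1/t)` in the places `i, j` -/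
def dk (i j : Fin n) (t : 𝕜) : Matrix (Fin n) (Fin n) 𝕜 :=
  1 + Matrix.single i i (t - 1) + Matrix.single j j (t⁻¹ - 1)

theorem dk_rel (i j : Fin n) (h : i ≠ j) {t p : 𝕜} (ht : t ≠ 0) (hp : p ≠ 0) :
    transvection i j p * transvection j i ((t - 1) / p) * transvection i j (-p / t) =
      dk i j t * transvection j i (t * (t - 1) / p) := by
  have e1 : p * ((t - 1) / p) = t - 1 := by field_simp
  have e2 : (t - 1) / p * (-p / t) = t⁻¹ - 1 := by field_simp; ring
  have e3 : (t - 1) * (-p / t) = -p + p / t := by field_simp; ring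
  have e4 : (t⁻¹ - 1) * (t * (t - 1) / p) = -((t - 1) * (t - 1) / p) := by field_simp; ring
  simp only [dk, Matrix.transvection, mul_add, add_mul, mul_one, one_mul]
  simp only [Matrix.single_mul_single_same, ne_eq, h, h.symm,
    not_false_eq_true, Matrix.single_mul_single_of_ne, add_zero, mul_zero, zero_mul,
    Matrix.mul_zero, Matrix.zero_mul]
  rw [e1, e2]
  simp only [Matrix.single_mul_single_same, ne_eq, h, h.symm,
    not_false_eq_true, Matrix.single_mul_single_of_ne, add_zero, mul_zero, zero_mul,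
    Matrix.mul_zero, Matrix.zero_mul, e3, e4]
  have e5 : Matrix.single i j p + (Matrix.single i j (-p / t) + Matrix.single i j (-p + p / t)) =
      (0 : Matrix (Fin n) (Fin n) 𝕜) := by
    rw [← Matrix.single_add, ← Matrix.single_add]
    have : p + (-p / t + (-p + p / t)) = 0 := by ring
    rw [this, Matrix.single_zero]
  have e6 : Matrix.single j i (t * (t - 1) / p) + Matrix.single j i (-((t - 1) * (t - 1) / p)) =
      (Matrix.single j i ((t - 1) / p) : Matrix (Fin n) (Fin n) 𝕜) := by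
    rw [← Matrix.single_add]
    congr 1
    field_simp
    ring
  rw [e6]
  have e7 : ∀ A B C D E F G : Matrix (Fin n) (Fin n) 𝕜, B + (E + G) = 0 →
      A + B + (C + D) + (E + (F + G)) = A + D + F + C := by
    intro A B C D E F G h0
    have : A + B + (C + D) + (E + (F + G)) = A + D + F + C + (B + (E + G)) := by abel
    rw [this, h0, add_zero]
  exact e7 _ _ _ _ _ _ _ e5

theorem dk_eq (i j : Fin n) (h : i ≠ j) (t : 𝕜) :
    Matrix.diagonal (fun k => if k = i then t else if k = j then t⁻¹ else 1) = dk i j t := by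
  ext a b
  simp only [dk, Matrix.diagonal_apply, Matrix.add_apply, Matrix.one_apply, Matrix.single_apply]
  by_cases hab : a = b
  · subst hab
    by_cases hai : a = i
    · subst hai
      have h1 : ¬ (j = a) := fun hh => h hh.symm
      simp [h1]
    · have h0 : ¬ (i = a) := fun hh => hai hh.symm
      by_cases haj : a = j
      · subst haj
        simp [hai, h0]
      · have h1 : ¬ (j = a) := fun hh => haj hh.symm
        simp [hai, haj, h0, h1]
  · have h1 : ¬ (i = a ∧ i = b) := fun hh => hab (hh.1.symm.trans hh.2)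
    have h2 : ¬ (j = a ∧ j = b) := fun hh => hab (hh.1.symm.trans hh.2)
    simp [hab, h1, h2]

theorem diag_rel (i j : Fin n) (h : i ≠ j) {t p : 𝕜} (ht : t ≠ 0) (hp : p ≠ 0) :
    xk i j h p * xk j i h.symm ((t - 1) / p) * xk i j h (-p / t) =
      Matrix.SpecialLinearGroup.diag2n h t ht * xk j i h.symm (t * (t - 1) / p) := by
  apply Subtype.ext
  change transvection i j p * transvection j i ((t - 1) / p) * transvection i j (-p / t) =
    Matrix.diagonal (fun k => if k = i then t else if k = j then t⁻¹ else 1) *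
      transvection j i (t * (t - 1) / p)
  rw [dk_eq i j h, dk_rel i j h ht hp]

theorem diag_conj (i j : Fin n) (h : i ≠ j) {t : 𝕜} (ht : t ≠ 0) (r : 𝕜) :
    Matrix.SpecialLinearGroup.diag2n h t ht * xk i j h r =
      xk i j h (t * r * t) * Matrix.SpecialLinearGroup.diag2n h t ht := by
  apply Subtype.ext
  change Matrix.diagonal (fun k => if k = i then t else if k = j then t⁻¹ else 1) *
      transvection i j r = transvection i j (t * r * t) *
      Matrix.diagonal (fun k => if k = i then t else if k = j then t⁻¹ else 1)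
  rw [Matrix.transvection, Matrix.transvection, mul_add, add_mul, mul_one, one_mul]
  congr 1
  ext a b
  rw [Matrix.diagonal_mul, Matrix.mul_diagonal, Matrix.single_apply, Matrix.single_apply]
  by_cases hab : i = a ∧ j = b
  · obtain ⟨rfl, rfl⟩ := hab
    have h1 : ¬ (j = i) := fun hh => h hh.symm
    simp [h1]
    field_simp
  · simp [hab]

theorem xk_add (i j : Fin n) (h : i ≠ j) (a b : 𝕜) : xk i j h (a + b) = xk i j h a * xk i j h b :=
  Matrix.SpecialLinearGroup.transvection_add h a b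

theorem xk_zero (i j : Fin n) (h : i ≠ j) : xk i j h (0 : 𝕜) = 1 :=
  Matrix.SpecialLinearGroup.transvection_coeff_zero h

theorem xk_cont (i j : Fin n) (h : i ≠ j) : Continuous (fun a : 𝕜 => xk i j h a) := by
  refine continuous_induced_rng.2 ?_
  change Continuous fun a : 𝕜 => (1 : Matrix (Fin n) (Fin n) 𝕜) + Matrix.single i j a
  refine continuous_const.add ?_
  refine continuous_matrix fun a b => ?_
  simp only [Matrix.single_apply]
  split_ifs
  · exact continuous_id
  · exact continuous_const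

end elemk

section mautner

variable {n : ℕ} {𝕜 : Type} [RCLike 𝕜] {H : Type} [NormedAddCommGroup H] [InnerProductSpace ℂ H]
  [CompleteSpace H] {ρ : Matrix.SpecialLinearGroup (Fin n) 𝕜 →* (H →L[ℂ] H)}

theorem xk_tendsto (hρ : CRep ρ) (i j : Fin n) (h : i ≠ j) (w : H) {f : ℕ → 𝕜}
    (hf : Tendsto f atTop (𝓝 0)) :
    Tendsto (fun k => ‖ρ (xk i j h (f k)) w - w‖) atTop (𝓝 0) := by
  have h1 : Tendsto (fun k => xk i j h (f k)) atTop (𝓝 1) := by
    have := ((xk_cont (𝕜 := 𝕜) i j h).tendsto 0).comp hf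
    rwa [xk_zero] at this
  have h2 := (hρ.cont w).comp h1
  have h3 := (h2.sub_const w).norm
  rwa [sub_self, norm_zero] at h3

theorem diag2_fix (hρ : CRep ρ) (i j : Fin n) (h : i ≠ j) {w : H}
    (hw : ∀ (i j : Fin n) (h : i ≠ j) (k : ℤ), ρ (xk i j h (k : 𝕜)) w = w) :
    ρ (Matrix.SpecialLinearGroup.diag2n h (2 : 𝕜) two_ne_zero) w = w := by
  set A := Matrix.SpecialLinearGroup.diag2n h (2 : 𝕜) two_ne_zero with hA
  have key : ∀ p : ℕ, ‖ρ A w - w‖ ≤ ‖ρ (xk j i h.symm (1 / ((p : 𝕜) + 1))) w - w‖ +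
      ‖ρ (xk j i h.symm (1 / (2 * ((p : 𝕜) + 1)))) w - w‖ := by
    intro p
    have hp0 : ((p : 𝕜) + 1) ≠ 0 := by
      have := Nat.cast_add_one_ne_zero (R := 𝕜) p
      exact this
    have hp : (2 * ((p : 𝕜) + 1)) ≠ 0 := mul_ne_zero two_ne_zero hp0
    have hrel := diag_rel i j h (t := (2 : 𝕜)) (p := 2 * ((p : 𝕜) + 1)) two_ne_zero hp
    have e1 : ((2 : 𝕜) - 1) / (2 * ((p : 𝕜) + 1)) = 1 / (2 * ((p : 𝕜) + 1)) := by norm_num
    have e2 : -(2 * ((p : 𝕜) + 1)) / 2 = ((-((p : ℤ) + 1) : ℤ) : 𝕜) := by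
      push_cast
      field_simp
    have e3 : (2 : 𝕜) * (2 - 1) / (2 * ((p : 𝕜) + 1)) = 1 / ((p : 𝕜) + 1) := by
      field_simp
      norm_num
    have e4 : (2 * ((p : 𝕜) + 1)) = ((2 * ((p : ℤ) + 1) : ℤ) : 𝕜) := by push_cast; ring
    rw [e1, e2, e3] at hrel
    have h1 := congrArg (fun g => ρ g w) hrel
    simp only [map_mul] at h1
    change ρ _ (ρ _ (ρ _ w)) = ρ _ (ρ _ w) at h1
    rw [hw] at h1
    have h2 : ρ (xk i j h (2 * ((p : 𝕜) + 1))) w = w := by rw [e4]; exact hw _ _ _ _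
    set X := xk i j h (2 * ((p : 𝕜) + 1)) with hX
    set Y := xk j i h.symm (1 / (2 * ((p : 𝕜) + 1))) with hY
    set Z := xk j i h.symm (1 / ((p : 𝕜) + 1)) with hZ
    have e5 : ρ A w - w = ρ A (w - ρ Z w) + ρ X (ρ Y w - w) := by
      rw [map_sub, map_sub, h1, h2]
      abel
    rw [e5]
    refine (norm_add_le _ _).trans ?_
    rw [u_norm hρ.adj, u_norm hρ.adj, norm_sub_rev]
  have t1 : Tendsto (fun p : ℕ => (1 : 𝕜) / ((p : 𝕜) + 1)) atTop (𝓝 0) :=
    tendsto_one_div_add_atTop_nhds_zero_nat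
  have t2 : Tendsto (fun p : ℕ => (1 : 𝕜) / (2 * ((p : 𝕜) + 1))) atTop (𝓝 0) := by
    have := t1.const_mul (1 / 2)
    rw [mul_zero] at this
    refine this.congr fun p => ?_
    rw [← mul_div_mul_comm, one_mul]
  have t3 := (xk_tendsto hρ j i h.symm w t1).add (xk_tendsto hρ j i h.symm w t2)
  rw [add_zero] at t3
  have h4 : ‖ρ A w - w‖ ≤ 0 := ge_of_tendsto' t3 key
  exact sub_eq_zero.1 (norm_le_zero_iff.1 h4)

theorem xk_fix (hρ : CRep ρ) (i j : Fin n) (h : i ≠ j) {w : H}
    (hw : ∀ (i j : Fin n) (h : i ≠ j) (k : ℤ), ρ (xk i j h (k : 𝕜)) w = w) (r : 𝕜) :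
    ρ (xk i j h r) w = w := by
  have hA := diag2_fix hρ i j h hw
  set A := Matrix.SpecialLinearGroup.diag2n h (2 : 𝕜) two_ne_zero with hAd
  have key : ∀ r : 𝕜, ‖ρ (xk i j h (2 * r * 2)) w - w‖ = ‖ρ (xk i j h r) w - w‖ := by
    intro r
    have h1 := congrArg (fun g => ρ g w) (diag_conj i j h (t := (2 : 𝕜)) two_ne_zero r)
    simp only [map_mul] at h1
    change ρ A (ρ _ w) = ρ _ (ρ A w) at h1
    rw [hA] at h1
    rw [← h1]
    nth_rewrite 2 [← hA]
    rw [← map_sub, u_norm hρ.adj]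
  have key2 : ∀ k : ℕ, ‖ρ (xk i j h r) w - w‖ = ‖ρ (xk i j h (r * (1 / 4) ^ k)) w - w‖ := by
    intro k
    induction k with
    | zero => rw [pow_zero, mul_one]
    | succ k ih =>
      rw [ih, ← key (r * (1 / 4) ^ (k + 1))]
      have e8 : r * (1 / 4 : 𝕜) ^ k = 2 * (r * (1 / 4) ^ (k + 1)) * 2 := by
        rw [pow_succ]; ring
      rw [e8]
  have t1 : Tendsto (fun k : ℕ => r * (1 / 4 : 𝕜) ^ k) atTop (𝓝 0) := by
    have h5 : ‖(1 / 4 : 𝕜)‖ < 1 := by
      rw [norm_div, norm_one]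
      have : ‖(4 : 𝕜)‖ = 4 := by
        have := RCLike.norm_natCast (K := 𝕜) 4
        exact_mod_cast this
      rw [this]; norm_num
    have := (tendsto_pow_atTop_nhds_zero_of_norm_lt_one h5).const_mul r
    rwa [mul_zero] at this
  have t2 := xk_tendsto hρ i j h w t1
  have h4 : ‖ρ (xk i j h r) w - w‖ ≤ 0 := ge_of_tendsto' t2 fun k => (key2 k).le
  exact sub_eq_zero.1 (norm_le_zero_iff.1 h4)

/-- a vector fixed by the integer elementary matrices is fixed by `SL_n(𝕜)` -/
theorem all_fix (hρ : CRep ρ) (hn : 2 ≤ n) {w : H}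
    (hw : ∀ (i j : Fin n) (h : i ≠ j) (k : ℤ), ρ (xk i j h (k : 𝕜)) w = w)
    (g : Matrix.SpecialLinearGroup (Fin n) 𝕜) : ρ g w = w := by
  haveI : Nontrivial (Fin n) := Fin.nontrivial_iff_two_le.2 hn
  have hx : ∀ (i j : Fin n) (h : i ≠ j) (r : 𝕜), ρ (xk i j h r) w = w :=
    fun i j h r => xk_fix hρ i j h hw r
  refine Matrix.SpecialLinearGroup.diagonal_transvection_induction'
    (P := fun g => ρ g w = w) g ?_ hx ?_
  · intro i j h t ht
    have hrel := diag_rel i j h (t := t) (p := 1) ht one_ne_zero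
    have h1 := congrArg (fun g => ρ g w) hrel
    simp only [map_mul] at h1
    change ρ _ (ρ _ (ρ _ w)) = ρ _ (ρ _ w) at h1
    rw [hx, hx, hx, hx] at h1
    exact h1.symm
  · intro A B hA hB
    change ρ (A * B) w = w
    rw [map_mul]
    change ρ A (ρ B w) = w
    rw [hB, hA]

/-- property (T) of `SL_n(𝕜)`, `n ≥ 3` -/
theorem kgroup_sl (hn : 3 ≤ n) : KGroup (Matrix.SpecialLinearGroup (Fin n) 𝕜) := by
  obtain ⟨F, C, hF, hC, hb⟩ := exists_bound (⊤ : Subgroup (Matrix.SpecialLinearGroup (Fin n) ℤ)) hn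
  set φ : (⊤ : Subgroup (Matrix.SpecialLinearGroup (Fin n) ℤ)) →*
      Matrix.SpecialLinearGroup (Fin n) 𝕜 :=
    (Matrix.SpecialLinearGroup.map (Int.castRingHom 𝕜)).comp (Subgroup.subtype _) with hφ
  refine ⟨φ '' F, 2 * C, hF.image _, by positivity, ?_⟩
  intro H _ _ _ ρ hρ v c hv g
  have h1 : ∀ g, adjoint ((ρ.comp φ) g) = (ρ.comp φ) g⁻¹ := by
    intro g
    have e0 : φ g⁻¹ = (φ g)⁻¹ := map_inv φ g
    change adjoint (ρ (φ g)) = ρ (φ g⁻¹)
    rw [hρ.adj, e0]
  have h2 := hb (ρ.comp φ) h1 v c (fun s hs => hv _ ⟨s, hs, rfl⟩)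
  obtain ⟨w, hw, hwv⟩ := near_fixed h1 h2
  have h3 : ∀ (i j : Fin n) (h : i ≠ j) (k : ℤ), ρ (xk i j h (k : 𝕜)) w = w := by
    intro i j h k
    have e : φ ⟨⟨transvection i j k, det_transvection_of_ne i j h k⟩, trivial⟩ =
        xk i j h (k : 𝕜) := by
      apply Subtype.ext
      rw [xk_coe, hφ]
      change (Int.castRingHom 𝕜).mapMatrix (transvection i j k) = _
      rw [RingHom.mapMatrix_apply, Matrix.transvection, Matrix.transvection, Matrix.map_add _ (map_add _),
        Matrix.map_one _ (map_zero _) (map_one _)]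
      congr 1
      rw [Matrix.map_single]
      simp
    rw [← e]
    exact hw _
  have h4 := all_fix hρ (by omega) h3
  have h5 := disp_of_near hρ.adj h4 hwv g
  linarith

end mautner

section prods

/-- finite products of Kazhdan groups -/
theorem kgroup_prod {E₁ E₂ : Type} [Group E₁] [TopologicalSpace E₁] [Group E₂]
    [TopologicalSpace E₂] (h₁ : KGroup E₁) (h₂ : KGroup E₂) : KGroup (E₁ × E₂) := by
  obtain ⟨F₁, C₁, hF₁, hC₁, hb₁⟩ := h₁
  obtain ⟨F₂, C₂, hF₂, hC₂, hb₂⟩ := h₂
  refine ⟨(MonoidHom.inl E₁ E₂ '' F₁) ∪ (MonoidHom.inr E₁ E₂ '' F₂), C₁ + C₂,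
    (hF₁.image _).union (hF₂.image _), by positivity, ?_⟩
  intro H _ _ _ ρ hρ v c hv g
  have c1 : Continuous (MonoidHom.inl E₁ E₂) := by
    change Continuous fun x => (x, (1 : E₂))
    fun_prop
  have c2 : Continuous (MonoidHom.inr E₁ E₂) := by
    change Continuous fun x => ((1 : E₁), x)
    fun_prop
  have h1 := hb₁ (ρ.comp (MonoidHom.inl E₁ E₂)) (hρ.comp _ c1) v c
    (fun s hs => hv _ (Or.inl ⟨s, hs, rfl⟩)) g.1
  have h2 := hb₂ (ρ.comp (MonoidHom.inr E₁ E₂)) (hρ.comp _ c2) v c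
    (fun s hs => hv _ (Or.inr ⟨s, hs, rfl⟩)) g.2
  rw [MonoidHom.comp_apply] at h1 h2
  have e : g = MonoidHom.inl E₁ E₂ g.1 * MonoidHom.inr E₁ E₂ g.2 := by
    ext <;> simp
  have e2 : ρ g v - v = ρ (MonoidHom.inl E₁ E₂ g.1) (ρ (MonoidHom.inr E₁ E₂ g.2) v - v) +
      (ρ (MonoidHom.inl E₁ E₂ g.1) v - v) := by
    nth_rewrite 1 [e]
    rw [map_mul]
    change ρ _ (ρ _ v) - v = _
    rw [map_sub]
    abel
  rw [e2]
  refine (norm_add_le _ _).trans ?_
  rw [u_norm hρ.adj, add_mul, add_comm]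
  exact add_le_add h1 h2

theorem kgroup_pi {ι : Type} [Fintype ι] [DecidableEq ι] {E : ι → Type} [∀ i, Group (E i)]
    [∀ i, TopologicalSpace (E i)] (h : ∀ i, KGroup (E i)) : KGroup (∀ i, E i) := by
  choose F C hF hC hb using h
  refine ⟨{1} ∪ ⋃ i, MonoidHom.mulSingle E i '' F i, ∑ i, C i + 1,
    (Set.finite_singleton _).union (Set.finite_iUnion fun i => (hF i).image _), by
      have : 0 ≤ ∑ i, C i := Finset.sum_nonneg fun i _ => (hC i).le
      linarith, ?_⟩
  intro H _ _ _ ρ hρ v c hv g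
  have h0 : 0 ≤ c := (norm_nonneg _).trans (hv 1 (Or.inl rfl))
  have hms : ∀ i, Continuous (MonoidHom.mulSingle E i) := fun i => continuous_mulSingle i
  have h1 : ∀ i (x : E i), ‖ρ (Pi.mulSingle i x) v - v‖ ≤ C i * c := fun i x =>
    hb i (ρ.comp (MonoidHom.mulSingle E i)) (hρ.comp _ (hms i)) v c
      (fun s hs => hv _ (Or.inr (Set.mem_iUnion.2 ⟨i, s, hs, rfl⟩))) x
  have key : ∀ (s : Finset ι) (g : ∀ i, E i), (∀ i, i ∉ s → g i = 1) →
      ‖ρ g v - v‖ ≤ ∑ i ∈ s, C i * c := by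
    intro s
    induction s using Finset.induction_on with
    | empty =>
      intro g hg
      have : g = 1 := funext fun i => hg i (Finset.notMem_empty i)
      rw [this, map_one]
      simp
    | insert a s ha ih =>
      intro g hg
      have e : g = Pi.mulSingle a (g a) * Function.update g a 1 := by
        funext i
        by_cases hi : i = a
        · subst hi; simp
        · simp [hi]
      have e2 : ρ g v - v = ρ (Pi.mulSingle a (g a)) (ρ (Function.update g a 1) v - v) +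
          (ρ (Pi.mulSingle a (g a)) v - v) := by
        nth_rewrite 1 [e]
        rw [map_mul]
        change ρ _ (ρ _ v) - v = _
        rw [map_sub]
        abel
      rw [e2, Finset.sum_insert ha, add_comm (C a * c)]
      refine (norm_add_le _ _).trans ?_
      rw [u_norm hρ.adj]
      refine add_le_add (ih _ ?_) (h1 _ _)
      intro i hi
      by_cases hia : i = a
      · subst hia; simp
      · rw [Function.update_of_ne hia]
        exact hg i (by simp [hia, hi])
  have h2 := key Finset.univ g (fun i hi => absurd (Finset.mem_univ i) hi)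
  rw [← Finset.sum_mul] at h2
  rw [add_mul, one_mul]
  linarith

end prods

end Vale.Agent.P092.H103
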