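import Vale.Agent.P092.H103.Lat

/-!
Property (T) for lattices: constant sections and invariant sections of the induced representation.
-/

set_option linter.all false

open scoped InnerProductSpace ENNReal
open Set Filter Topology MeasureTheory ContinuousLinearMap

namespace Vale.Agent.P092.H103

open Vale.Agent.P092.H790 Vale.Agent.P092.H85

section sect

variable {E : Type} [Group E] [TopologicalSpace E] [IsTopologicalGroup E] [LocallyCompactSpace E]
  [SecondCountableTopology E] [T2Space E] [MeasurableSpace E] [BorelSpace E]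
  {Λ : Subgroup E} [DiscreteTopology Λ] [MeasurableSpace (E ⧸ Λ)] [BorelSpace (E ⧸ Λ)]
  {ν : Measure (E ⧸ Λ)} [IsProbabilityMeasure ν] (hν : ∀ g : E, ν.map (fun x => g • x) = ν)
  {K : Type} [NormedAddCommGroup K] [InnerProductSpace ℂ K] [CompleteSpace K]
  {π : Λ →* (K →L[ℂ] K)} (hπ : ∀ g, adjoint (π g) = π g⁻¹) [Countable Λ]

include hν in
theorem mpres (g : E) : MeasurePreserving (fun x : E ⧸ Λ => g • x) ν ν := ⟨smul_meas Λ g, hν g⟩

include hπ in
theorem const_disp (v : K) {c : ℝ} (hc : 0 ≤ c) {F : Finset Λ} (hF : ∀ s ∈ F, ‖π s v - v‖ ≤ c)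
    (g : E) {ε : ℝ} (hg : ν.real {x | coc Λ g x ∉ F} ≤ ε) :
    ‖iro hν π g (Lp.const 2 ν v) - Lp.const 2 ν v‖ ≤ c + 2 * ‖v‖ * Real.sqrt ε := by
  have hm1 : MeasurableSet {x : E ⧸ Λ | coc Λ g x ∉ F} := by
    have : {x : E ⧸ Λ | coc Λ g x ∉ F} = (⋃ s ∈ F, {x | coc Λ g x = s})ᶜ := by
      ext x; simp
    rw [this]
    exact (Finset.measurableSet_biUnion _ fun s _ => coc_meas Λ g s).compl
  obtain ⟨B, hB⟩ : ∃ B : Set (E ⧸ Λ), B = {x | coc Λ g (g⁻¹ • x) ∉ F} := ⟨_, rfl⟩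
  have hBm : MeasurableSet B := by
    rw [hB]; exact (smul_meas Λ g⁻¹) hm1
  have hBν : ν.real B ≤ ε := by
    have h2 := (mpres hν g⁻¹).measureReal_preimage hm1.nullMeasurableSet
    rw [hB]
    exact h2.le.trans hg
  set h : Lp ℝ 2 ν := Lp.const 2 ν c + indicatorConstLp 2 hBm (measure_ne_top ν B) (2 * ‖v‖) with hh
  have h1 : ‖iro hν π g (Lp.const 2 ν v) - Lp.const 2 ν v‖ ≤ ‖h‖ := by
    refine Lp.norm_le_norm_of_ae_le ?_
    have c1 : ⇑(Lp.const 2 ν v) =ᵐ[ν] Function.const _ v := Lp.coeFn_const ..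
    have c2 : ⇑(Lp.const 2 ν c) =ᵐ[ν] Function.const _ c := Lp.coeFn_const ..
    have c3 : ∀ᵐ x ∂ν, (Lp.const 2 ν v : Lp K 2 ν) (g⁻¹ • x) = v := ae_comp (mpres hν g⁻¹) c1
    filter_upwards [iro_ae hν hπ g (Lp.const 2 ν v), c1, c2, c3,
      Lp.coeFn_sub (iro hν π g (Lp.const 2 ν v)) (Lp.const 2 ν v),
      Lp.coeFn_add (Lp.const 2 ν c) (indicatorConstLp 2 hBm (measure_ne_top ν B) (2 * ‖v‖)),
      indicatorConstLp_coeFn (p := 2) (hs := hBm) (hμs := measure_ne_top ν B) (c := 2 * ‖v‖)]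
      with x a1 a2 a3 a4 a5 a6 a7
    rw [a5, Pi.sub_apply, a1, a2, a4, hh, a6, Pi.add_apply, a3, a7]
    simp only [Function.const_apply]
    by_cases hx : x ∈ B
    · rw [Set.indicator_of_mem hx, Real.norm_of_nonneg (by positivity)]
      refine (norm_sub_le _ _).trans ?_
      rw [Vale.Agent.P092.H885.u_norm hπ]
      linarith
    · rw [Set.indicator_of_notMem hx, add_zero, Real.norm_of_nonneg hc]
      refine hF _ ?_
      by_contra hcon
      exact hx (by rw [hB]; exact hcon)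
  refine h1.trans ?_
  rw [hh]
  refine (norm_add_le _ _).trans ?_
  refine add_le_add ?_ ?_
  · refine (Lp.norm_const_le _ _ _).trans ?_
    simp [abs_of_nonneg hc]
  · refine norm_indicatorConstLp_le.trans ?_
    rw [Real.norm_of_nonneg (by positivity)]
    refine mul_le_mul_of_nonneg_left ?_ (by positivity)
    have e1 : ν.real B ^ (1 / (2 : ℝ≥0∞).toReal) = Real.sqrt (ν.real B) := by
      rw [Real.sqrt_eq_rpow]
      norm_num
    rw [e1]
    exact Real.sqrt_le_sqrt hBν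

include hπ in
theorem exists_inv (η : Lp K 2 ν) (hη : ∀ g, iro hν π g η = η) (h0 : η ≠ 0) :
    ∃ w : K, w ≠ 0 ∧ ∀ γ, π γ w = w := by
  obtain ⟨f, hf⟩ : ∃ f : E ⧸ Λ → K, f = ⇑η := ⟨_, rfl⟩
  have hfm : StronglyMeasurable f := by rw [hf]; exact Lp.stronglyMeasurable η
  haveI hcl : IsClosed (Λ : Set E) := Subgroup.isClosed_of_discrete
  have hsm : Measurable fun p : E × (E ⧸ Λ) => p.1 • p.2 := continuous_smul.measurable
  have hcm : ∀ v : Λ, MeasurableSet {p : E × (E ⧸ Λ) | coc Λ p.1 p.2 = v} := by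
    intro v
    have e : {p : E × (E ⧸ Λ) | coc Λ p.1 p.2 = v} =
        (fun p : E × (E ⧸ Λ) => (sec Λ (p.1 • p.2))⁻¹ * p.1 * sec Λ p.2) ⁻¹' {(v : E)} := by
      ext p
      simp [Subtype.ext_iff, coc_coe]
    rw [e]
    have h1 : Measurable fun p : E × (E ⧸ Λ) => (sec Λ (p.1 • p.2))⁻¹ * p.1 * sec Λ p.2 :=
      ((((sec_meas Λ).comp hsm).inv.mul measurable_fst).mul ((sec_meas Λ).comp measurable_snd))
    exact h1 (measurableSet_singleton _)
  have hNm : MeasurableSet {p : E × (E ⧸ Λ) | f (p.1 • p.2) = π (coc Λ p.1 p.2) (f p.2)} := by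
    have e : {p : E × (E ⧸ Λ) | f (p.1 • p.2) = π (coc Λ p.1 p.2) (f p.2)} =
        ⋃ v : Λ, ({p : E × (E ⧸ Λ) | coc Λ p.1 p.2 = v} ∩
          {p : E × (E ⧸ Λ) | f (p.1 • p.2) = π v (f p.2)}) := by
      ext p
      constructor
      · intro hp
        exact mem_iUnion.2 ⟨coc Λ p.1 p.2, rfl, hp⟩
      · intro hp
        obtain ⟨v, hv1, hv2⟩ := mem_iUnion.1 hp
        have hv1' : coc Λ p.1 p.2 = v := hv1
        change f (p.1 • p.2) = π (coc Λ p.1 p.2) (f p.2)
        rw [hv1']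
        exact hv2
    rw [e]
    refine MeasurableSet.iUnion fun v => (hcm v).inter ?_
    have s1 : StronglyMeasurable fun p : E × (E ⧸ Λ) => f (p.1 • p.2) := hfm.comp_measurable hsm
    have s2 : StronglyMeasurable fun p : E × (E ⧸ Λ) => π v (f p.2) :=
      (π v).continuous.comp_stronglyMeasurable (hfm.comp_measurable measurable_snd)
    exact StronglyMeasurable.measurableSet_eq_fun s1 s2
  have hall : ∀ g : E, ∀ᵐ x ∂ν, f (g • x) = π (coc Λ g x) (f x) := by
    intro g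
    have h1 := iro_ae hν hπ g η
    rw [hη g, ← hf] at h1
    have h2 := ae_comp (mpres hν g) h1
    filter_upwards [h2] with x hx
    rw [inv_smul_smul] at hx
    exact hx
  set m : Measure E := Measure.haar with hm
  have h2 : ∀ᵐ x ∂ν, ∀ᵐ g ∂m, f (g • x) = π (coc Λ g x) (f x) :=
    (Measure.ae_ae_comm (μ := m) (ν := ν) hNm).1 (Eventually.of_forall hall)
  have h3 : ∃ᶠ x in ae ν, f x ≠ 0 := by
    rw [Filter.Frequently]
    intro hcon
    apply h0
    rw [Lp.eq_zero_iff_ae_eq_zero]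
    filter_upwards [hcon] with x hx
    rw [← hf]
    by_contra hh
    exact hx hh
  obtain ⟨x, hx0, hx⟩ := (h3.and_eventually h2).exists
  refine ⟨f x, hx0, fun γ => ?_⟩
  set σ : E := sec Λ x with hσ
  set k : E := σ * (γ : E) * σ⁻¹ with hk
  have hkx : k • x = x := by
    have e1 : ((σ : E) : E ⧸ Λ) = x := sec_coe Λ x
    rw [← e1]
    change ((k * σ : E) : E ⧸ Λ) = _
    rw [hk, inv_mul_cancel_right]
    rw [QuotientGroup.eq]
    have : (σ * (γ : E))⁻¹ * σ = ((γ⁻¹ : Λ) : E) := by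
      rw [Subgroup.coe_inv]; group
    rw [this]
    exact (γ⁻¹).2
  have hck : coc Λ k x = γ := by
    apply Subtype.ext
    rw [coc_coe, hkx, ← hσ, hk]
    group
  have hx' : ∀ᵐ g ∂m, f ((g * k) • x) = π (coc Λ (g * k) x) (f x) := by
    rw [ae_iff] at hx ⊢
    have := (measure_mul_right_null m k (s := {g | ¬ f (g • x) = π (coc Λ g x) (f x)})).2 hx
    exact this
  haveI : NeZero m := ⟨by
    rw [hm]
    exact NeZero.ne _⟩
  obtain ⟨g, hg1, hg2⟩ := (hx.and hx').exists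
  rw [mul_smul, hkx, coc_mul, hkx, hck, map_mul, hg1] at hg2
  have h5 : π (coc Λ g x)⁻¹ (π (coc Λ g x) (f x)) =
      π (coc Λ g x)⁻¹ ((π (coc Λ g x) * π γ) (f x)) := by rw [hg2]
  have h6 : ∀ w, π (coc Λ g x)⁻¹ (π (coc Λ g x) w) = w := by
    intro w
    have : (π (coc Λ g x)⁻¹ * π (coc Λ g x)) w = w := by
      rw [← map_mul, inv_mul_cancel, map_one]; rfl
    exact this
  rw [h6] at h5
  have h7 : π (coc Λ g x)⁻¹ ((π (coc Λ g x) * π γ) (f x)) = π γ (f x) := h6 _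
  rw [h7] at h5
  exact h5.symm

end sect

end Vale.Agent.P092.H103
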