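import Vale.Agent.P092.H103.Lat2

/-!
Property (T) for lattices: Kazhdan pairs; Kazhdan pairs generate.
-/

set_option linter.all false

open scoped InnerProductSpace ENNReal
open Set Filter Topology MeasureTheory ContinuousLinearMap

namespace Vale.Agent.P092.H103

open Vale.Agent.P092.H790 Vale.Agent.P092.H85
open Vale.Agent.P092.H885 (URep IsKazhdanPair u_norm gap_of_gen invSub kazhdan_moves)

section lat

variable {E : Type} [Group E] [TopologicalSpace E] [IsTopologicalGroup E] [LocallyCompactSpace E]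
  [SecondCountableTopology E] [T2Space E]

/-- lattices in Kazhdan groups have Kazhdan pairs -/
theorem lattice_kazhdan (hE : KGroup E) (Λ : Subgroup E) [DiscreteTopology Λ]
    [MeasurableSpace (E ⧸ Λ)] [BorelSpace (E ⧸ Λ)] (ν : Measure (E ⧸ Λ)) [IsProbabilityMeasure ν]
    (hν : ∀ g : E, ν.map (fun x => g • x) = ν) :
    ∃ (Q : Finset Λ) (ε : ℝ), IsKazhdanPair Λ Q ε := by
  classical
  borelize E
  haveI : SecondCountableTopology Λ := inferInstance
  haveI : TopologicalSpace.SeparableSpace Λ := inferInstance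
  haveI : Countable Λ := TopologicalSpace.separableSpace_iff_countable.1 inferInstance
  obtain ⟨F, C, hF, hC, hb⟩ := hE
  set ε' : ℝ := (1 / (8 * C)) ^ 2 with hε'
  have hε'0 : 0 < ε' := by positivity
  obtain ⟨Q0, hQ0⟩ := coc_tight (Λ := Λ) ν hν hF.isCompact hε'0
  refine ⟨insert 1 Q0, 1 / (4 * C), by positivity, fun K _ _ _ π hinv v => ?_⟩
  by_cases hv : v = 0
  · refine ⟨1, Finset.mem_insert_self _ _, ?_⟩
    rw [hv, norm_zero, mul_zero]
    exact norm_nonneg _
  by_contra hcon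
  push Not at hcon
  have hv0 : 0 < ‖v‖ := norm_pos_iff.2 hv
  have hπ := URep.op_adj π
  set c : ℝ := 1 / (4 * C) * ‖v‖ with hc
  have hc0 : 0 ≤ c := by positivity
  set ζ : Lp K 2 ν := Lp.const 2 ν v with hζ
  have h1 : ∀ g ∈ F, ‖irep hν hπ g ζ - ζ‖ ≤ c + 2 * ‖v‖ * Real.sqrt ε' := by
    intro g hg
    exact const_disp hν hπ v hc0 (F := Q0)
      (fun s hs => (hcon s (Finset.mem_insert_of_mem hs)).le) g (hQ0 g hg)
  have h2 := hb (irep hν hπ) (irep_crep hν hπ) ζ _ h1
  obtain ⟨η, hη, hηζ⟩ := near_fixed (irep_crep hν hπ).adj h2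
  have e1 : C * (c + 2 * ‖v‖ * Real.sqrt ε') = ‖v‖ / 2 := by
    rw [hε', Real.sqrt_sq (by positivity), hc]
    field_simp
    norm_num
  rw [e1] at hηζ
  have hζn : ‖ζ‖ = ‖v‖ := by
    have := Lp.norm_const' 2 ν v (by norm_num) (by norm_num)
    rw [hζ, this]
    simp
  have hη0 : η ≠ 0 := by
    intro h0
    rw [h0, zero_sub, norm_neg, hζn] at hηζ
    linarith
  obtain ⟨w, hw, hwi⟩ := exists_inv hν hπ η hη hη0
  exact hw (hinv w hwi)

end lat

section gens

variable {Γ : Type} [Group Γ]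

/-- Kazhdan pairs for all finite generating sets -/
theorem kaz_all {F Q : Finset Γ} {ε : ℝ} (hK : IsKazhdanPair Γ F ε) (hQ : Q.Nonempty)
    (hgen : Subgroup.closure (Q : Set Γ) = ⊤) : ∃ ε' : ℝ, IsKazhdanPair Γ Q ε' := by
  have hC1 : (0 : ℝ) < min ε 1 := lt_min hK.1 one_pos
  obtain ⟨ε', hε, hε1, hgap⟩ := gap_of_gen hgen (F : Set Γ) F.finite_toSet hC1 (min_le_right _ _)
  refine ⟨ε', hε, fun H _ _ _ π hinv v => ?_⟩
  by_cases hv : v = 0
  · obtain ⟨s, hs⟩ := hQ
    refine ⟨s, hs, ?_⟩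
    rw [hv, norm_zero, mul_zero]
    exact norm_nonneg _
  · refine hgap (URep.op π) (URep.op_adj π) v hv ?_
    obtain ⟨s, hs, h1⟩ := hK.2 H π hinv v
    refine ⟨s, hs, le_trans ?_ h1⟩
    have := min_le_left ε 1
    gcongr

/-- the permutation representation on `ℓ²(X)` -/
noncomputable def prep (X : Type) [MulAction Γ X] : URep Γ (lp (fun _ : X => ℂ) 2) where
  act g f := ⟨fun x => f (g⁻¹ • x), by
    have h1 := lp.memℓp f
    have h2 : (0 : ℝ) < (2 : ℝ≥0∞).toReal := by norm_num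
    have h3 := (memℓp_gen_iff h2).1 h1
    exact (memℓp_gen_iff h2).2 ((MulAction.toPerm (g⁻¹ : Γ) : Equiv.Perm X).summable_iff.2 h3)⟩
  act_add g v w := by ext x; rfl
  act_smul g c v := by ext x; rfl
  norm_act g v := by
    have h2 : (0 : ℝ) < (2 : ℝ≥0∞).toReal := by norm_num
    rw [lp.norm_eq_tsum_rpow h2, lp.norm_eq_tsum_rpow h2]
    congr 1
    exact (MulAction.toPerm (g⁻¹ : Γ) : Equiv.Perm X).tsum_eq
      (fun x => ‖(v : X → ℂ) x‖ ^ (2 : ℝ≥0∞).toReal)
  act_one v := by
    ext x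
    change v ((1 : Γ)⁻¹ • x) = v x
    rw [inv_one, one_smul]
  act_mul g h v := by
    ext x
    change v ((g * h)⁻¹ • x) = v (h⁻¹ • (g⁻¹ • x))
    rw [mul_inv_rev, mul_smul]

theorem prep_apply (X : Type) [MulAction Γ X] (g : Γ) (f : lp (fun _ : X => ℂ) 2) (x : X) :
    (prep X).act g f x = f (g⁻¹ • x) := rfl

/-- the finite set of a Kazhdan pair generates -/
theorem kaz_gen {Q : Finset Γ} {ε : ℝ} (hK : IsKazhdanPair Γ Q ε) :
    Subgroup.closure (Q : Set Γ) = ⊤ := by
  classical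
  set Δ := Subgroup.closure (Q : Set Γ) with hΔ
  set X := Γ ⧸ Δ with hX
  set o : X := ((1 : Γ) : Γ ⧸ Δ) with ho
  set v : lp (fun _ : X => ℂ) 2 := lp.single 2 o (1 : ℂ) with hv
  have hπ := URep.op_adj (prep (Γ := Γ) X)
  have hfix : ∀ s ∈ Q, URep.op (prep (Γ := Γ) X) s v = v := by
    intro s hs
    ext x
    rw [URep.op_apply, prep_apply, hv, lp.coeFn_single, Pi.single_apply, Pi.single_apply]
    have hs' : s ∈ Δ := Subgroup.subset_closure hs
    have h1 : (s⁻¹ • x = o) ↔ x = o := by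
      rw [inv_smul_eq_iff]
      have h2 : s • o = o := by
        rw [ho]
        change ((s * 1 : Γ) : Γ ⧸ Δ) = _
        rw [mul_one, QuotientGroup.eq, mul_one]
        exact Δ.inv_mem hs'
      rw [h2]
    simp only [h1]
  set S := invSub (URep.op (prep (Γ := Γ) X)) with hS
  have hSc : IsClosed (S : Set (lp (fun _ : X => ℂ) 2)) := by
    have e : (S : Set (lp (fun _ : X => ℂ) 2)) =
        ⋂ g : Γ, {v | URep.op (prep (Γ := Γ) X) g v = v} := by
      ext v
      simp only [SetLike.mem_coe, mem_iInter]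
      rfl
    rw [e]
    exact isClosed_iInter fun g => isClosed_eq (URep.op (prep (Γ := Γ) X) g).continuous continuous_id
  haveI : CompleteSpace S := hSc.completeSpace_coe
  set v2 := v - S.starProjection v with hv2
  have hv2o : v2 ∈ Sᗮ := Submodule.sub_starProjection_mem_orthogonal v
  obtain ⟨s, hs, h1⟩ := kazhdan_moves hπ hK hv2o
  have h2 : URep.op (prep (Γ := Γ) X) s v2 = v2 := by
    rw [hv2, map_sub, hfix s hs]
    have h3 : S.starProjection v ∈ S := Submodule.starProjection_apply_mem S v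
    rw [show URep.op (prep (Γ := Γ) X) s (S.starProjection v) = S.starProjection v from h3 s]
  rw [h2, sub_self, norm_zero] at h1
  have h4 : v2 = 0 := by
    have h5 : ‖v2‖ ≤ 0 := by
      by_contra hcon
      push Not at hcon
      have := mul_pos hK.1 hcon
      linarith
    exact norm_le_zero_iff.1 h5
  have h6 : v ∈ S := by
    have h7 : v = S.starProjection v := sub_eq_zero.1 (hv2 ▸ h4)
    rw [h7]
    exact Submodule.starProjection_apply_mem S v
  rw [eq_top_iff]
  intro g _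
  have h8 : URep.op (prep (Γ := Γ) X) g v = v := h6 g
  have h9 := congrArg (fun f : lp (fun _ : X => ℂ) 2 => f o) h8
  simp only at h9
  rw [URep.op_apply, prep_apply, hv, lp.coeFn_single, Pi.single_apply, Pi.single_apply,
    if_pos rfl] at h9
  by_contra hcon
  rw [if_neg] at h9
  · exact zero_ne_one h9
  · intro h10
    rw [inv_smul_eq_iff, ho] at h10
    have h11 : ((1 : Γ) : Γ ⧸ Δ) = ((g * 1 : Γ) : Γ ⧸ Δ) := h10
    rw [mul_one, QuotientGroup.eq, inv_one, one_mul] at h11
    exact hcon h11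

end gens

end Vale.Agent.P092.H103
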