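import Vale.Agent.P092.H103.MainT
import Vale.Agent.P092.H103.Lat3

/-!
The stable dichotomy for lattices in groups isogenous to finite products of `SL_d(ℝ)`, `SL_e(ℂ)`,
`d, e ≥ 3`.
-/

set_option linter.all false

open scoped InnerProductSpace
open Filter Topology ContinuousLinearMap MeasureTheory
open Vale.Agent.P092.H160
open Vale.Agent.P092.H885 (fourth IsKazhdanPair avg)

namespace Vale.Agent.P092.H103

/-- a gap for `Γ` and `Q`, uniform in `Λ`, `n`, `p`, `θ` -/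
def HasGap (Γ : Type) [Group Γ] (Q : Finset Γ) : Prop :=
  ∃ δ : ℝ, 0 < δ ∧ δ < 1 ∧
    ∀ (Λ : Type) [Group Λ], (∀ s : Λ, s ≠ 1 → Set.Infinite {y : Λ | ∃ h, y = h * s * h⁻¹}) →
    ∀ (n : ℕ) (p : St.MOp n Λ), St.IsProj p → ∀ θ : St.CornerIso Γ Λ n p,
      (St.mtr p = 1 ∧ St.CanonicalM θ) ∨
      ((∃ s ∈ Q, St.mfourth (θ.toFun (H160.St.u s)) ≤ (1 - δ) * St.mfourth p) ∧
        ∀ (a b : Γ) (k : ℕ), (avg Q)^[k]
          (fun g => St.mfourth (θ.toFun (H160.St.u (a * g * b)))) 1 ≤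
            (1 - δ) ^ k * St.mfourth p)

theorem gap_of_kaz {Γ : Type} [Group Γ]
    (hicc : ∀ g : Γ, g ≠ 1 → Set.Infinite {y : Γ | ∃ h, y = h * g * h⁻¹}) {Q : Finset Γ}
    {ε : ℝ} (hQ : Q.Nonempty) (hK : IsKazhdanPair Γ Q ε) : HasGap Γ Q := by
  have hc : (1 : ℝ) ≤ Q.card := by exact_mod_cast hQ.card_pos
  set ε' : ℝ := min ε 1 with hε'
  have h0 : 0 < ε' := lt_min hK.1 one_pos
  have h1 : ε' ≤ 1 := min_le_right _ _
  have hK' : IsKazhdanPair Γ Q ε' := by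
    refine ⟨h0, fun H _ _ _ π hinv v => ?_⟩
    obtain ⟨s, hs, h2⟩ := hK.2 H π hinv v
    refine ⟨s, hs, le_trans ?_ h2⟩
    have := min_le_left ε 1
    gcongr
  have hε2 : ε' ^ 2 ≤ 1 := pow_le_one₀ h0.le h1
  refine ⟨ε' ^ 2 / (4 * Q.card), by positivity, ?_, fun Λ _ hΛ n p hp θ => ?_⟩
  · rw [div_lt_one (by positivity)]; nlinarith
  · rcases st_kazhdan hicc hΛ hp θ hK' with h | ⟨⟨s, hs, h5⟩, h6⟩
    · exact Or.inl h
    · refine Or.inr ⟨⟨s, hs, h5.trans ?_⟩, h6⟩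
      have h7 : ε' ^ 2 / (4 * Q.card) ≤ ε' ^ 2 / 2 := by
        gcongr
        linarith
      have h8 := mfourth_nonneg p
      nlinarith

/-- the smallest closed subgroup `M` of `G` which contains the image of `φ`, and contains `u` as
soon as `a⁻ᵏ u aᵏ → 1` for some `a ∈ M` -/
def mau {E G : Type} [Group E] [Group G] [TopologicalSpace G] (φ : E →* G) : Subgroup G :=
  sInf {M : Subgroup G | IsClosed (M : Set G) ∧ φ.range ≤ M ∧
    ∀ a ∈ M, ∀ u : G, Tendsto (fun k : ℕ => (a ^ k)⁻¹ * u * a ^ k) atTop (𝓝 1) → u ∈ M}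

/-- Mautner phenomenon -/
theorem fix_mau {E G : Type} [Group E] [Group G] [TopologicalSpace G] [IsTopologicalGroup G]
    (φ : E →* G) {H : Type} [NormedAddCommGroup H] [InnerProductSpace ℂ H] [CompleteSpace H]
    {ρ : G →* (H →L[ℂ] H)} (hρ : CRep ρ) {w : H} (hw : ∀ k, ρ (φ k) w = w) {g : G}
    (hg : g ∈ mau φ) : ρ g w = w := by
  have hmul : ∀ a b : G, ρ (a * b) w = ρ a (ρ b w) := fun a b => by rw [map_mul]; rfl
  have hinv : ∀ a : G, ρ a w = w → ρ a⁻¹ w = w := by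
    intro a ha
    have h1 : ρ (a⁻¹ * a) w = w := by rw [inv_mul_cancel, map_one]; rfl
    rw [hmul, ha] at h1
    exact h1
  set M : Subgroup G :=
    { carrier := {g | ρ g w = w}
      mul_mem' := fun {a b} ha hb => by
        have ha' : ρ a w = w := ha
        have hb' : ρ b w = w := hb
        change ρ (a * b) w = w
        rw [hmul, hb', ha']
      one_mem' := by
        change ρ 1 w = w
        rw [map_one]; rfl
      inv_mem' := fun {a} ha => hinv a ha } with hM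
  have hc : Continuous fun g => ρ g w := by
    rw [continuous_iff_continuousAt]
    intro g
    have h1 : Tendsto (fun k : G => g⁻¹ * k) (𝓝 g) (𝓝 1) := by
      have := (continuous_const_mul g⁻¹).tendsto g
      rwa [inv_mul_cancel] at this
    have h2 := (hρ.cont w).comp h1
    have h3 := ((ρ g).continuous.tendsto w).comp h2
    have h4 : (fun k : G => ρ g (ρ (g⁻¹ * k) w)) = fun k => ρ k w := by
      funext k
      rw [← hmul, mul_inv_cancel_left]
    have h5 : Tendsto (fun k : G => ρ g (ρ (g⁻¹ * k) w)) (𝓝 g) (𝓝 (ρ g w)) := h3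
    rw [h4] at h5
    exact h5
  have hMc : IsClosed (M : Set G) := isClosed_eq hc continuous_const
  have hle : mau φ ≤ M := by
    refine sInf_le ⟨hMc, ?_, ?_⟩
    · rintro _ ⟨k, rfl⟩
      exact hw k
    · intro a ha u hu
      have ha' : ρ a w = w := ha
      have hak : ∀ k : ℕ, ρ (a ^ k) w = w := by
        intro k
        induction k with
        | zero => rw [pow_zero, map_one]; rfl
        | succ k ih => rw [pow_succ, hmul, ha', ih]
      have h1 : ∀ k : ℕ, ‖ρ ((a ^ k)⁻¹ * u * a ^ k) w - w‖ = ‖ρ u w - w‖ := by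
        intro k
        have h2 : ρ ((a ^ k)⁻¹ * u * a ^ k) w - w = ρ (a ^ k)⁻¹ (ρ u w - w) := by
          rw [map_sub, hinv _ (hak k), mul_assoc, hmul, hmul, hak]
        rw [h2, H885.u_norm hρ.adj]
      have h3 := (((hρ.cont w).comp hu).sub_const w).norm
      rw [sub_self, norm_zero] at h3
      have h4 : ‖ρ u w - w‖ ≤ 0 := ge_of_tendsto' h3 fun k => (h1 k).ge
      exact sub_eq_zero.1 (norm_le_zero_iff.1 h4)
  exact hle hg

/-- Kazhdan groups and homomorphisms with large image -/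
theorem kgroup_map {E G : Type} [Group E] [TopologicalSpace E] [Group G] [TopologicalSpace G]
    [IsTopologicalGroup G] (hE : KGroup E) (φ : E →* G) (hφ : Continuous φ)
    (hfi : (mau φ).FiniteIndex) : KGroup G := by
  obtain ⟨F, C, hF, hC, hb⟩ := hE
  haveI : Finite (G ⧸ mau φ) := Subgroup.finite_quotient_of_finiteIndex
  refine ⟨φ '' F ∪ Set.range (fun q : G ⧸ mau φ => q.out), 2 * C + 1,
    (hF.image _).union (Set.finite_range _), by positivity, ?_⟩
  intro H _ _ _ ρ hρ v c hv g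
  have hρφ := hρ.comp φ hφ
  have h1 := hb (ρ.comp φ) hρφ v c (fun s hs => hv _ (Or.inl ⟨s, hs, rfl⟩))
  obtain ⟨w, hw, hwv⟩ := near_fixed hρφ.adj h1
  have hw' : ∀ k ∈ mau φ, ρ k w = w := fun k hk => fix_mau φ hρ hw hk
  set k : G := ((g : G ⧸ mau φ).out)⁻¹ * g with hk
  have hkm : k ∈ mau φ := by
    rw [hk, ← QuotientGroup.eq]
    exact Quotient.out_eq' _
  have h2 : ‖ρ k v - v‖ ≤ 2 * (C * c) := by
    have e0 : ρ k v - v = ρ k (v - w) - (v - w) := by
      rw [map_sub, hw' k hkm]; abel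
    rw [e0]
    calc _ ≤ ‖ρ k (v - w)‖ + ‖v - w‖ := norm_sub_le _ _
      _ = 2 * ‖w - v‖ := by rw [H885.u_norm hρ.adj, norm_sub_rev]; ring
      _ ≤ _ := by linarith
  have h3 : ‖ρ ((g : G ⧸ mau φ).out) v - v‖ ≤ c := hv _ (Or.inr ⟨_, rfl⟩)
  have e : g = (g : G ⧸ mau φ).out * k := by rw [hk]; group
  have e2 : ρ g v - v = ρ ((g : G ⧸ mau φ).out) (ρ k v - v) +
      (ρ ((g : G ⧸ mau φ).out) v - v) := by
    conv_lhs => rw [e]
    rw [map_mul]
    change ρ _ (ρ _ v) - v = _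
    rw [map_sub]
    abel
  rw [e2]
  refine (norm_add_le _ _).trans ?_
  rw [H885.u_norm hρ.adj, add_mul, one_mul]
  linarith

theorem kgroup_main {r s : ℕ} {d : Fin r → ℕ} {e : Fin s → ℕ} (hd : ∀ i, 3 ≤ d i)
    (he : ∀ j, 3 ≤ e j) : KGroup ((∀ i, Matrix.SpecialLinearGroup (Fin (d i)) ℝ) ×
      (∀ j, Matrix.SpecialLinearGroup (Fin (e j)) ℂ)) :=
  kgroup_prod (kgroup_pi fun i => kgroup_sl (hd i)) (kgroup_pi fun j => kgroup_sl (he j))

/-- the gap for lattices -/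
theorem lattice_gap {r s : ℕ} {d : Fin r → ℕ} {e : Fin s → ℕ} (hd : ∀ i, 3 ≤ d i)
    (he : ∀ j, 3 ≤ e j) {G : Type} [Group G] [TopologicalSpace G] [IsTopologicalGroup G]
    [LocallyCompactSpace G] [SecondCountableTopology G] [T2Space G]
    (φ : ((∀ i, Matrix.SpecialLinearGroup (Fin (d i)) ℝ) ×
      (∀ j, Matrix.SpecialLinearGroup (Fin (e j)) ℂ)) →* G) (hφ : Continuous φ)
    (hfi : (mau φ).FiniteIndex) (Γ : Subgroup G) [DiscreteTopology Γ]
    [MeasurableSpace (G ⧸ Γ)] [BorelSpace (G ⧸ Γ)] (ν : Measure (G ⧸ Γ)) [IsProbabilityMeasure ν]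
    (hν : ∀ g : G, ν.map (fun x => g • x) = ν)
    (hicc : ∀ g : Γ, g ≠ 1 → Set.Infinite {y : Γ | ∃ h, y = h * g * h⁻¹}) :
    (∃ Q : Finset Γ, Subgroup.closure (Q : Set Γ) = ⊤) ∧
      ∀ Q : Finset Γ, Q.Nonempty → Subgroup.closure (Q : Set Γ) = ⊤ → HasGap Γ Q := by
  obtain ⟨F, ε, hK⟩ := lattice_kazhdan (kgroup_map (kgroup_main hd he) φ hφ hfi) Γ ν hν
  refine ⟨⟨F, kaz_gen hK⟩, fun Q hQ hgen => ?_⟩
  obtain ⟨ε', hK'⟩ := kaz_all hK hQ hgen
  exact gap_of_kaz hicc hQ hK'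

end Vale.Agent.P092.H103
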