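import Vale.Agent.P092.H103.Bri

/-!
Assembly of the stable dichotomy.
-/

set_option linter.all false

open scoped InnerProductSpace
open Filter Topology ContinuousLinearMap
open Vale.Agent.P092.H160
open Vale.Agent.P092.H885 (fourth IsKazhdanPair avg)

namespace Vale.Agent.P092.H103

variable {Γ Λ : Type} [Group Γ] [Group Λ] {n : ℕ} {p : St.MOp n Λ}

theorem st_dich (hΓ : ∀ g : Γ, g ≠ 1 → Set.Infinite {y : Γ | ∃ h, y = h * g * h⁻¹})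
    (hΛ : ∀ s : Λ, s ≠ 1 → Set.Infinite {y : Λ | ∃ h, y = h * s * h⁻¹}) (hp : St.IsProj p)
    (θ : St.CornerIso Γ Λ n p) :
    (St.mtr p = 1 ∧ St.CanonicalM θ) ∨ (0 : Ell2 (Fin n × Y3 (Fin n) Λ)) ∈ KK (alf θ) := by
  rcases frame_dich (af_of hΓ hp θ) hΓ hΛ with h | h
  · refine Or.inl ⟨?_, canonical_of_canF hp θ h.2⟩
    rw [mtr_eq hΓ hp θ, h.1, Complex.ofReal_one]
  · exact Or.inr h

theorem st_iff (hΓ : ∀ g : Γ, g ≠ 1 → Set.Infinite {y : Γ | ∃ h, y = h * g * h⁻¹})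
    (hΛ : ∀ s : Λ, s ≠ 1 → Set.Infinite {y : Λ | ∃ h, y = h * s * h⁻¹}) (hp : St.IsProj p)
    (θ : St.CornerIso Γ Λ n p) :
    (St.mtr p = 1 ∧ St.CanonicalM θ) ↔
      ∃ c : ℝ, 0 < c ∧ ∀ g, c ≤ St.mfourth (θ.toFun (H160.St.u g)) := by
  have hα := af_of hΓ hp θ
  simp only [q4_alf hΓ θ]
  constructor
  · rintro ⟨-, h⟩
    exact frame_lower hα (canF_of_canonical hp θ h)
  · rintro ⟨c, hc, h⟩
    rcases st_dich hΓ hΛ hp θ with h1 | h1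
    · exact h1
    · exact (kk_lower hα h1 hc h).elim

theorem st_kazhdan (hΓ : ∀ g : Γ, g ≠ 1 → Set.Infinite {y : Γ | ∃ h, y = h * g * h⁻¹})
    (hΛ : ∀ s : Λ, s ≠ 1 → Set.Infinite {y : Λ | ∃ h, y = h * s * h⁻¹}) (hp : St.IsProj p)
    (θ : St.CornerIso Γ Λ n p) {Q : Finset Γ} {ε : ℝ} (hK : IsKazhdanPair Γ Q ε) :
    (St.mtr p = 1 ∧ St.CanonicalM θ) ∨
      ((∃ s ∈ Q, St.mfourth (θ.toFun (H160.St.u s)) ≤ (1 - ε ^ 2 / 2) * St.mfourth p) ∧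
        ∀ (a b : Γ) (k : ℕ), (avg Q)^[k]
          (fun g => St.mfourth (θ.toFun (H160.St.u (a * g * b)))) 1 ≤
            (1 - ε ^ 2 / (4 * Q.card)) ^ k * St.mfourth p) := by
  have hα := af_of hΓ hp θ
  have h0 : St.mfourth p = q4 (alf θ) 1 := by
    rw [mfourth_eq hp.mem]
    unfold q4
    rw [alf_one hp θ]
  rcases st_dich hΓ hΛ hp θ with h | h
  · exact Or.inl h
  · right
    simp only [q4_alf hΓ θ]
    rw [h0]
    exact frame_kazhdan hα (zt_orth hα h) hK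

theorem st_soft (hΓ : ∀ g : Γ, g ≠ 1 → Set.Infinite {y : Γ | ∃ h, y = h * g * h⁻¹})
    (hΛ : ∀ s : Λ, s ≠ 1 → Set.Infinite {y : Λ | ∃ h, y = h * s * h⁻¹}) (hp : St.IsProj p)
    (θ : St.CornerIso Γ Λ n p) {Q : Finset Γ} (hQ : Q.Nonempty)
    (hgen : Subgroup.closure (Q : Set Γ) = ⊤) :
    (St.mtr p = 1 ∧ St.CanonicalM θ) ∨ ∀ a b : Γ, Tendsto
      (fun k : ℕ => (avg Q)^[k] (fun g => St.mfourth (θ.toFun (H160.St.u (a * g * b)))) 1)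
      atTop (𝓝 0) := by
  have hα := af_of hΓ hp θ
  rcases st_dich hΓ hΛ hp θ with h | h
  · exact Or.inl h
  · right
    intro a b
    simp only [q4_alf hΓ θ]
    exact frame_soft hα (zt_orth hα h) hQ hgen a b

end Vale.Agent.P092.H103
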