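import Vale.Agent.P092.H103.PT

/-!
Property (T) for the finite index subgroups of `SL_n(ℤ)`, `n ≥ 3`: every finite generating set
belongs to a Kazhdan pair.
-/

set_option linter.all false

open scoped InnerProductSpace Pointwise
open Filter Topology ContinuousLinearMap Matrix
open Vale.Agent.P092.H885 Vale.Agent.P092.H160

namespace Vale.Agent.P092.H103

section unif

variable {Γ : Type} [Group Γ] {H : Type} [NormedAddCommGroup H] [InnerProductSpace ℂ H]
  [CompleteSpace H] {π : Γ →* (H →L[ℂ] H)}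

/-- a vector moved uniformly little is near an invariant vector -/
theorem fixed_of_small (hπ : ∀ g, adjoint (π g) = π g⁻¹) {v : H} (hv : v ≠ 0)
    (h : ∀ g, ‖π g v - v‖ ≤ ‖v‖ / 2) : ∃ w : H, w ≠ 0 ∧ ∀ g, π g w = w := by
  set S : Set H := Set.range fun g => π g v with hS
  set K : Set H := closure (hull S) with hK
  have hKc : Cvx K := (cvx_hull S).closure
  have hne : K.Nonempty := ⟨π 1 v, subset_closure (subset_hull _ ⟨1, rfl⟩)⟩
  obtain ⟨w, hw, hmin, huniq⟩ := exists_min_norm hne isClosed_closure hKc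
  have hinv : ∀ (g : Γ) (x : H), x ∈ K → π g x ∈ K := by
    intro g x hx
    have h1 : hull S ⊆ {x | π g x ∈ hull S} := by
      refine hull_subset ?_ ?_
      · intro x hx y hy a b ha hb hab
        change π g ((a : ℂ) • x + (b : ℂ) • y) ∈ hull S
        rw [map_add, map_smul, map_smul]
        exact cvx_hull S _ hx _ hy a b ha hb hab
      · rintro _ ⟨k, rfl⟩
        refine subset_hull S ⟨g * k, ?_⟩
        simp only [map_mul]; rfl
    have h2 : Set.MapsTo (fun y : H => π g y) (hull S) (hull S) := fun y hy => h1 hy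
    exact map_mem_closure (π g).continuous hx h2
  have hball : ∀ x ∈ K, ‖x - v‖ ≤ ‖v‖ / 2 := by
    intro x hx
    have h1 : K ⊆ {x | ‖x - v‖ ≤ ‖v‖ / 2} := by
      refine closure_minimal (hull_subset ?_ ?_) (isClosed_le (by fun_prop) continuous_const)
      · intro x hx y hy a b ha hb hab
        change ‖_‖ ≤ _
        have hx' : ‖x - v‖ ≤ ‖v‖ / 2 := hx
        have hy' : ‖y - v‖ ≤ ‖v‖ / 2 := hy
        have e : (a : ℂ) • x + (b : ℂ) • y - v = (a : ℂ) • (x - v) + (b : ℂ) • (y - v) := by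
          have h2 : (a : ℂ) • v + (b : ℂ) • v = v := by
            rw [← add_smul, ← Complex.ofReal_add, hab, Complex.ofReal_one, one_smul]
          rw [smul_sub, smul_sub]
          nth_rewrite 1 [← h2]
          abel
        rw [e]
        refine (norm_add_le _ _).trans ?_
        rw [norm_smul, norm_smul, Complex.norm_real, Complex.norm_real, Real.norm_of_nonneg ha,
          Real.norm_of_nonneg hb]
        calc a * ‖x - v‖ + b * ‖y - v‖ ≤ a * (‖v‖ / 2) + b * (‖v‖ / 2) := by gcongr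
          _ = (a + b) * (‖v‖ / 2) := by ring
          _ = _ := by rw [hab, one_mul]
      · rintro _ ⟨g, rfl⟩
        exact h g
    exact h1 hx
  refine ⟨w, ?_, fun g => huniq _ (hinv g w hw) (u_norm hπ g w).le⟩
  rintro rfl
  have h1 := hball 0 hw
  rw [zero_sub, norm_neg] at h1
  have h2 := norm_pos_iff.mpr hv
  linarith

theorem disp_mul (hπ : ∀ g, adjoint (π g) = π g⁻¹) (a b : Γ) (v : H) :
    ‖π (a * b) v - v‖ ≤ ‖π a v - v‖ + ‖π b v - v‖ := by
  have e : π (a * b) v - v = π a (π b v - v) + (π a v - v) := by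
    rw [map_mul, map_sub]
    change π a (π b v) - v = _
    abel
  rw [e]
  refine (norm_add_le _ _).trans ?_
  rw [u_norm hπ, add_comm]

theorem fix_zpow (hπ : ∀ g, adjoint (π g) = π g⁻¹) {x : Γ} {η : H} (h : π x η = η) (k : ℤ) :
    π (x ^ k) η = η := by
  have hinv : π x⁻¹ η = η := by
    have h1 := u_inv hπ x η
    rw [h] at h1
    exact h1
  have hp : ∀ (y : Γ), π y η = η → ∀ m : ℕ, π (y ^ m) η = η := by
    intro y hy m
    rw [map_pow]
    exact pow_fix hy m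
  obtain ⟨m, rfl | rfl⟩ := k.eq_nat_or_neg
  · rw [zpow_natCast]; exact hp x h m
  · rw [_root_.zpow_neg, zpow_natCast, ← inv_pow]; exact hp _ hinv m

end unif

section core

variable {n : ℕ} {K : Subgroup (Matrix.SpecialLinearGroup (Fin n) ℤ)} {H : Type}
  [NormedAddCommGroup H] [InnerProductSpace ℂ H] [CompleteSpace H] {σ : K →* (H →L[ℂ] H)}

theorem xe_rel {i j l : Fin n} (hij : i ≠ j) (hjl : j ≠ l) (hil : i ≠ l) (c d : ℤ) :
    xe i l hil c * xe j l hjl d = xe j l hjl d * xe i l hil c ∧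
    xe i j hij c * xe i l hil d = xe i l hil d * xe i j hij c ∧
    xe i j hij c * xe j l hjl d = xe j l hjl d * xe i l hil (c * d) * xe i j hij c := by
  obtain ⟨h1, h2, h3⟩ := comm_rel hij hjl hil c d
  refine ⟨?_, ?_, ?_⟩
  · apply Subtype.ext
    simp only [Matrix.SpecialLinearGroup.coe_mul]
    exact h1
  · apply Subtype.ext
    simp only [Matrix.SpecialLinearGroup.coe_mul]
    exact h2
  · apply Subtype.ext
    simp only [Matrix.SpecialLinearGroup.coe_mul]
    exact h3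

theorem core_bound (hn : 3 ≤ n) {M : ℕ} (hM : 3 ≤ M) {z : ∀ i j : Fin n, i ≠ j → ℤ → K}
    (hz : ∀ i j h a, ((z i j h a : K) : Matrix.SpecialLinearGroup (Fin n) ℤ) = xe i j h (M * a))
    (hσ : ∀ g, adjoint (σ g) = σ g⁻¹) {v : H} {c : ℝ}
    (hc : ∀ i j h, ‖σ (z i j h 1) v - v‖ ≤ c) (i l : Fin n) (hil : i ≠ l) (a : ℤ) :
    ‖σ (z i l hil a) v - v‖ ≤ 8 * M * c := by
  obtain ⟨j, hij, hjl⟩ : ∃ j : Fin n, i ≠ j ∧ j ≠ l := by
    by_contra hcon
    push Not at hcon
    have h1 : (Finset.univ : Finset (Fin n)) ⊆ {i, l} := by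
      intro x _
      by_cases hx : i = x
      · simp [hx]
      · simp [hcon x hx]
    have h2 := Finset.card_le_card h1
    rw [Finset.card_univ, Fintype.card_fin] at h2
    have h3 : ({i, l} : Finset (Fin n)).card ≤ 2 := Finset.card_le_two
    omega
  have hss : ∀ g : K, star (σ g) * σ g = 1 := by
    intro g
    rw [ContinuousLinearMap.star_eq_adjoint, hσ, ← map_mul, inv_mul_cancel, map_one]
  have hss' : ∀ g : K, σ g * star (σ g) = 1 := by
    intro g
    rw [ContinuousLinearMap.star_eq_adjoint, hσ, ← map_mul, mul_inv_cancel, map_one]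
  have hcomm : ∀ {x y : K}, x * y = y * x → σ x * σ y = σ y * σ x := by
    intro x y h
    rw [← map_mul, h, map_mul]
  have r1 := xe_rel hij hjl hil (M * 1) (M * 1)
  have r2 := xe_rel hij.symm hil hjl (M * 1) (M * 1)
  have zp : ∀ (i j : Fin n) (h : i ≠ j), (((z i j h 1) ^ M : K) :
      Matrix.SpecialLinearGroup (Fin n) ℤ) = xe i j h ((M : ℤ) * 1 * ((M : ℤ) * 1)) := by
    intro i j h
    rw [Subgroup.coe_pow, hz, xe_pow]
    congr 1
    ring
  have zz : ∀ (a : ℤ), z i l hil a = (z i l hil 1) ^ a := by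
    intro a
    apply Subtype.ext
    rw [Subgroup.coe_zpow, hz, hz, xe_zpow]
    congr 1
    ring
  refine rel_all (U := σ (z i l hil 1)) (V := σ (z j l hjl 1)) (W1 := σ (z i j hij 1))
    (W2 := σ (z j i hij.symm 1)) (T := σ (z i l hil a)) (hss _) (hss' _) (hss _) (hss' _) (hss' _)
    (hss _) (hss' _) (hss _) ?_ hM ?_ ?_ ?_ ?_ (hc _ _ _) (hc _ _ _) (hc _ _ _) (hc _ _ _)
    (fun w => u_norm hσ _ w) ?_
  · refine hcomm (Subtype.ext ?_)
    rw [Subgroup.coe_mul, Subgroup.coe_mul, hz, hz]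
    exact r1.1
  · refine hcomm (Subtype.ext ?_)
    rw [Subgroup.coe_mul, Subgroup.coe_mul, hz, hz]
    exact r1.2.1
  · rw [← map_pow, ← map_mul, ← map_mul, ← map_mul]
    congr 1
    apply Subtype.ext
    rw [Subgroup.coe_mul, Subgroup.coe_mul, Subgroup.coe_mul, zp, hz, hz]
    exact r1.2.2
  · refine hcomm (Subtype.ext ?_)
    rw [Subgroup.coe_mul, Subgroup.coe_mul, hz, hz]
    exact r2.2.1
  · rw [← map_pow, ← map_mul, ← map_mul, ← map_mul]
    congr 1
    apply Subtype.ext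
    rw [Subgroup.coe_mul, Subgroup.coe_mul, Subgroup.coe_mul, zp, hz, hz]
    exact r2.2.2
  · intro η hη
    rw [zz]
    exact fix_zpow hσ hη a

end core

section fi

variable {n : ℕ} (Γ : Subgroup (Matrix.SpecialLinearGroup (Fin n) ℤ))

/-- the level -/
noncomputable def lev : ℕ := 3 * Γ.normalCore.index

theorem lev_ge [Γ.FiniteIndex] : 3 ≤ lev Γ := by
  have hm0 : 0 < Γ.normalCore.index :=
    Nat.pos_of_ne_zero (Subgroup.FiniteIndex.index_ne_zero (H := Γ.normalCore))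
  unfold lev
  omega

theorem xe_mem_core (i j : Fin n) (h : i ≠ j) (a : ℤ) :
    xe i j h ((lev Γ : ℤ) * a) ∈ Γ.normalCore := by
  rw [← xe_pow]
  unfold lev
  rw [mul_comm, pow_mul]
  exact Subgroup.pow_mem _ (Γ.normalCore.pow_index_mem _) 3

/-- the elementary elements of the core -/
noncomputable def zc (i j : Fin n) (h : i ≠ j) (a : ℤ) : Γ.normalCore :=
  ⟨xe i j h ((lev Γ : ℤ) * a), xe_mem_core Γ i j h a⟩

/-- conjugation from the core to `Γ` -/
def cjh (ρ : Matrix.SpecialLinearGroup (Fin n) ℤ) : Γ.normalCore →* Γ where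
  toFun x := ⟨ρ * x * ρ⁻¹, Γ.normalCore_le ((Subgroup.normalCore_normal Γ).conj_mem _ x.2 ρ)⟩
  map_one' := Subtype.ext (by
    change ρ * 1 * ρ⁻¹ = 1
    group)
  map_mul' x y := Subtype.ext (by
    change ρ * (x * y) * ρ⁻¹ = (ρ * x * ρ⁻¹) * (ρ * y * ρ⁻¹)
    group)

theorem cjh_coe (ρ : Matrix.SpecialLinearGroup (Fin n) ℤ) (x : Γ.normalCore) :
    ((cjh Γ ρ x : Γ) : Matrix.SpecialLinearGroup (Fin n) ℤ) = ρ * x * ρ⁻¹ := rfl

/-- the small elementary elements -/
def Sm : Set (Matrix.SpecialLinearGroup (Fin n) ℤ) :=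
  insert 1 {g | ∃ (i j : Fin n) (h : i ≠ j) (r : ℤ), 0 ≤ r ∧ r < lev Γ ∧ g = xe i j h r}

theorem Sm_finite : (Sm Γ).Finite := by
  refine Set.Finite.insert _ ?_
  have h1 : (Set.univ : Set (Fin n × Fin n × Fin (lev Γ))).Finite := Set.finite_univ
  classical
  refine (h1.image (fun x => if h : x.1 = x.2.1 then 1 else
    xe x.1 x.2.1 h ((x.2.2 : ℕ) : ℤ))).subset ?_
  rintro g ⟨i, j, h, r, h0, h2, rfl⟩
  refine ⟨⟨i, j, ⟨r.toNat, by omega⟩⟩, trivial, ?_⟩
  have h3 : ((r.toNat : ℕ) : ℤ) = r := Int.toNat_of_nonneg h0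
  simp only [h, dite_false, h3]

/-- the induction along a word -/
theorem word_ind [Γ.FiniteIndex] (hn : 3 ≤ n) {H : Type}
    [NormedAddCommGroup H] [InnerProductSpace ℂ H] [CompleteSpace H] {π : Γ →* (H →L[ℂ] H)}
    (hπ : ∀ g, adjoint (π g) = π g⁻¹) {v : H} {c : ℝ} {N : ℕ}
    (hc : ∀ ρ ∈ (Sm Γ) ^ N, ∀ i j h, ‖π (cjh Γ ρ⁻¹ (zc Γ i j h 1)) v - v‖ ≤ c)
    (l : List (TransvectionStruct (Fin n) ℤ)) (hl : l.length ≤ N) :
    ∃ ρ ∈ (Sm Γ) ^ l.length, ∃ γ : Γ,
      ((ρ * γ : Matrix.SpecialLinearGroup (Fin n) ℤ) : Matrix (Fin n) (Fin n) ℤ) =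
        (l.map TransvectionStruct.toMatrix).prod ∧
      ‖π γ v - v‖ ≤ 8 * lev Γ * l.length * c := by
  induction l with
  | nil =>
    refine ⟨1, by simp, 1, ?_, ?_⟩
    · simp
    · have h1 : π 1 v = v := by rw [map_one]; rfl
      rw [h1]; simp
  | cons t l ih =>
    have hl' : l.length ≤ N := by
      rw [List.length_cons] at hl; omega
    obtain ⟨ρ, hρ, γ, h1, h2⟩ := ih hl'
    have hM := lev_ge Γ
    have hM0 : (0 : ℤ) < lev Γ := by exact_mod_cast (by omega : 0 < lev Γ)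
    have hρN : ρ ∈ (Sm Γ) ^ N :=
      Set.pow_subset_pow_right (Set.mem_insert 1 _) hl' hρ
    refine ⟨xe t.i t.j t.hij (t.c % lev Γ) * ρ, ?_,
      cjh Γ ρ⁻¹ (zc Γ t.i t.j t.hij (t.c / lev Γ)) * γ, ?_, ?_⟩
    · rw [List.length_cons, pow_succ']
      refine Set.mul_mem_mul (Set.mem_insert_of_mem _ ⟨t.i, t.j, t.hij, _, Int.emod_nonneg _ hM0.ne',
        Int.emod_lt_of_pos _ hM0, rfl⟩) hρ
    · rw [List.map_cons, List.prod_cons, ← h1]
      have e : (xe t.i t.j t.hij (t.c % lev Γ) * ρ *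
          ((cjh Γ ρ⁻¹ (zc Γ t.i t.j t.hij (t.c / lev Γ)) * γ : Γ) :
            Matrix.SpecialLinearGroup (Fin n) ℤ)) =
          xe t.i t.j t.hij t.c * (ρ * γ) := by
        rw [Subgroup.coe_mul, cjh_coe, inv_inv]
        change xe t.i t.j t.hij (t.c % lev Γ) * ρ * (ρ⁻¹ * xe t.i t.j t.hij
          ((lev Γ : ℤ) * (t.c / lev Γ)) * ρ * γ) = _
        have e1 : xe t.i t.j t.hij t.c = xe t.i t.j t.hij (t.c % lev Γ) *
            xe t.i t.j t.hij ((lev Γ : ℤ) * (t.c / lev Γ)) := by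
          rw [← xe_add, Int.emod_add_mul_ediv]
        rw [e1]
        group
      rw [e, Matrix.SpecialLinearGroup.coe_mul, xe_coe]
      rfl
    · refine (disp_mul hπ _ _ v).trans ?_
      have h3 := core_bound (K := Γ.normalCore) (σ := π.comp (cjh Γ ρ⁻¹)) hn hM
        (z := zc Γ) (fun _ _ _ _ => rfl) (fun g => by
          rw [MonoidHom.comp_apply, MonoidHom.comp_apply, hπ, map_inv (cjh Γ ρ⁻¹)]) (v := v) (c := c)
        (fun i j h => hc ρ hρN i j h) t.i t.j t.hij (t.c / lev Γ)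
      rw [MonoidHom.comp_apply] at h3
      rw [List.length_cons]
      push_cast
      linarith

/-- Property (T), quantitative form. -/
theorem exists_bound [Γ.FiniteIndex] (hn : 3 ≤ n) : ∃ (F : Set Γ) (C : ℝ), F.Finite ∧ 0 < C ∧
    ∀ {H : Type} [NormedAddCommGroup H] [InnerProductSpace ℂ H] [CompleteSpace H]
      (π : Γ →* (H →L[ℂ] H)), (∀ g, adjoint (π g) = π g⁻¹) → ∀ (v : H) (c : ℝ),
      (∀ s ∈ F, ‖π s v - v‖ ≤ c) → ∀ g, ‖π g v - v‖ ≤ C * c := by
  obtain ⟨N, hN⟩ := H350.bounded_generation n hn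
  have hfin : ((Sm Γ) ^ N).Finite := by
    clear hN
    induction N with
    | zero => rw [pow_zero]; exact Set.finite_one
    | succ N ih => rw [pow_succ]; exact ih.mul (Sm_finite Γ)
  set F1 : Set Γ := (fun x : Matrix.SpecialLinearGroup (Fin n) ℤ × {p : Fin n × Fin n // p.1 ≠ p.2} =>
    cjh Γ x.1⁻¹ (zc Γ x.2.1.1 x.2.1.2 x.2.2 1)) '' (((Sm Γ) ^ N) ×ˢ Set.univ) with hF1
  set F2 : Set Γ := {γ : Γ | (γ : Matrix.SpecialLinearGroup (Fin n) ℤ) ∈ (Sm Γ) ^ N} with hF2
  refine ⟨F1 ∪ F2, 8 * lev Γ * N + 1, ?_, by positivity, ?_⟩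
  · refine Set.Finite.union ((hfin.prod Set.finite_univ).image _) ?_
    exact hfin.preimage Subtype.val_injective.injOn
  · intro H _ _ _ π hπ v c hc g
    obtain ⟨l, hl, hprod⟩ := hN (g : Matrix.SpecialLinearGroup (Fin n) ℤ)
    have h1 : ∀ ρ ∈ (Sm Γ) ^ N, ∀ i j h, ‖π (cjh Γ ρ⁻¹ (zc Γ i j h 1)) v - v‖ ≤ c := by
      intro ρ hρ i j h
      refine hc _ (Or.inl ⟨(ρ, ⟨(i, j), h⟩), ⟨hρ, trivial⟩, rfl⟩)
    obtain ⟨ρ, hρ, γ, h2, h3⟩ := word_ind Γ hn hπ h1 l hl
    have h4 : ρ * γ = (g : Matrix.SpecialLinearGroup (Fin n) ℤ) := by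
      apply Subtype.ext
      change ((ρ * γ : Matrix.SpecialLinearGroup (Fin n) ℤ) : Matrix (Fin n) (Fin n) ℤ) = _
      rw [h2, hprod]
    have h5 : ρ = ((g * γ⁻¹ : Γ) : Matrix.SpecialLinearGroup (Fin n) ℤ) := by
      rw [Subgroup.coe_mul, Subgroup.coe_inv, ← h4]
      group
    have hρN : ρ ∈ (Sm Γ) ^ N := Set.pow_subset_pow_right (Set.mem_insert 1 _) hl hρ
    have h6 : g * γ⁻¹ ∈ F2 := by
      change ((g * γ⁻¹ : Γ) : Matrix.SpecialLinearGroup (Fin n) ℤ) ∈ (Sm Γ) ^ N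
      rw [← h5]; exact hρN
    have h7 := hc _ (Or.inr h6)
    have h8 := disp_mul hπ (g * γ⁻¹) γ v
    rw [inv_mul_cancel_right] at h8
    have hc0 : 0 ≤ c := (norm_nonneg _).trans h7
    have h9 : (8 : ℝ) * lev Γ * l.length * c ≤ 8 * lev Γ * N * c := by
      have : (l.length : ℝ) ≤ N := by exact_mod_cast hl
      gcongr
    calc _ ≤ _ := h8
      _ ≤ c + 8 * lev Γ * N * c := by linarith
      _ = _ := by ring

end fi

section final

variable {n : ℕ} (Γ : Subgroup (Matrix.SpecialLinearGroup (Fin n) ℤ))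

/-- a unitary representation as a homomorphism into the bounded operators -/
noncomputable def URep.op {Γ : Type} [Group Γ] {H : Type} [NormedAddCommGroup H]
    [InnerProductSpace ℂ H] (π : URep Γ H) : Γ →* (H →L[ℂ] H) where
  toFun g := LinearMap.mkContinuous ⟨⟨π.act g, π.act_add g⟩, fun c v => π.act_smul g c v⟩ 1
    (fun v => by
      rw [one_mul]
      exact (π.norm_act g v).le)
  map_one' := by
    ext v
    exact π.act_one v
  map_mul' g h := by
    ext v
    exact π.act_mul g h v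

theorem URep.op_apply {Γ : Type} [Group Γ] {H : Type} [NormedAddCommGroup H]
    [InnerProductSpace ℂ H] (π : URep Γ H) (g : Γ) (v : H) : URep.op π g v = π.act g v := rfl

theorem URep.op_adj {Γ : Type} [Group Γ] {H : Type} [NormedAddCommGroup H]
    [InnerProductSpace ℂ H] [CompleteSpace H] (π : URep Γ H) (g : Γ) :
    adjoint (URep.op π g) = URep.op π g⁻¹ := by
  symm
  rw [ContinuousLinearMap.eq_adjoint_iff]
  intro v w
  set L : H →ₗᵢ[ℂ] H := ⟨(URep.op π g : H →ₗ[ℂ] H), fun v => π.norm_act g v⟩ with hL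
  have h1 := L.inner_map_map (URep.op π g⁻¹ v) w
  have h2 : L (URep.op π g⁻¹ v) = v := by
    change URep.op π g (URep.op π g⁻¹ v) = v
    rw [← mul_ap', ← map_mul, mul_inv_cancel, map_one]
    rfl
  rw [h2] at h1
  exact h1.symm

/-- Every finite generating set of a finite index subgroup of `SL_n(ℤ)`, `n ≥ 3`, is the first
member of a Kazhdan pair. -/
theorem sl_kazhdan [Γ.FiniteIndex] (hn : 3 ≤ n) {Q : Finset Γ}
    (hgen : Subgroup.closure (Q : Set Γ) = ⊤) : ∃ ε : ℝ, IsKazhdanPair Γ Q ε := by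
  obtain ⟨F, C, hF, hC, hb⟩ := exists_bound Γ hn
  have hC1 : (0 : ℝ) < 1 / (2 * (C + 1)) := by positivity
  obtain ⟨ε, hε, hε1, hgap⟩ := gap_of_gen hgen F hF hC1 (by
    rw [div_le_one (by positivity)]; linarith)
  have hQ : Q.Nonempty := by
    by_contra hcon
    rw [Finset.not_nonempty_iff_eq_empty] at hcon
    rw [hcon, Finset.coe_empty, Subgroup.closure_empty] at hgen
    have hne : (⟨0, by omega⟩ : Fin n) ≠ ⟨1, by omega⟩ := by simp
    have h1 : (zc Γ _ _ hne 1 : Matrix.SpecialLinearGroup (Fin n) ℤ) ∈ Γ :=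
      Γ.normalCore_le (zc Γ _ _ hne 1).2
    have h2 : (⟨_, h1⟩ : Γ) ∈ (⊤ : Subgroup Γ) := trivial
    rw [← hgen, Subgroup.mem_bot] at h2
    have h3 := congrArg (fun x : Γ => ((x : Matrix.SpecialLinearGroup (Fin n) ℤ) :
      Matrix (Fin n) (Fin n) ℤ) ⟨0, by omega⟩ ⟨1, by omega⟩) h2
    change Matrix.transvection _ _ ((lev Γ : ℤ) * 1) _ _ = (1 : Matrix (Fin n) (Fin n) ℤ) _ _ at h3
    have hM := lev_ge Γ
    rw [Matrix.transvection, Matrix.add_apply, Matrix.one_apply_ne hne,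
      Matrix.single_apply_same, zero_add, mul_one] at h3
    have : lev Γ = 0 := by exact_mod_cast h3
    omega
  refine ⟨ε, hε, fun H _ _ _ π hinv v => ?_⟩
  by_cases hv : v = 0
  · obtain ⟨s, hs⟩ := hQ
    refine ⟨s, hs, ?_⟩
    rw [hv, norm_zero, mul_zero]
    exact norm_nonneg _
  · refine hgap (URep.op π) (URep.op_adj π) v hv ?_
    by_contra hcon
    push Not at hcon
    have h1 := hb (URep.op π) (URep.op_adj π) v (1 / (2 * (C + 1)) * ‖v‖) (fun s hs => (hcon s hs).le)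
    have h2 : ∀ g, ‖URep.op π g v - v‖ ≤ ‖v‖ / 2 := by
      intro g
      refine (h1 g).trans ?_
      have e : C * (1 / (2 * (C + 1)) * ‖v‖) = (C / (C + 1)) * (‖v‖ / 2) := by
        field_simp
      rw [e]
      have h3 : C / (C + 1) ≤ 1 := by
        rw [div_le_one (by positivity)]; linarith
      have h4 : 0 ≤ ‖v‖ / 2 := by positivity
      calc _ ≤ 1 * (‖v‖ / 2) := by gcongr
        _ = _ := one_mul _
    obtain ⟨w, hw, hfix⟩ := fixed_of_small (URep.op_adj π) hv h2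
    exact hw (hinv w hfix)

end final

end Vale.Agent.P092.H103
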