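import Vale.Agent.P092.H103.MainS
import Vale.Agent.P092.H103.PT2

/-!
The stable dichotomy for the finite index subgroups of `SL_d(ℤ)`, unconditionally.
-/

set_option linter.all false

open scoped InnerProductSpace
open Filter Topology ContinuousLinearMap
open Vale.Agent.P092.H160
open Vale.Agent.P092.H885 (fourth IsKazhdanPair avg)

namespace Vale.Agent.P092.H103

theorem mfourth_nonneg {n : ℕ} {Λ : Type} [Group Λ] (A : St.MOp n Λ) : 0 ≤ St.mfourth A := by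
  unfold St.mfourth fourth
  exact Finset.sum_nonneg fun i _ => Finset.sum_nonneg fun j _ => tsum_nonneg fun s => by positivity

theorem st_sln {d : ℕ} (hd : 3 ≤ d) (Γ : Subgroup (Matrix.SpecialLinearGroup (Fin d) ℤ))
    [Γ.FiniteIndex] (hΓ : ∀ g ∈ Γ, (g : Matrix (Fin d) (Fin d) ℤ) ≠ -1) (Q : Finset Γ)
    (hgen : Subgroup.closure (Q : Set Γ) = ⊤) : ∃ δ : ℝ, 0 < δ ∧ δ < 1 ∧
      ∀ (Λ : Type) [Group Λ], (∀ s : Λ, s ≠ 1 → Set.Infinite {y : Λ | ∃ h, y = h * s * h⁻¹}) →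
      ∀ (n : ℕ) (p : St.MOp n Λ), St.IsProj p → ∀ θ : St.CornerIso Γ Λ n p,
        (St.mtr p = 1 ∧ St.CanonicalM θ) ∨
        ((∃ s ∈ Q, St.mfourth (θ.toFun (H160.St.u s)) ≤ (1 - δ) * St.mfourth p) ∧
          ∀ (a b : Γ) (k : ℕ), (avg Q)^[k]
            (fun g => St.mfourth (θ.toFun (H160.St.u (a * g * b)))) 1 ≤
              (1 - δ) ^ k * St.mfourth p) := by
  obtain ⟨ε, hK⟩ := sl_kazhdan Γ hd hgen
  have hicc := icc_of_fi (by omega) Γ hΓ
  by_cases hQ : Q.Nonempty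
  swap
  · refine ⟨1 / 2, by norm_num, by norm_num, fun Λ _ hΛ n p hp θ => ?_⟩
    rcases st_kazhdan hicc hΛ hp θ hK with h | ⟨⟨s, hs, -⟩, -⟩
    · exact Or.inl h
    · exact absurd ⟨s, hs⟩ hQ
  have hc : (1 : ℝ) ≤ Q.card := by exact_mod_cast hQ.card_pos
  set ε' : ℝ := min ε 1 with hε'
  have h0 : 0 < ε' := lt_min hK.1 one_pos
  have h1 : ε' ≤ 1 := min_le_right _ _
  have hK' : IsKazhdanPair Γ Q ε' := by
    refine ⟨h0, fun H _ _ _ π hinv v => ?_⟩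
    obtain ⟨s, hs, h2⟩ := hK.2 H π hinv v
    refine ⟨s, hs, le_trans ?_ h2⟩
    have := min_le_left ε 1
    gcongr
  have hε2 : ε' ^ 2 ≤ 1 := pow_le_one₀ h0.le h1
  refine ⟨ε' ^ 2 / (4 * Q.card), by positivity, ?_, fun Λ _ hΛ n p hp θ => ?_⟩
  · rw [div_lt_one (by positivity)]; nlinarith
  · rcases st_kazhdan hicc hΛ hp θ hK' with h | ⟨⟨s, hs, h5⟩, h6⟩
    · exact Or.inl h
    · refine Or.inr ⟨⟨s, hs, h5.trans ?_⟩, h6⟩
      have h7 : ε' ^ 2 / (4 * Q.card) ≤ ε' ^ 2 / 2 := by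
        gcongr
        linarith
      have h8 := mfourth_nonneg p
      nlinarith

end Vale.Agent.P092.H103
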