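import Vale.Agent.P092.H885.Final
import Vale.Agent.P092.H350.BG

/-!
Property (T) for the finite index subgroups of `SL_n(ℤ)`, `n ≥ 3`.
-/

set_option linter.all false

open scoped InnerProductSpace
open Filter Topology ContinuousLinearMap Matrix
open Vale.Agent.P092.H885

namespace Vale.Agent.P092.H103

section relall

variable {H : Type} [NormedAddCommGroup H] [InnerProductSpace ℂ H] [CompleteSpace H]

/-- the common fixed vectors of two operators -/
def Kf (U V : H →L[ℂ] H) : Submodule ℂ H where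
  carrier := {v | U v = v ∧ V v = v}
  add_mem' := fun {a b} ha hb => by
    have h1 : U a = a := ha.1
    have h2 : U b = b := hb.1
    have h3 : V a = a := ha.2
    have h4 : V b = b := hb.2
    exact ⟨by rw [map_add, h1, h2], by rw [map_add, h3, h4]⟩
  zero_mem' := ⟨map_zero _, map_zero _⟩
  smul_mem' := fun c v hv => by
    have h1 : U v = v := hv.1
    have h2 : V v = v := hv.2
    exact ⟨by rw [map_smul, h1], by rw [map_smul, h2]⟩

theorem Kf_closed (U V : H →L[ℂ] H) : IsClosed ((Kf U V : Submodule ℂ H) : Set H) :=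
  (isClosed_eq U.continuous continuous_id).inter (isClosed_eq V.continuous continuous_id)

theorem mul_ap' (A B : H →L[ℂ] H) (v : H) : (A * B) v = A (B v) := rfl

theorem pow_fix {U : H →L[ℂ] H} {v : H} (h : U v = v) (m : ℕ) : (U ^ m) v = v := by
  induction m with
  | zero => rw [pow_zero]; rfl
  | succ m ih => rw [pow_succ, mul_ap', h, ih]

/-- an operator with unitary relations preserves the orthogonal decomposition -/
theorem disp_le {K : Submodule ℂ H} {W : H →L[ℂ] H} (hK : ∀ η ∈ K, W η ∈ K)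
    (hK' : ∀ η ∈ K, star W η ∈ K) {v0 v1 : H} (h0 : v0 ∈ K) (h1 : ∀ η ∈ K, ⟪η, v1⟫_ℂ = 0) :
    ‖W v1 - v1‖ ≤ ‖W (v0 + v1) - (v0 + v1)‖ := by
  have e : W (v0 + v1) - (v0 + v1) = (W v0 - v0) + (W v1 - v1) := by
    rw [map_add]; abel
  have horth : ⟪W v0 - v0, W v1 - v1⟫_ℂ = 0 := by
    have h2 : ∀ η ∈ K, ⟪η, W v1⟫_ℂ = 0 := by
      intro η hη
      rw [← adjoint_inner_left]
      exact h1 _ (hK' η hη)
    have hmem : W v0 - v0 ∈ K := K.sub_mem (hK _ h0) h0
    rw [inner_sub_right, h2 _ hmem, h1 _ hmem, sub_zero]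
  rw [e]
  have h3 := norm_add_sq (𝕜 := ℂ) (W v0 - v0) (W v1 - v1)
  rw [horth, map_zero, mul_zero, add_zero] at h3
  have h4 : ‖W v1 - v1‖ ^ 2 ≤ ‖W v0 - v0 + (W v1 - v1)‖ ^ 2 := by
    rw [h3]
    have := sq_nonneg ‖W v0 - v0‖
    linarith
  exact (pow_le_pow_iff_left₀ (norm_nonneg _) (norm_nonneg _) two_ne_zero).mp h4

/-- The consequence of relative property (T) for the translations. -/
theorem rel_all {U V W1 W2 : H →L[ℂ] H} (hU : star U * U = 1) (hU' : U * star U = 1)
    (hV : star V * V = 1) (hV' : V * star V = 1) (hW1 : W1 * star W1 = 1)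
    (hW1' : star W1 * W1 = 1) (hW2 : W2 * star W2 = 1) (hW2' : star W2 * W2 = 1)
    (hc : U * V = V * U) {m : ℕ} (hm : 3 ≤ m) (h1U : W1 * U = U * W1)
    (h1V : W1 * V = V * U ^ m * W1) (h2V : W2 * V = V * W2) (h2U : W2 * U = U * V ^ m * W2)
    {v : H} {c : ℝ} (cU : ‖U v - v‖ ≤ c)
    (cV : ‖V v - v‖ ≤ c) (c1 : ‖W1 v - v‖ ≤ c) (c2 : ‖W2 v - v‖ ≤ c) {T : H →L[ℂ] H}
    (hTn : ∀ w, ‖T w‖ = ‖w‖) (hT : ∀ η, U η = η → T η = η) :
    ‖T v - v‖ ≤ 8 * m * c := by
  haveI : CompleteSpace (Kf U V) := (Kf_closed U V).completeSpace_coe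
  obtain ⟨v0, hv0, v1, hv1, hv⟩ := (Kf U V).exists_add_mem_mem_orthogonal v
  have hv1' : ∀ η ∈ Kf U V, ⟪η, v1⟫_ℂ = 0 := fun η hη =>
    (Submodule.mem_orthogonal _ _).mp hv1 η hη
  have sfix : ∀ {W : H →L[ℂ] H}, star W * W = 1 → ∀ η, W η = η → star W η = η := by
    intro W hW η hη
    have h1 : (star W * W) η = η := by rw [hW]; rfl
    rw [mul_ap', hη] at h1
    exact h1
  have kU : ∀ η ∈ Kf U V, U η ∈ Kf U V := fun η hη => by rw [hη.1]; exact hη
  have kU' : ∀ η ∈ Kf U V, star U η ∈ Kf U V := fun η hη => by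
    rw [sfix hU η hη.1]; exact hη
  have kV : ∀ η ∈ Kf U V, V η ∈ Kf U V := fun η hη => by rw [hη.2]; exact hη
  have kV' : ∀ η ∈ Kf U V, star V η ∈ Kf U V := fun η hη => by
    rw [sfix hV η hη.2]; exact hη
  have k1 : ∀ η ∈ Kf U V, W1 η ∈ Kf U V := by
    rintro η ⟨e1, e2⟩
    have f1 : U (W1 η) = W1 η := by
      rw [← mul_ap', ← h1U, mul_ap', e1]
    refine ⟨f1, ?_⟩
    have h3 : (W1 * V) η = (V * U ^ m * W1) η := by rw [h1V]
    rw [mul_ap', e2, mul_ap', mul_ap', pow_fix f1] at h3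
    exact h3.symm
  have k1' : ∀ η ∈ Kf U V, star W1 η ∈ Kf U V := by
    rintro η ⟨e1, e2⟩
    have g1 : U * star W1 = star W1 * U := by
      calc U * star W1 = star W1 * W1 * (U * star W1) := by rw [hW1', one_mul]
        _ = star W1 * (W1 * U) * star W1 := by simp only [mul_assoc]
        _ = star W1 * (U * W1) * star W1 := by rw [h1U]
        _ = star W1 * U * (W1 * star W1) := by simp only [mul_assoc]
        _ = star W1 * U := by rw [hW1, mul_one]
    have g2 : V * star W1 = star W1 * (V * U ^ m) := by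
      calc V * star W1 = star W1 * W1 * (V * star W1) := by rw [hW1', one_mul]
        _ = star W1 * (W1 * V) * star W1 := by simp only [mul_assoc]
        _ = star W1 * (V * U ^ m * W1) * star W1 := by rw [h1V]
        _ = star W1 * (V * U ^ m) * (W1 * star W1) := by simp only [mul_assoc]
        _ = star W1 * (V * U ^ m) := by rw [hW1, mul_one]
    refine ⟨?_, ?_⟩
    · change U (star W1 η) = star W1 η
      rw [← mul_ap', g1, mul_ap', e1]
    · change V (star W1 η) = star W1 η
      rw [← mul_ap', g2, mul_ap', mul_ap', pow_fix e1, e2]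
  have k2 : ∀ η ∈ Kf U V, W2 η ∈ Kf U V := by
    rintro η ⟨e1, e2⟩
    have f1 : V (W2 η) = W2 η := by
      rw [← mul_ap', ← h2V, mul_ap', e2]
    refine ⟨?_, f1⟩
    have h3 : (W2 * U) η = (U * V ^ m * W2) η := by rw [h2U]
    rw [mul_ap', e1, mul_ap', mul_ap', pow_fix f1] at h3
    exact h3.symm
  have k2' : ∀ η ∈ Kf U V, star W2 η ∈ Kf U V := by
    rintro η ⟨e1, e2⟩
    have g1 : V * star W2 = star W2 * V := by
      calc V * star W2 = star W2 * W2 * (V * star W2) := by rw [hW2', one_mul]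
        _ = star W2 * (W2 * V) * star W2 := by simp only [mul_assoc]
        _ = star W2 * (V * W2) * star W2 := by rw [h2V]
        _ = star W2 * V * (W2 * star W2) := by simp only [mul_assoc]
        _ = star W2 * V := by rw [hW2, mul_one]
    have g2 : U * star W2 = star W2 * (U * V ^ m) := by
      calc U * star W2 = star W2 * W2 * (U * star W2) := by rw [hW2', one_mul]
        _ = star W2 * (W2 * U) * star W2 := by simp only [mul_assoc]
        _ = star W2 * (U * V ^ m * W2) * star W2 := by rw [h2U]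
        _ = star W2 * (U * V ^ m) * (W2 * star W2) := by simp only [mul_assoc]
        _ = star W2 * (U * V ^ m) := by rw [hW2, mul_one]
    refine ⟨?_, ?_⟩
    · change U (star W2 η) = star W2 η
      rw [← mul_ap', g2, mul_ap', mul_ap', pow_fix e2, e1]
    · change V (star W2 η) = star W2 η
      rw [← mul_ap', g1, mul_ap', e2]
  have hle : ‖v1‖ ≤ 4 * m * c := by
    by_contra hcon
    push Not at hcon
    refine rel_gap hU hU' hV hV' hW1 hW1' hW2 hW2' hc hm h1U h1V h2V h2U (v := v1)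
      (fun η hη1 hη2 => hv1' η ⟨hη1, hη2⟩) (c := c) ?_ ?_ ?_ ?_ hcon
    · exact (disp_le kU kU' hv0 hv1').trans (by rw [← hv]; exact cU)
    · exact (disp_le kV kV' hv0 hv1').trans (by rw [← hv]; exact cV)
    · exact (disp_le k1 k1' hv0 hv1').trans (by rw [← hv]; exact c1)
    · exact (disp_le k2 k2' hv0 hv1').trans (by rw [← hv]; exact c2)
  have e : T v - v = T v1 - v1 := by
    rw [hv, map_add, hT v0 hv0.1]
    abel
  rw [e]
  calc ‖T v1 - v1‖ ≤ ‖T v1‖ + ‖v1‖ := norm_sub_le _ _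
    _ = 2 * ‖v1‖ := by rw [hTn]; ring
    _ ≤ 2 * (4 * m * c) := by gcongr
    _ = _ := by ring

end relall

section elem

variable {n : ℕ}

/-- elementary elements -/
def xe (i j : Fin n) (h : i ≠ j) (a : ℤ) : Matrix.SpecialLinearGroup (Fin n) ℤ :=
  ⟨transvection i j a, det_transvection_of_ne i j h a⟩

theorem xe_coe (i j : Fin n) (h : i ≠ j) (a : ℤ) :
    ((xe i j h a : Matrix.SpecialLinearGroup (Fin n) ℤ) : Matrix (Fin n) (Fin n) ℤ) =
      transvection i j a := rfl

theorem xe_add (i j : Fin n) (h : i ≠ j) (a b : ℤ) : xe i j h (a + b) = xe i j h a * xe i j h b := by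
  apply Subtype.ext
  rw [Matrix.SpecialLinearGroup.coe_mul]
  exact (transvection_mul_transvection_same _ _ h a b).symm

theorem xe_zero (i j : Fin n) (h : i ≠ j) : xe i j h 0 = 1 := by
  apply Subtype.ext
  exact transvection_zero i j

/-- as a homomorphism -/
def xh (i j : Fin n) (h : i ≠ j) : Multiplicative ℤ →* Matrix.SpecialLinearGroup (Fin n) ℤ where
  toFun a := xe i j h a.toAdd
  map_one' := xe_zero i j h
  map_mul' a b := xe_add i j h _ _

theorem xe_pow (i j : Fin n) (h : i ≠ j) (a : ℤ) (k : ℕ) : xe i j h a ^ k = xe i j h (k * a) := by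
  have h1 := map_pow (xh i j h) (Multiplicative.ofAdd a) k
  have h2 : xh i j h (Multiplicative.ofAdd a) = xe i j h a := rfl
  rw [h2] at h1
  rw [← h1]
  change xe i j h (k • a) = _
  rw [nsmul_eq_mul]

theorem xe_zpow (i j : Fin n) (h : i ≠ j) (a : ℤ) (k : ℤ) : xe i j h a ^ k = xe i j h (k * a) := by
  have h1 := map_zpow (xh i j h) (Multiplicative.ofAdd a) k
  have h2 : xh i j h (Multiplicative.ofAdd a) = xe i j h a := rfl
  rw [h2] at h1
  rw [← h1]
  change xe i j h (k • a) = _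
  rw [smul_eq_mul]

end elem

end Vale.Agent.P092.H103
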