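import Vale.Agent.P092.H103.PicS
import Vale.Agent.P092.RC.Core

/-!
P092 (helper103), Team C: `RC.PicStmt`.
-/

set_option linter.all false

open scoped InnerProductSpace ENNReal
open MeasureTheory Filter Topology ContinuousLinearMap

namespace Vale.Agent.P092.H103

open Vale.Agent.P092.H160 Vale.Agent.P092.SR Vale.Agent.P092.RC

theorem not_compact_GG (k : Type) [NontriviallyNormedField k] {m : ℕ} (hm : 1 ≤ m) :
    ¬ IsCompact (Set.univ : Set (GG k m)) := by
  intro h
  have h01 : (0 : Fin (m + 1)) ≠ ⟨1, by omega⟩ := by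
    intro e
    have := congrArg Fin.val e
    simp at this
  have hent : Continuous fun h : GG k m => h.1 0 ⟨1, by omega⟩ :=
    (continuous_apply_apply _ _).comp continuous_subtype_val
  obtain ⟨r, hr⟩ := h.exists_bound_of_continuousOn hent.continuousOn
  obtain ⟨s, hs⟩ := NormedField.exists_lt_norm k r
  have h1 := hr (Matrix.SpecialLinearGroup.transvection h01 s) (Set.mem_univ _)
  have h2 : (Matrix.SpecialLinearGroup.transvection h01 s).1 0 ⟨1, by omega⟩ = s := by
    change (Matrix.transvection 0 ⟨1, by omega⟩ s : Matrix (Fin (m + 1)) (Fin (m + 1)) k) 0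
      ⟨1, by omega⟩ = s
    rw [Matrix.transvection]
    rw [Matrix.add_apply, Matrix.one_apply_ne h01, Matrix.single_apply]
    simp
  change ‖(Matrix.SpecialLinearGroup.transvection h01 s).1 0 ⟨1, by omega⟩‖ ≤ r at h1
  rw [h2] at h1
  exact absurd h1 (not_le.2 hs)

/-- **[C-PIC]** -/
theorem picStmtC {m : ℕ} (hm : 1 ≤ m) : RC.PicStmt m := by
  intro k _ _ _ _ _ _ _ _ Γ _ _ _ _ ν _ hν hΓ hi Λ _ _ hΛ α hα
  haveI : Infinite Γ := infinite_lat ν hν (not_compact_GG k hm)
  haveI : Infinite Λ := infinite_target hα inferInstance hΛ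
  exact pic2 hν hα hΛ

end Vale.Agent.P092.H103
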