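import Vale.Agent.P092.H103.PicT
import Vale.Agent.P092.H34.Irr
import Vale.Agent.P092.H421.Hs4
import Vale.Agent.P092.H767.InvL
import Vale.Agent.P092.SD.Main

/-!
P092 (helper103), Teams C and D: `RC.Pic2` for the concrete picture over any second countable
locally compact group, and `SD.PicStmt`.
-/

set_option linter.all false

open scoped InnerProductSpace ENNReal
open MeasureTheory Filter Topology ContinuousLinearMap

namespace Vale.Agent.P092.H103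

open Vale.Agent.P092.H160 Vale.Agent.P092.SR Vale.Agent.P092.H839 Vale.Agent.P092.H85
  Vale.Agent.P092.H790
open Vale.Agent.P092.RC (Cm TRN KK pic con lam₁ lam₂ XX Om pic_eq lam₁_eq lam₂_eq Pic Pic2 Moore)

section cont

variable {G : Type} [Group G] [TopologicalSpace G] [IsTopologicalGroup G]
  {𝓗 : Type} [NormedAddCommGroup 𝓗] [InnerProductSpace ℂ 𝓗] {σ : G →* (𝓗 →L[ℂ] 𝓗)}

theorem cont_of_one (h : H933.URep σ) (ξ : 𝓗) : Continuous fun g => σ g ξ := by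
  rw [continuous_iff_continuousAt]
  intro g₀
  have h1 : Tendsto (fun g : G => g₀⁻¹ * g) (𝓝 g₀) (𝓝 1) := by
    have h2 : Continuous fun g : G => g₀⁻¹ * g := continuous_const.mul continuous_id
    have h3 := h2.tendsto g₀
    rwa [inv_mul_cancel] at h3
  have h4 := ((σ g₀).continuous.tendsto ξ).comp ((h.cont ξ).comp h1)
  refine h4.congr fun g => ?_
  change σ g₀ (σ (g₀⁻¹ * g) ξ) = σ g ξ
  have h5 : (σ g₀ * σ (g₀⁻¹ * g)) ξ = σ g ξ := by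
    rw [← map_mul, mul_inv_cancel_left]
  exact h5

theorem mooreSet_of_moore {R : Set G} (h : Moore R) : MooreSet G R := by
  intro 𝓗 _ _ _ u hu ξ hξ
  exact h 𝓗 u hu.iso (fun η => cont_of_one hu η) ξ hξ

end cont

section pic

variable {E : Type} [Group E] [TopologicalSpace E] [IsTopologicalGroup E] [LocallyCompactSpace E]
  [SecondCountableTopology E] [T2Space E] [MeasurableSpace E] [BorelSpace E]
  {Γ : Subgroup E} [DiscreteTopology Γ] [MeasurableSpace (E ⧸ Γ)] [BorelSpace (E ⧸ Γ)]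
  {ν : Measure (E ⧸ Γ)} [IsProbabilityMeasure ν] [Countable Γ]
  (hν : ∀ g : E, ν.map (fun x => g • x) = ν)
  {Λ : Type} [Group Λ] {α : Γ →* (Ell2 Λ →L[ℂ] Ell2 Λ)} (hα : Frame α)

theorem pic_cont (ξ : KK ν Λ) : Continuous fun g => pic hν hα g ξ := by
  refine cont_of_one (σ := pic hν hα) ⟨fun g η => ?_, fun η => ri_cont hν (adj_VV hα) η⟩ ξ
  exact H34.Ind.norm_map_of_adj (U := pic hν hα)
    (fun v => H34.Ind.adjoint_pi (cdat ν hν) (adj_VV hα) v) g η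

/-- ergodicity, both legs -/
theorem pic_erg (hΛ : ∀ s : Λ, s ≠ 1 → Set.Infinite {y : Λ | ∃ h, y = h * s * h⁻¹})
    {S : Set E} (hS : Moore S) {T : KK ν Λ →L[ℂ] KK ν Λ}
    (hX : ∀ A, MeasurableSet A → T * H790.ind ν _ A = H790.ind ν _ A * T)
    (h1 : ∀ g, T * lam₁ ν α g = lam₁ ν α g * T) (h2 : ∀ g, T * lam₂ ν α g = lam₂ ν α g * T)
    (hq : ∀ g ∈ S, T * pic hν hα g = pic hν hα g * T) :
    ∃ z : ℂ, T = z • (1 : KK ν Λ →L[ℂ] KK ν Λ) := by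
  refine a1 hν (regRep_RR hα) (adj_VV hα) (cmm_VV hα) ?_ (mooreSet_of_moore hS) hX ?_ hq
  · intro A hA hA'
    refine H34.Irr.hirr hα hΛ (fun g => ?_) (fun g => ?_) hA'
    · have := hA (g, 1)
      rwa [← RR₁_of_RR] at this
    · have := hA (1, g)
      rwa [← RR₂_of_RR] at this
  · rintro ⟨g, h⟩
    rw [RR_eq, H790.comp_mul]
    change T * (lam₁ ν α g * lam₂ ν α h) = lam₁ ν α g * lam₂ ν α h * T
    rw [← mul_assoc, h1, mul_assoc, h2, mul_assoc]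

include hα in
theorem frm₁ : H34.Ind.Frm (RR₁ α) (RR₂ α) (dl 1 : Ell2 (Λ × Λ)) := by
  intro y
  rw [← pars_enn hα y]
  exact tsum_congr fun p => by rw [RR_ap]

include hα in
theorem frm₂ : H34.Ind.Frm (RR₂ α) (RR₁ α) (dl 1 : Ell2 (Λ × Λ)) := by
  intro y
  rw [← pars_enn hα y, ← (Equiv.prodComm Γ Γ).tsum_eq]
  exact tsum_congr fun p => by rw [← RR_ap']; rfl

theorem wp₂ : ∀ w ∈ XX ν Λ ∪ Set.range (lam₂ ν α), ∀ g,
    pic hν hα g * w * pic hν hα g⁻¹ ∈ XX ν Λ ∪ Set.range (lam₂ ν α) := by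
  rintro w (⟨A, hA, rfl⟩ | ⟨s, rfl⟩) g
  · refine Or.inl ⟨(fun x => g⁻¹ • x) ⁻¹' A, smul_meas Γ g⁻¹ hA, ?_⟩
    have h1 : pic hν hα g * H790.ind ν (Ell2 (Λ × Λ)) A =
        H790.ind ν (Ell2 (Λ × Λ)) ((fun x => g⁻¹ • x) ⁻¹' A) * pic hν hα g :=
      H34.Ind.pi_ind (cdat ν hν) (adj_VV hα) g hA
    rw [h1, mul_assoc, ← map_mul, mul_inv_cancel, map_one, mul_one]
  · refine Or.inr ⟨s, ?_⟩
    have h1 : pic hν hα g * lam₂ ν α s = lam₂ ν α s * pic hν hα g :=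
      H34.Ind.pi_lam (cdat ν hν) (adj_VV hα) (comm_VV₂ hα) g s
    rw [h1, mul_assoc, ← map_mul, mul_inv_cancel, map_one, mul_one]

theorem wp₁ : ∀ w ∈ XX ν Λ ∪ Set.range (lam₁ ν α), ∀ g,
    pic hν hα g * w * pic hν hα g⁻¹ ∈ XX ν Λ ∪ Set.range (lam₁ ν α) := by
  rintro w (⟨A, hA, rfl⟩ | ⟨s, rfl⟩) g
  · refine Or.inl ⟨(fun x => g⁻¹ • x) ⁻¹' A, smul_meas Γ g⁻¹ hA, ?_⟩
    have h1 : pic hν hα g * H790.ind ν (Ell2 (Λ × Λ)) A =
        H790.ind ν (Ell2 (Λ × Λ)) ((fun x => g⁻¹ • x) ⁻¹' A) * pic hν hα g :=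
      H34.Ind.pi_ind (cdat ν hν) (adj_VV hα) g hA
    rw [h1, mul_assoc, ← map_mul, mul_inv_cancel, map_one, mul_one]
  · refine Or.inr ⟨s, ?_⟩
    have h1 : pic hν hα g * lam₁ ν α s = lam₁ ν α s * pic hν hα g :=
      H34.Ind.pi_lam (cdat ν hν) (adj_VV hα) (comm_VV₁ hα) g s
    rw [h1, mul_assoc, ← map_mul, mul_inv_cancel, map_one, mul_one]

theorem trc₁ {T : KK ν Λ →L[ℂ] KK ν Λ} (hT : Cm (XX ν Λ ∪ Set.range (lam₂ ν α)) T) (g : E) :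
    TRN (lam₁ ν α) (Om ν Λ) (pic hν hα g * T * pic hν hα g⁻¹) = TRN (lam₁ ν α) (Om ν Λ) T :=
  H34.Ind.TRN_conj (d := cdat ν hν) (adj_VV hα) (bF₁ hα) (frm₁ hα) (adj_RR₂ hα)
    (fun g h => comm_RR g h) (comm_VV₁ hα) (comm_VV₂ hα)
    ((H34.Ind.cm_iff (cdat ν hν) (R₂ := RR₂ α)).1 hT) g

theorem trc₂ {T : KK ν Λ →L[ℂ] KK ν Λ} (hT : Cm (XX ν Λ ∪ Set.range (lam₁ ν α)) T) (g : E) :
    TRN (lam₂ ν α) (Om ν Λ) (pic hν hα g * T * pic hν hα g⁻¹) = TRN (lam₂ ν α) (Om ν Λ) T :=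
  H34.Ind.TRN_conj (d := cdat ν hν) (adj_VV hα) (bF₂ hα) (frm₂ hα) (adj_RR₁ hα)
    (fun g h => (comm_RR h g).symm) (comm_VV₂ hα) (comm_VV₁ hα)
    ((H34.Ind.cm_iff (cdat ν hν) (R₂ := RR₁ α)).1 hT) g

include hν in
theorem trz₁ (hα : Frame α) {T : KK ν Λ →L[ℂ] KK ν Λ}
    (hT : Cm (XX ν Λ ∪ Set.range (lam₂ ν α)) T) (h0 : TRN (lam₁ ν α) (Om ν Λ) T = 0) : T = 0 :=
  H34.Ind.TRN_zero (d := cdat ν hν) (bF₁ hα) (frm₁ hα)
    (fun g h => comm_RR g h) ((H34.Ind.cm_iff (cdat ν hν) (R₂ := RR₂ α)).1 hT) h0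

include hν in
theorem trz₂ (hα : Frame α) {T : KK ν Λ →L[ℂ] KK ν Λ}
    (hT : Cm (XX ν Λ ∪ Set.range (lam₁ ν α)) T) (h0 : TRN (lam₂ ν α) (Om ν Λ) T = 0) : T = 0 :=
  H34.Ind.TRN_zero (d := cdat ν hν) (bF₂ hα) (frm₂ hα)
    (fun g h => (comm_RR h g).symm) ((H34.Ind.cm_iff (cdat ν hν) (R₂ := RR₁ α)).1 hT) h0

variable [Countable Λ] [Infinite Λ]

theorem hse₁ {S : Set E} (hS : Moore S) {T : KK ν Λ →L[ℂ] KK ν Λ}
    (hT : Cm (XX ν Λ ∪ Set.range (lam₂ ν α)) T) (hf : TRN (lam₁ ν α) (Om ν Λ) T < ∞)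
    (hq : ∀ g ∈ S, T * pic hν hα g = pic hν hα g * T) : T = 0 :=
  H421.Hs.hs_erg₁ hν hα (W := XX ν Λ ∪ Set.range (lam₂ ν α)) (fun A hA => Or.inl ⟨A, hA, rfl⟩)
    (fun γ => Or.inr ⟨γ, rfl⟩) (wp₂ hν hα) (pic_cont hν hα) (fun T hT g => trc₁ hν hα hT g)
    (fun T hT h0 => trz₁ hν hα hT h0) S hS T hT hf hq

theorem hse₂ {S : Set E} (hS : Moore S) {T : KK ν Λ →L[ℂ] KK ν Λ}
    (hT : Cm (XX ν Λ ∪ Set.range (lam₁ ν α)) T) (hf : TRN (lam₂ ν α) (Om ν Λ) T < ∞)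
    (hq : ∀ g ∈ S, T * pic hν hα g = pic hν hα g * T) : T = 0 :=
  H421.Hs.hs_erg₂ hν hα (W := XX ν Λ ∪ Set.range (lam₁ ν α)) (fun A hA => Or.inl ⟨A, hA, rfl⟩)
    (fun γ => Or.inr ⟨γ, rfl⟩) (wp₁ hν hα) (pic_cont hν hα) (fun T hT g => trc₂ hν hα hT g)
    (fun T hT h0 => trz₂ hν hα hT h0) S hS T hT hf hq

/-- **the picture of the first leg** -/
theorem pic₁ (hΛ : ∀ s : Λ, s ≠ 1 → Set.Infinite {y : Λ | ∃ h, y = h * s * h⁻¹}) :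
    Pic (pic hν hα) (lam₁ ν α) (XX ν Λ ∪ Set.range (lam₂ ν α)) (Om ν Λ) :=
  H34.Ind.pic_of (d := cdat ν hν) (adj_VV hα) (bF₁ hα) (frm₁ hα) (adj_RR₂ hα)
    (fun g h => comm_RR g h) (norm_dl 1) (adj_RR₁ hα) (comm_VV₁ hα) (comm_VV₂ hα)
    (pic_cont hν hα)
    (fun S hS T hT h1 hq => pic_erg hν hα hΛ hS (fun A hA => hT _ (Or.inl ⟨A, hA, rfl⟩)) h1
      (fun g => hT _ (Or.inr ⟨g, rfl⟩)) hq)
    (fun S hS T hT hf hq => hse₁ hν hα hS hT hf hq)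
    (fun T hT hπ γ => H767.inv₁_pic hν hα hT hπ γ)

/-- **the picture of the second leg** -/
theorem pic₂ (hΛ : ∀ s : Λ, s ≠ 1 → Set.Infinite {y : Λ | ∃ h, y = h * s * h⁻¹}) :
    Pic (pic hν hα) (lam₂ ν α) (XX ν Λ ∪ Set.range (lam₁ ν α)) (Om ν Λ) :=
  H34.Ind.pic_of (d := cdat ν hν) (adj_VV hα) (bF₂ hα) (frm₂ hα) (adj_RR₁ hα)
    (fun g h => (comm_RR h g).symm) (norm_dl 1) (adj_RR₂ hα) (comm_VV₂ hα) (comm_VV₁ hα)
    (pic_cont hν hα)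
    (fun S hS T hT h1 hq => pic_erg hν hα hΛ hS (fun A hA => hT _ (Or.inl ⟨A, hA, rfl⟩))
      (fun g => hT _ (Or.inr ⟨g, rfl⟩)) h1 hq)
    (fun S hS T hT hf hq => hse₂ hν hα hS hT hf hq)
    (fun T hT hπ γ => H767.inv₂_pic hν hα hT hπ γ)

theorem ind_comm {A B : Set (E ⧸ Γ)} (hA : MeasurableSet A) (hB : MeasurableSet B) :
    H790.ind ν (Ell2 (Λ × Λ)) A * H790.ind ν (Ell2 (Λ × Λ)) B =
      H790.ind ν (Ell2 (Λ × Λ)) B * H790.ind ν (Ell2 (Λ × Λ)) A := by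
  ext1 ξ
  refine Lp.ext ?_
  change ⇑(H790.ind ν (Ell2 (Λ × Λ)) A (H790.ind ν (Ell2 (Λ × Λ)) B ξ)) =ᵐ[ν]
    ⇑(H790.ind ν (Ell2 (Λ × Λ)) B (H790.ind ν (Ell2 (Λ × Λ)) A ξ))
  filter_upwards [ind_ae hA (H790.ind ν (Ell2 (Λ × Λ)) B ξ),
    ind_ae hB (H790.ind ν (Ell2 (Λ × Λ)) A ξ), ind_ae hA ξ, ind_ae hB ξ] with x a1 a2 a3 a4
  rw [a1, a2]
  by_cases h1 : x ∈ A <;> by_cases h2 : x ∈ B <;> simp [h1, h2, a3, a4]

/-- **[C-PIC], [D-PIC]** -/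
theorem pic2 (hΛ : ∀ s : Λ, s ≠ 1 → Set.Infinite {y : Λ | ∃ h, y = h * s * h⁻¹}) :
    Pic2 (pic hν hα) (lam₁ ν α) (lam₂ ν α) (XX ν Λ) (Om ν Λ) where
  leg₁ := pic₁ hν hα hΛ
  leg₂ := pic₂ hν hα hΛ
  Xcomm := by
    rintro _ ⟨A, hA, rfl⟩ _ ⟨B, hB, rfl⟩
    exact ind_comm hA hB
  Xadj := by
    rintro _ ⟨A, hA, rfl⟩
    exact ⟨A, hA, H790.adjoint_ind hA⟩
  XP := by
    rintro _ ⟨A, hA, rfl⟩ g
    refine ⟨(fun x => g⁻¹ • x) ⁻¹' A, smul_meas Γ g⁻¹ hA, ?_⟩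
    have h1 : pic hν hα g * H790.ind ν (Ell2 (Λ × Λ)) A =
        H790.ind ν (Ell2 (Λ × Λ)) ((fun x => g⁻¹ • x) ⁻¹' A) * pic hν hα g :=
      H34.Ind.pi_ind (cdat ν hν) (adj_VV hα) g hA
    rw [h1, mul_assoc, ← map_mul, mul_inv_cancel, map_one, mul_one]

end pic

/-! ### infinite lattices -/

section inf

variable {E : Type} [Group E] [TopologicalSpace E] [IsTopologicalGroup E] [LocallyCompactSpace E]
  [SecondCountableTopology E] [T2Space E] [MeasurableSpace E] [BorelSpace E]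
  {Γ : Subgroup E} [DiscreteTopology Γ] [MeasurableSpace (E ⧸ Γ)] [BorelSpace (E ⧸ Γ)]

/-- A lattice of a noncompact group is infinite. -/
theorem infinite_lat (ν : Measure (E ⧸ Γ)) [IsProbabilityMeasure ν]
    (hν : ∀ g : E, ν.map (fun x => g • x) = ν) (hE : ¬ IsCompact (Set.univ : Set E)) :
    Infinite Γ := by
  by_contra hfin
  rw [not_infinite_iff_finite] at hfin
  obtain ⟨Q, hQc, hQm, hQ⟩ := exists_compact_large Γ ν (show (0 : ℝ) < 1 / 3 by norm_num)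
  obtain ⟨C, hC, hsC⟩ := sec_bdd Γ Q hQc
  have hΓ : IsCompact (Γ : Set E) := (Set.toFinite (Γ : Set E)).isCompact
  have hK : IsCompact ((fun p : (E × E) × E => p.1.1 * p.1.2 * p.2⁻¹) ''
      ((C ×ˢ (Γ : Set E)) ×ˢ C)) := ((hC.prod hΓ).prod hC).image (by fun_prop)
  refine hE (hK.of_isClosed_subset isClosed_univ ?_)
  intro g _
  have hgm : MeasurableSet ((fun x => g • x) ⁻¹' Q) := smul_meas Γ g hQm
  have h1 : ν.real ((fun x => g • x) ⁻¹' Q)ᶜ ≤ 1 / 3 := by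
    have e1 : ν ((fun x => g • x) ⁻¹' Qᶜ) = ν Qᶜ := by
      have h2 := Measure.map_apply (μ := ν) (smul_meas Γ g) hQm.compl
      rw [hν g] at h2
      exact h2.symm
    have e2 : ν.real ((fun x => g • x) ⁻¹' Q)ᶜ = ν.real Qᶜ := congrArg ENNReal.toReal e1
    rw [e2]
    exact hQ
  have h2 : ∃ x, x ∈ Q ∧ g • x ∈ Q := by
    by_contra hne
    push Not at hne
    have h3 : (Set.univ : Set (E ⧸ Γ)) ⊆ Qᶜ ∪ ((fun x => g • x) ⁻¹' Q)ᶜ := by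
      intro x _
      by_cases hx : x ∈ Q
      · exact Or.inr (hne x hx)
      · exact Or.inl hx
    have h4 : (1 : ℝ) ≤ ν.real Qᶜ + ν.real ((fun x => g • x) ⁻¹' Q)ᶜ := by
      have h5 : ν.real (Set.univ : Set (E ⧸ Γ)) = 1 := by simp
      rw [← h5]
      exact (measureReal_mono h3).trans (measureReal_union_le _ _)
    linarith
  obtain ⟨x, hx, hgx⟩ := h2
  refine ⟨((sec Γ (g • x), (coc Γ g x : E)), sec Γ x),
    ⟨⟨hsC _ hgx, (coc Γ g x).2⟩, hsC _ hx⟩, ?_⟩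
  change sec Γ (g • x) * (coc Γ g x : E) * (sec Γ x)⁻¹ = g
  rw [sec_mul_coc, mul_inv_cancel_right]

theorem not_compact_G3 : ¬ IsCompact (Set.univ : Set (SD.G3 ℝ)) := by
  intro h
  have hent : Continuous fun h : SD.G3 ℝ => h.1 0 1 :=
    (continuous_apply_apply 0 1).comp continuous_subtype_val
  obtain ⟨r, hr⟩ := h.exists_bound_of_continuousOn hent.continuousOn
  have h1 := hr (SD.un (|r| + 1)) (Set.mem_univ _)
  change ‖(SD.un (|r| + 1) : SD.G3 ℝ).1 0 1‖ ≤ r at h1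
  rw [un_entry, Real.norm_eq_abs, abs_of_pos (by positivity)] at h1
  have := le_abs_self r
  linarith

/-- the target group is infinite -/
theorem infinite_target {Γ Λ : Type} [Group Γ] [Group Λ] {α : Γ →* (Ell2 Λ →L[ℂ] Ell2 Λ)}
    (hα : Frame α) (hΓ : Infinite Γ)
    (hΛ : ∀ s : Λ, s ≠ 1 → Set.Infinite {y : Λ | ∃ h, y = h * s * h⁻¹}) : Infinite Λ := by
  by_contra hfin
  rw [not_infinite_iff_finite] at hfin
  have h1 : ∀ s : Λ, s = 1 := by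
    intro s
    by_contra hs
    exact hΛ s hs (Set.toFinite _)
  obtain ⟨g, hg⟩ := exists_ne (1 : Γ)
  have h2 := hα.reg.inner_zero g hg
  rw [inner_dl] at h2
  have h3 : α g (dl 1) = 0 := by
    ext s
    rw [h1 s]
    exact h2
  have h4 := hα.reg.norm_map g (dl 1)
  rw [h3, norm_zero, norm_dl] at h4
  exact one_ne_zero h4.symm

end inf

/-- **[D-PIC]** -/
theorem picStmt : SD.PicStmt := by
  intro _ _ _ _ Γ _ _ _ _ ν _ hν hΓ hi Λ _ _ hΛ α hα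
  haveI : Infinite Γ := infinite_lat ν hν not_compact_G3
  haveI : Infinite Λ := infinite_target hα inferInstance hΛ
  exact ⟨pic2 hν hα hΛ, tv₁ hν hα, tv₂ hν hα⟩

end Vale.Agent.P092.H103
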