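import Vale.Agent.P092.H103.QH4
import Vale.Agent.P092.H714.Cl5

/-!
P092, block CLASS-H, DU5 (helper103, after helper714 Cl5): open centralisers, recurrence, and the
facts on the factor, for the groups generated by the transvections of an `ε`-hermitian form over a
quaternion division algebra.
-/

set_option linter.all false

open Matrix Filter Topology

namespace Vale.Agent.P092.H103.QH

open Vale.Agent.P092.H259 (Cf PQ pq)

/-- Quaternion division algebras, with the norm. -/
structure Qn (D : Type*) [NormedDivisionRing D] [StarRing D] : Prop extends Qt D where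
  nst : ∀ x : D, ‖star x‖ = ‖x‖
  big : ∃ r : D, Cs r ∧ 1 < ‖r‖

section top

variable {n : Type*} [Fintype n] [DecidableEq n] {D : Type*} [NormedDivisionRing D] [StarRing D]
  {ε : D} {J : Matrix n n D} {G : Subgroup (Matrix n n D)ˣ}

theorem continuous_star_of (h : ∀ x : D, ‖star x‖ = ‖x‖) : Continuous (star : D → D) :=
  (Isometry.of_dist_eq fun x y => by
    rw [dist_eq_norm, dist_eq_norm, ← star_sub, h]).continuous

theorem continuous_tvm (h : Continuous (star : D → D)) :
    Continuous fun p : (n → D) × D => tvm J p.1 p.2 := by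
  unfold tvm
  refine continuous_const.add ?_
  refine Continuous.matrix_vecMulVec ?_ ?_
  · refine Continuous.matrix_mulVec continuous_const ?_
    refine continuous_pi fun i => ?_
    exact h.comp ((continuous_apply i).comp continuous_fst)
  · exact continuous_snd.smul continuous_fst

theorem continuous_hf (h : Continuous (star : D → D)) :
    Continuous fun p : (n → D) × (n → D) => hf J p.1 p.2 := by
  unfold hf
  refine Continuous.dotProduct continuous_fst ?_
  refine Continuous.matrix_mulVec continuous_const ?_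
  exact continuous_pi fun i => h.comp ((continuous_apply i).comp continuous_snd)

theorem tendsto_tvm {ι : Type*} {l : Filter ι} (h : Continuous (star : D → D)) {u : ι → n → D}
    {c : ι → D} {u₀ : n → D} {c₀ : D} (hut : Tendsto u l (𝓝 u₀)) (hct : Tendsto c l (𝓝 c₀)) :
    Tendsto (fun i => tvm J (u i) (c i)) l (𝓝 (tvm J u₀ c₀)) := by
  have h6 := hut.prodMk_nhds hct
  have h7 := (continuous_tvm (J := J) h).tendsto (u₀, c₀)
  have h8 := h7.comp h6
  exact h8

/-- Convergence in the units. -/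
theorem tendsto_units {M : Type*} [Monoid M] [TopologicalSpace M] {ι : Type*} {l : Filter ι}
    {g : ι → Mˣ} {g₀ : Mˣ} (h : Tendsto (fun i => (g i).1) l (𝓝 g₀.1))
    (h' : Tendsto (fun i => ((g i)⁻¹).1) l (𝓝 (g₀⁻¹).1)) : Tendsto g l (𝓝 g₀) := by
  rw [Units.isInducing_embedProduct.tendsto_nhds_iff]
  exact h.prodMk_nhds ((MulOpposite.continuous_op.tendsto _).comp h')

theorem tendsto_tv {ι : Type*} {l : Filter ι} (h : Continuous (star : D → D)) {u : ι → n → D}
    {c : ι → D} {u₀ : n → D} {c₀ : D} (hu : ∀ i, hf J (u i) (u i) = 0) (hu₀ : hf J u₀ u₀ = 0)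
    (hut : Tendsto u l (𝓝 u₀)) (hct : Tendsto c l (𝓝 c₀)) :
    Tendsto (fun i => tv J (u i) (c i)) l (𝓝 (tv J u₀ c₀)) := by
  refine tendsto_units ?_ ?_
  · have e1 : (fun i => (tv J (u i) (c i)).1) = fun i => tvm J (u i) (c i) :=
      funext fun i => tv_val (hu i) _
    rw [e1, tv_val hu₀]
    exact tendsto_tvm h hut hct
  · have e1 : (fun i => ((tv J (u i) (c i))⁻¹).1) = fun i => tvm J (u i) (-c i) :=
      funext fun i => by rw [← tv_neg (hu i), tv_val (hu i)]
    rw [e1, ← tv_neg hu₀, tv_val hu₀]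
    exact tendsto_tvm h hut hct.neg

theorem tendsto_tg {ι : Type*} {l : Filter ι} (h : Continuous (star : D → D)) (hG : GT ε J ≤ G)
    {u : ι → n → D} {c : ι → D} {u₀ : n → D} {c₀ : D} (hu : ∀ i, hf J (u i) (u i) = 0)
    (hc : ∀ i, CC ε (c i)) (hu₀ : hf J u₀ u₀ = 0) (hc₀ : CC ε c₀)
    (hut : Tendsto u l (𝓝 u₀)) (hct : Tendsto c l (𝓝 c₀)) :
    Tendsto (fun i => tg hG (hu i) (hc i)) l (𝓝 (tg hG hu₀ hc₀)) := by
  rw [tendsto_subtype_rng]
  exact tendsto_tv h hu hu₀ hut hct

theorem tg_zero (hG : GT ε J ≤ G) {u : n → D} (hu : hf J u u = 0) :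
    tg hG hu (CC.zero (ε := ε)) = 1 :=
  Subtype.ext (by rw [tg_val, tv_zero]; rfl)

theorem tendsto_tg_one {ι : Type*} {l : Filter ι} (h : Continuous (star : D → D))
    (hG : GT ε J ≤ G) {u : n → D} {c : ι → D} (hu : hf J u u = 0) (hc : ∀ i, CC ε (c i))
    (hct : Tendsto c l (𝓝 0)) : Tendsto (fun i => tg hG hu (hc i)) l (𝓝 1) := by
  have h1 := tendsto_tg h hG (fun _ => hu) hc hu CC.zero tendsto_const_nhds hct
  rwa [tg_zero hG hu] at h1

/-- An element which commutes with a neighbourhood of `1` is central. -/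
theorem cent (hQ : Qn D) (hF : Frm ε J) (h3 : Dm3 ε J) (hG : GT ε J ≤ G) (hGF : G ≤ FG J) (g : G)
    (h : ((Subgroup.centralizer {g} : Subgroup G) : Set G) ∈ 𝓝 1) : g ∈ Subgroup.center G := by
  refine mem_center_of_lines hQ.toQt hF h3 fun u hu => ?_
  obtain ⟨r, hr, hr1⟩ := hQ.big
  obtain ⟨s, hs0, hs⟩ := hF.cc
  have hr0 : r ≠ 0 := by
    rintro rfl
    rw [norm_zero] at hr1
    linarith
  have hc : ∀ N : ℕ, CC ε ((r ^ N)⁻¹ * s) := fun N => hs.smul hF.eps (hr.pow N).inv
  have t0 : Tendsto (fun N : ℕ => (r ^ N)⁻¹ * s) atTop (𝓝 0) := by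
    have h1 : Tendsto (fun N : ℕ => (r⁻¹) ^ N) atTop (𝓝 0) := by
      apply tendsto_pow_atTop_nhds_zero_of_norm_lt_one
      rw [norm_inv]
      exact inv_lt_one_of_one_lt₀ hr1
    have := h1.mul_const s
    simpa only [inv_pow, zero_mul] using this
  have h1 := (tendsto_tg_one (continuous_star_of hQ.nst) hG hu hc t0).eventually h
  obtain ⟨N, hN⟩ := h1.exists
  have h2 := Subgroup.mem_centralizer_iff.1 hN g rfl
  exact line_of_comm hF (hGF g.2) hu (mul_ne_zero (inv_ne_zero (pow_ne_zero N hr0)) hs0)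
    (congrArg Subtype.val h2)

theorem continuous_coe_G : Continuous fun g : G => g.1.1 :=
  Units.continuous_val.comp continuous_subtype_val

theorem continuous_act (u : n → D) : Continuous fun g : G => u ᵥ* g.1.1 :=
  Continuous.matrix_vecMul continuous_const continuous_coe_G

theorem continuous_coef (h : Continuous (star : D → D)) (u y : n → D) :
    Continuous fun g : G => ‖hf J (u ᵥ* g.1.1) y‖ := by
  have h2 : Continuous fun g : G => (u ᵥ* g.1.1, y) := (continuous_act u).prodMk continuous_const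
  exact ((continuous_hf (J := J) h).comp h2).norm

/-- The group is not compact. -/
theorem nc_G (hQ : Qn D) (hF : Frm ε J) (hG : GT ε J ≤ G) : ¬ CompactSpace G := by
  intro hcomp
  obtain ⟨u, hu0, hu⟩ := hF.iso
  obtain ⟨w, hw, huw⟩ := hF.exists_hyp hu0 hu
  obtain ⟨r, hr, hr1⟩ := hQ.big
  obtain ⟨s, hs0, hs⟩ := hF.cc
  have hstc := continuous_star_of hQ.nst
  obtain ⟨C, hC⟩ := (isCompact_range (continuous_coef (G := G) (J := J) hstc w w)).bddAbove
  have hs' : 0 < ‖s‖ := norm_pos_iff.2 hs0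
  have hε0 : 0 < ‖ε‖ := norm_pos_iff.2 (eps_ne hF.eps)
  obtain ⟨N, hN⟩ := pow_unbounded_of_one_lt (C / (‖ε‖ * ‖s‖ * ‖ε‖)) hr1
  have hc : CC ε (r ^ N * s) := hs.smul hF.eps (hr.pow N)
  have h1 := hC ⟨tg hG hu hc, rfl⟩
  have e : hf J (w ᵥ* (tg hG hu hc).1.1) w = ε * (r ^ N * s) := by
    rw [tg_val, vecMul_tv hu, hf_add_left, hf_smul_left, hw, huw, hF.swap huw, zero_add, mul_one]
  simp only [e] at h1
  have he1 : ‖ε‖ = 1 := by
    rcases hF.eps with h | h
    · rw [h, norm_one]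
    · rw [h, norm_neg, norm_one]
  rw [norm_mul, norm_mul, norm_pow, he1, one_mul] at h1
  rw [he1, one_mul, mul_one, div_lt_iff₀ hs'] at hN
  linarith

theorem t2_G (hcl : IsEmbedding fun g : G => g.1.1) : T2Space G := hcl.t2Space

theorem sc_G [ProperSpace D] (hcl : IsEmbedding fun g : G => g.1.1) :
    SecondCountableTopology G := by
  haveI : SecondCountableTopology D := secondCountable_of_proper
  haveI : SecondCountableTopology (Matrix n n D) :=
    inferInstanceAs (SecondCountableTopology (n → n → D))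
  exact hcl.secondCountableTopology

theorem lc_G [ProperSpace D] (hcl : IsClosedEmbedding fun g : G => g.1.1) :
    LocallyCompactSpace G := by
  haveI : LocallyCompactSpace (Matrix n n D) := inferInstanceAs (LocallyCompactSpace (n → n → D))
  exact hcl.locallyCompactSpace

end top

section fac

variable {n : Type} [Fintype n] [DecidableEq n] {D : Type} [NormedDivisionRing D] [StarRing D]
  {ε : D} {J : Matrix n n D} {G : Subgroup (Matrix n n D)ˣ}

/-- Recurrence. -/
theorem rec_G (hQ : Qn D) (hF : Frm ε J) (h3 : Dm3 ε J) (hG : GT ε J ≤ G) (hGF : G ≤ FG J) :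
    PA.Rec (PQ G) := by
  have hstc := continuous_star_of hQ.nst
  refine H714.Cl.rec_pq fun z hz => ?_
  obtain ⟨u, hu, hline⟩ : ∃ u, hf J u u = 0 ∧ ∀ a : D, u ᵥ* z.1.1 ≠ a • u := by
    by_contra hcon
    push Not at hcon
    exact hz (mem_center_of_lines hQ.toQt hF h3 hcon)
  have hu0 : u ≠ 0 := by
    rintro rfl
    exact hline 0 (by rw [zero_vecMul, smul_zero])
  obtain ⟨w, hw, huw⟩ := hF.exists_hyp hu0 hu
  obtain ⟨r, hr, hr1⟩ := hQ.big
  obtain ⟨s, hs0, hs⟩ := hF.cc
  have hr0 : r ≠ 0 := by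
    rintro rfl
    rw [norm_zero] at hr1
    linarith
  set E : G := dg hG hF hu hw hs hr with hE
  have hEu : u ᵥ* E.1.1 = r⁻¹ • u := u_dv hF hu hw huw hs0 hr0 hr
  have hEi : u ᵥ* ((E⁻¹ : G).1).1 = r • u := by
    have h1 : u ᵥ* ((E.1)⁻¹).1 = (r⁻¹)⁻¹ • u := inv_of_smul (inv_ne_zero hr0) hEu
    rw [inv_inv] at h1
    exact h1
  have hcen : ∀ (x y : n → D) (g : G), ∀ c ∈ Subgroup.center G,
      ‖hf J (x ᵥ* (g * c).1.1) y‖ = ‖hf J (x ᵥ* g.1.1) y‖ := by
    intro x y g c hc
    have e : x ᵥ* (g * c).1.1 = (x ᵥ* g.1.1) ᵥ* c.1.1 := vecMul_mul' x g.1 c.1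
    rcases center_sign hQ.toQt hF h3 hG hGF hc with h | h
    · rw [e, h]
    · rw [e, h, hf_neg_left, norm_neg]
  -- the general scaling
  have hscale : ∀ (y : n → D) (b : D), y ᵥ* (E⁻¹ : G).1.1 = b • y → ∀ g : G,
      ‖hf J (u ᵥ* ((E⁻¹ * g * (E⁻¹)⁻¹ : G)).1.1) y‖ = ‖r‖ * ‖b‖ * ‖hf J (u ᵥ* g.1.1) y‖ := by
    intro y b hb g
    have e : u ᵥ* ((E⁻¹ * g * (E⁻¹)⁻¹ : G)).1.1 = r • ((u ᵥ* g.1.1) ᵥ* E.1.1) := by
      rw [inv_inv]
      change u ᵥ* ((E⁻¹ : G).1 * g.1 * E.1).1 = _
      rw [vecMul_mul', vecMul_mul', hEi, smul_vecMul, smul_vecMul]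
    rw [e, hf_smul_left, norm_mul, mul_assoc]
    congr 1
    -- move `E` to the other side
    have h1 := mem_FG.mp (hGF (E⁻¹ : G).2) ((u ᵥ* g.1.1) ᵥ* E.1.1) y
    have h2 : ((u ᵥ* g.1.1) ᵥ* E.1.1) ᵥ* (E⁻¹ : G).1.1 = u ᵥ* g.1.1 :=
      vecMul_cancel_inv (u ᵥ* g.1.1) E.1
    rw [h2, hb, hf_smul_right] at h1
    rw [← h1, norm_mul, hQ.nst, mul_comm]
  by_cases h0 : hf J (u ᵥ* z.1.1) u = 0
  · -- the second function
    set v : n → D := u ᵥ* z.1.1 with hv
    set v' : n → D := v - hf J v w • u with hv'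
    have h1 : hf J v' w = 0 := by
      rw [hv', hf_sub_left, hf_smul_left, huw, mul_one, sub_self]
    have h2 : hf J v' u = 0 := by
      rw [hv', hf_sub_left, hf_smul_left, hu, h0, mul_zero, sub_zero]
    have h3' : v' ≠ 0 := by
      intro h
      exact hline (hf J v w) (sub_eq_zero.mp h)
    obtain ⟨x, hx⟩ := hF.nondeg v' h3'
    have he := hF.eps
    have hwu : hf J w u = ε := hF.swap huw
    set y : n → D := x + (-hf J x w) • u + (-(hf J x u * ε)) • w with hy
    have hyu : hf J y u = 0 := by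
      rw [hy, hf_add_left, hf_add_left, hf_smul_left, hf_smul_left, hu, hwu, mul_zero, add_zero,
        neg_mul, mul_assoc, eps_sq he, mul_one, add_neg_cancel]
    have hyw : hf J y w = 0 := by
      rw [hy, hf_add_left, hf_add_left, hf_smul_left, hf_smul_left, huw, hw, mul_zero, add_zero,
        mul_one, add_neg_cancel]
    have hv'y : hf J v' y ≠ 0 := by
      rw [hy, hf_add_right, hf_add_right, hf_smul_right, hf_smul_right, h1, h2, zero_mul,
        zero_mul, add_zero, add_zero]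
      exact hx
    have hvy : hf J v y ≠ 0 := by
      have e : v = v' + hf J v w • u := by rw [hv']; abel
      rw [e, hf_add_left, hf_smul_left, hF.symm_zero hyu, mul_zero, add_zero]
      exact hv'y
    have hyE : y ᵥ* (E⁻¹ : G).1.1 = (1 : D) • y := by
      have h4 : y ᵥ* E.1.1 = (1 : D) • y := by
        rw [one_smul]
        exact y_dv hu hw hyu hyw
      have h5 : y ᵥ* ((E.1)⁻¹).1 = (1 : D)⁻¹ • y := inv_of_smul one_ne_zero h4
      rw [inv_one] at h5
      exact h5
    refine ⟨fun g => ‖hf J (u ᵥ* g.1.1) y‖, E⁻¹, ‖r‖, continuous_coef hstc u y, hr1,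
      fun g => ?_, hcen u y, ?_⟩
    · have := hscale y 1 hyE g
      rwa [norm_one, mul_one] at this
    · exact norm_pos_iff.2 hvy
  · refine ⟨fun g => ‖hf J (u ᵥ* g.1.1) u‖, E⁻¹, ‖r‖ * ‖r‖, continuous_coef hstc u u, ?_,
      fun g => hscale u r hEi g, hcen u u, norm_pos_iff.2 h0⟩
    nlinarith

/-- The facts needed for the lattices. -/
theorem cf_G (hQ : Qn D) (hF : Frm ε J) (h3 : Dm3 ε J) (hG : GT ε J ≤ G) (hGF : G ≤ FG J) :
    Cf G where
  fin := finite_center hQ.toQt hF h3 hG hGF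
  cen g hg := cent hQ hF h3 hG hGF g (hg.mem_nhds (Subgroup.one_mem _))

/-- **The facts on the factor** `G / Z(G)`, for `G` closed and generated by transvections. -/
theorem facS_G [ProperSpace D] (hQ : Qn D) (hF : Frm ε J) (h3 : Dm3 ε J) (hG : G = GT ε J)
    (hcl : IsClosedEmbedding fun g : G => g.1.1) (hm : PA.HM G) : PA.FacS (PQ G) := by
  have hG1 : GT ε J ≤ G := hG.ge
  have hGF : G ≤ FG J := hG.le.trans (GT_le hF)
  have hfin := finite_center hQ.toQt hF h3 hG1 hGF
  have hf' : ((Subgroup.center G : Subgroup G) : Set G).Finite := Set.toFinite _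
  haveI := t2_G hcl.isEmbedding
  haveI := lc_G hcl
  haveI := sc_G hcl.isEmbedding
  haveI hcl' : IsClosed ((Subgroup.center G : Subgroup G) : Set G) := hf'.isClosed
  obtain ⟨r, hr, hr1⟩ := hQ.big
  have hr0 : r ≠ 0 := by
    rintro rfl
    rw [norm_zero] at hr1
    linarith
  have hri : ‖r⁻¹ * r⁻¹‖ < 1 := by
    rw [norm_mul, norm_inv]
    have := inv_lt_one_of_one_lt₀ hr1
    have h0 : 0 < ‖r‖⁻¹ := by positivity
    nlinarith
  have hr4 : r * r ≠ r⁻¹ * r⁻¹ := by
    intro h
    have h1 : ‖r * r‖ < 1 := by rw [h]; exact hri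
    rw [norm_mul] at h1
    nlinarith
  have hr2 : r⁻¹ * r⁻¹ ≠ 1 := by
    intro h
    rw [h, norm_one] at hri
    exact lt_irrefl _ hri
  have hsimple : ∀ N : Subgroup G, N.Normal → N ≤ Subgroup.center G ∨ N = ⊤ := by
    intro N hN
    by_cases h : N ≤ Subgroup.center G
    · exact Or.inl h
    · obtain ⟨z, hz, hzc⟩ := SetLike.not_le_iff_exists.1 h
      refine Or.inr (eq_top_iff.2 fun x _ => ?_)
      have hx : x.1 ∈ GT ε J := hG ▸ x.2
      exact normal_main hQ.toQt hF h3 hG1 hGF hr hr0 hr4 N hN hz hzc x.1 hx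
  have hhom : ∀ (A : Type) [CommGroup A] (f : G →* A), f = 1 := by
    intro A _ f
    refine MonoidHom.ext fun x => ?_
    have hx : x.1 ∈ GT ε J := hG ▸ x.2
    exact hom_GT hF hG1 hGF f hr hr0 hr2 x.1 hx
  exact
  { top := inferInstance
    lc := inferInstance
    sc := inferInstance
    t2 := inferInstance
    nc := PA.nc_quot _ hf'.isCompact (nc_G hQ hF hG1)
    simple := PA.simple_quot hsimple
    cent := PA.cent_quot hf' fun g hg => cent hQ hF h3 hG1 hGF g hg
    hom := PA.hom_quot hhom _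
    recu := rec_G hQ hF h3 hG1 hGF
    hm := hm.quot _ }

end fac

end Vale.Agent.P092.H103.QH
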