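import Vale.Agent.P092.H103.QH7
import Vale.Agent.P092.H183.DV8
import Vale.Agent.P092.H183.DV7
import Vale.Agent.P092.H866.DH.L3
import Vale.Agent.P092.H866.DH.Cn
import Vale.Agent.P092.H821.HTgt3
import Vale.Agent.P092.H971.Conn

/-!
P092, block CLASS-H (helper103): the groups generated by the unitary transvections of an isotropic
hermitian or skew-hermitian form over a quaternion division algebra over a local field, and all their
central quotients, are in the class `QF`.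
-/

set_option linter.all false

open Matrix Topology

namespace Vale.Agent.P092.H103.QH

open Vale.Agent.P092.H899.Qu
open Vale.Agent.P092.H933 (LocK)

section cl

variable {n : Type*} [Fintype n] [DecidableEq n] {D : Type*} [DivisionRing D] [StarRing D]

/-- The group generated by the transvections, in the words of matrices. -/
theorem closure_tv (ε : D) (J : Matrix n n D) :
    Subgroup.closure {g : (Matrix n n D)ˣ | ∃ (u : n → D) (c : D), u ⬝ᵥ (J *ᵥ star u) = 0 ∧
      c + ε * star c = 0 ∧ g.1 = 1 + vecMulVec (J *ᵥ star u) (c • u)} = GT ε J := by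
  unfold GT
  congr 1
  ext g
  constructor
  · rintro ⟨u, c, hu, hc, hg⟩
    refine ⟨u, c, hu, hc, ?_⟩
    refine Units.ext ?_
    rw [tv_val hu]
    exact hg
  · rintro ⟨u, c, hu, hc, rfl⟩
    exact ⟨u, c, hu, hc, tv_val hu c⟩

end cl

variable {k : Type} [NontriviallyNormedField k] [ProperSpace k] {D : Type}
  [NormedDivisionRing D] [NormedAlgebra k D] [FiniteDimensional k D] [StarRing D]
  {ε : D} {ι : Type} [Fintype ι] [DecidableEq ι] {J₀ : Matrix ι ι D} {q : ℕ}

/-- **The quaternionic classical groups are in the class `QF`.** -/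
theorem qf_quat (hk : LocK k) (ht : ∀ x : D, ∃ t : k, x + star x = algebraMap k D t)
    (h2 : (2 : k) ≠ 0) (hnc : ∃ x y : D, x * y ≠ y * x) (hε : ε = 1 ∨ ε = -1)
    (hH : ∀ i j, J₀ j i = ε * star (J₀ i j)) (hJ : ∀ v : ι → D, v ≠ 0 → hf J₀ v v ≠ 0)
    (hq : 1 ≤ q) (hd : ε = -1 → 3 ≤ 2 * q + Fintype.card ι) :
    QC.QF (GT ε (hypD q ε J₀)) q := by
  haveI : ProperSpace D := FiniteDimensional.proper k D
  have hst := star_alg ht hnc
  have hQ : Qn D := qn_of' ht h2 hnc
  have hF : Frm ε (hypD q ε J₀) := frm_quat ht h2 hnc hε hH hJ hq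
  have h3 : Dm3 ε (hypD q ε J₀) := dm3_hypD hQ.toQt hJ hq hd
  have hcl : IsClosedEmbedding fun g : GT ε (hypD q ε J₀) => g.1.1 :=
    H866.QL.isClosedEmbedding_GT hst ht hQ.toQt hF h3
  have hm := H183.DV.hmg_GT hQ.nst hQ.big hF hcl
  refine qf_quat_of ht h2 hnc hε hH hJ hq hd hcl hm ?_ ?_
  · refine H821.tgt_quat hk hst hF hJ (GT_le hF) ?_
    have e : ((GT ε (hypD q ε J₀) : Subgroup _) : Set (Matrix ((Fin q ⊕ Fin q) ⊕ ι)
        ((Fin q ⊕ Fin q) ⊕ ι) D)ˣ) =
        Units.val ⁻¹' Set.range fun g : GT ε (hypD q ε J₀) => g.1.1 := by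
      ext g
      constructor
      · intro hg
        exact ⟨⟨g, hg⟩, rfl⟩
      · rintro ⟨x, hx⟩
        have h1 : x.1 = g := Units.ext hx
        rw [← h1]
        exact x.2
    rw [e]
    exact hcl.isClosed_range.preimage Units.continuous_val
  · rcases H971.real_or_ultra hk with h | h
    · exact Or.inl (H866.QL.preconnected_GT hst hε h)
    · haveI : IsUltrametricDist D := IsUltrametricDist.of_normedAlgebra k
      exact Or.inr (H183.DV.td_of hQ hF hcl hm)

/-- **The quaternionic classical groups and all their central quotients are in the class `QF`**, in the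
words of matrices. -/
theorem qf_quatH (hk : LocK k) (ht : ∀ x : D, ∃ t : k, x + star x = algebraMap k D t)
    (h2 : (2 : k) ≠ 0) (hnc : ∃ x y : D, x * y ≠ y * x) (hε : ε = 1 ∨ ε = -1)
    (hH : ∀ i j, J₀ j i = ε * star (J₀ i j))
    (hJ : ∀ v : ι → D, v ≠ 0 → v ⬝ᵥ (J₀ *ᵥ star v) ≠ 0)
    (hq : 1 ≤ q) (hd : ε = -1 → 3 ≤ 2 * q + Fintype.card ι)
    (G : Subgroup (Matrix ((Fin q ⊕ Fin q) ⊕ ι) ((Fin q ⊕ Fin q) ⊕ ι) D)ˣ)
    (hG : G = Subgroup.closure {g | ∃ (u : (Fin q ⊕ Fin q) ⊕ ι → D) (c : D),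
      u ⬝ᵥ (fromBlocks (fromBlocks 0 1 (ε • 1) 0) 0 0 J₀ *ᵥ star u) = 0 ∧ c + ε * star c = 0 ∧
      g.1 = 1 + vecMulVec (fromBlocks (fromBlocks 0 1 (ε • 1) 0) 0 0 J₀ *ᵥ star u) (c • u)}) :
    QC.QF G q ∧ ∀ (Z : Subgroup G) [Z.Normal], Z ≤ Subgroup.center G → QC.QF (G ⧸ Z) q := by
  have e : G = GT ε (hypD q ε J₀) := hG.trans (closure_tv ε (hypD q ε J₀))
  subst e
  have h := qf_quat hk ht h2 hnc hε hH hJ hq hd
  exact ⟨h, fun Z _ hZ => qf_quat_quo ht h2 hnc hε hH hJ hq hd h Z hZ⟩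

end Vale.Agent.P092.H103.QH
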