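import Mathlib.LinearAlgebra.Matrix.ConjTranspose
import Mathlib.LinearAlgebra.Matrix.ToLin
import Mathlib.Algebra.Star.Basic
import Mathlib.Algebra.Star.Pi
import Mathlib.Tactic.NoncommRing
import Mathlib.Tactic.Module
import Mathlib.Tactic.LinearCombination

/-!
P092, block CLASS-H (helper103, after helper714 Cl1, Cl2): transvections of an `ε`-hermitian form over a
division ring with involution.  Vectors are rows (left vector spaces), and matrices act from the right.
-/

set_option linter.all false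

open Matrix

namespace Vale.Agent.P092.H103.QH

section basic

variable {n : Type*} [Fintype n] [DecidableEq n] {D : Type*} [DivisionRing D] [StarRing D]

/-- The form `h(x, y) = x J (y*)ᵀ`. -/
def hf (J : Matrix n n D) (x y : n → D) : D := x ⬝ᵥ (J *ᵥ star y)

variable (J : Matrix n n D)

theorem hf_add_left (x x' y : n → D) : hf J (x + x') y = hf J x y + hf J x' y := by
  unfold hf; rw [add_dotProduct]

theorem hf_smul_left (a : D) (x y : n → D) : hf J (a • x) y = a * hf J x y := by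
  unfold hf; rw [smul_dotProduct, smul_eq_mul]

theorem hf_add_right (x y y' : n → D) : hf J x (y + y') = hf J x y + hf J x y' := by
  unfold hf
  rw [star_add, mulVec_add, dotProduct_add]

theorem hf_smul_right (a : D) (x y : n → D) : hf J x (a • y) = hf J x y * star a := by
  unfold hf
  simp only [dotProduct, mulVec, Pi.star_apply, Pi.smul_apply, smul_eq_mul, star_mul,
    Finset.sum_mul, mul_assoc]

theorem hf_zero_left (y : n → D) : hf J 0 y = 0 := by
  unfold hf; rw [zero_dotProduct]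

theorem hf_zero_right (x : n → D) : hf J x 0 = 0 := by
  have := hf_smul_right J 0 x 0
  rwa [zero_smul, star_zero, mul_zero] at this

theorem hf_neg_left (x y : n → D) : hf J (-x) y = -hf J x y := by
  have := hf_smul_left J (-1) x y
  rwa [neg_one_smul, neg_one_mul] at this

theorem hf_neg_right (x y : n → D) : hf J x (-y) = -hf J x y := by
  have := hf_smul_right J (-1) x y
  rwa [neg_one_smul, star_neg, star_one, mul_neg_one] at this

theorem hf_sub_left (x x' y : n → D) : hf J (x - x') y = hf J x y - hf J x' y := by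
  rw [sub_eq_add_neg, hf_add_left, hf_neg_left, sub_eq_add_neg]

variable {J}

/-- The isometries. -/
def FG (J : Matrix n n D) : Subgroup (Matrix n n D)ˣ where
  carrier := {g | g.1 * J * g.1ᴴ = J}
  one_mem' := by
    show (1 : Matrix n n D) * J * (1 : Matrix n n D)ᴴ = J
    rw [conjTranspose_one, Matrix.one_mul, Matrix.mul_one]
  mul_mem' := by
    intro g h hg hh
    have hg' : g.1 * J * g.1ᴴ = J := hg
    have hh' : h.1 * J * h.1ᴴ = J := hh
    show (g.1 * h.1) * J * (g.1 * h.1)ᴴ = J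
    rw [conjTranspose_mul]
    calc g.1 * h.1 * J * (h.1ᴴ * g.1ᴴ) = g.1 * (h.1 * J * h.1ᴴ) * g.1ᴴ := by
          simp only [Matrix.mul_assoc]
      _ = J := by rw [hh', hg']
  inv_mem' := by
    intro g hg
    have hg' : g.1 * J * g.1ᴴ = J := hg
    have h1 : (g⁻¹).1 * g.1 = 1 := g.inv_mul
    have h2 : g.1ᴴ * (g⁻¹).1ᴴ = 1 := by
      rw [← conjTranspose_mul, h1, conjTranspose_one]
    show (g⁻¹).1 * J * (g⁻¹).1ᴴ = J
    calc (g⁻¹).1 * J * (g⁻¹).1ᴴ = (g⁻¹).1 * (g.1 * J * g.1ᴴ) * (g⁻¹).1ᴴ := by rw [hg']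
      _ = ((g⁻¹).1 * g.1) * J * (g.1ᴴ * (g⁻¹).1ᴴ) := by simp only [Matrix.mul_assoc]
      _ = J := by rw [h1, h2, Matrix.one_mul, Matrix.mul_one]

theorem hf_vecMul (g : Matrix n n D) (x y : n → D) :
    hf J (x ᵥ* g) (y ᵥ* g) = x ⬝ᵥ ((g * J * gᴴ) *ᵥ star y) := by
  unfold hf
  rw [star_vecMul, mulVec_mulVec, ← dotProduct_mulVec, mulVec_mulVec, ← Matrix.mul_assoc]

theorem mem_FG {g : (Matrix n n D)ˣ} :
    g ∈ FG J ↔ ∀ x y, hf J (x ᵥ* g.1) (y ᵥ* g.1) = hf J x y := by
  constructor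
  · intro hg x y
    have hg' : g.1 * J * g.1ᴴ = J := hg
    rw [hf_vecMul, hg']
    rfl
  · intro h
    change g.1 * J * g.1ᴴ = J
    ext i j
    have h1 := h (Pi.single i 1) (Pi.single j 1)
    rw [hf_vecMul] at h1
    have e : star (Pi.single j (1 : D) : n → D) = Pi.single j 1 := by
      funext l
      by_cases hl : l = j
      · subst hl; simp
      · simp [Pi.single_eq_of_ne hl]
    unfold hf at h1
    rw [e, mulVec_single_one, mulVec_single_one, single_one_dotProduct, single_one_dotProduct] at h1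
    exact h1

/-- The matrix of the transvection `x ↦ x + h(x, u) c u`. -/
def tvm (J : Matrix n n D) (u : n → D) (c : D) : Matrix n n D :=
  1 + vecMulVec (J *ᵥ star u) (c • u)

theorem vecMul_tvm (x u : n → D) (c : D) :
    x ᵥ* tvm J u c = x + (hf J x u * c) • u := by
  unfold tvm hf
  rw [vecMul_add, vecMul_one, vecMul_vecMulVec, smul_smul]

theorem ext_vm {A B : Matrix n n D} (h : ∀ x, x ᵥ* A = x ᵥ* B) : A = B := by
  ext i j
  have := congrFun (h (Pi.single i 1)) j
  simpa using this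

theorem tvm_mul {u : n → D} (hu : hf J u u = 0) (c c' : D) :
    tvm J u c * tvm J u c' = tvm J u (c + c') := by
  refine ext_vm fun x => ?_
  rw [← vecMul_vecMul, vecMul_tvm, vecMul_tvm, vecMul_tvm, hf_add_left, hf_smul_left, hu,
    mul_zero, add_zero, add_assoc, ← add_smul, ← mul_add]

theorem tvm_zero (u : n → D) : tvm J u 0 = 1 := by
  refine ext_vm fun x => ?_
  rw [vecMul_tvm, mul_zero, zero_smul, add_zero, vecMul_one]

open Classical in
/-- The transvection, if `u` is isotropic. -/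
noncomputable def tv (J : Matrix n n D) (u : n → D) (c : D) : (Matrix n n D)ˣ :=
  if h : hf J u u = 0 then
    ⟨tvm J u c, tvm J u (-c), by rw [tvm_mul h, add_neg_cancel, tvm_zero],
      by rw [tvm_mul h, neg_add_cancel, tvm_zero]⟩
  else 1

theorem tv_val {u : n → D} (hu : hf J u u = 0) (c : D) : (tv J u c).1 = tvm J u c := by
  unfold tv
  rw [dif_pos hu]

theorem vecMul_tv {u : n → D} (hu : hf J u u = 0) (c : D) (x : n → D) :
    x ᵥ* (tv J u c).1 = x + (hf J x u * c) • u := by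
  rw [tv_val hu, vecMul_tvm]

theorem ext_vecMul {g g' : (Matrix n n D)ˣ} (h : ∀ x, x ᵥ* g.1 = x ᵥ* g'.1) : g = g' :=
  Units.ext (ext_vm h)

theorem vecMul_mul' (x : n → D) (g g' : (Matrix n n D)ˣ) :
    x ᵥ* (g * g').1 = (x ᵥ* g.1) ᵥ* g'.1 := by
  rw [vecMul_vecMul]; rfl

theorem vecMul_one' (x : n → D) : x ᵥ* (1 : (Matrix n n D)ˣ).1 = x := by
  change x ᵥ* (1 : Matrix n n D) = x
  rw [vecMul_one]

theorem vecMul_inv_cancel (x : n → D) (g : (Matrix n n D)ˣ) :
    (x ᵥ* (g⁻¹).1) ᵥ* g.1 = x := by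
  rw [← vecMul_mul', inv_mul_cancel, vecMul_one']

theorem vecMul_cancel_inv (x : n → D) (g : (Matrix n n D)ˣ) :
    (x ᵥ* g.1) ᵥ* (g⁻¹).1 = x := by
  rw [← vecMul_mul', mul_inv_cancel, vecMul_one']

theorem tv_add {u : n → D} (hu : hf J u u = 0) (c c' : D) :
    tv J u (c + c') = tv J u c * tv J u c' := by
  refine Units.ext ?_
  rw [Units.val_mul, tv_val hu, tv_val hu, tv_val hu, tvm_mul hu]

theorem tv_zero (u : n → D) : tv J u 0 = 1 := by
  by_cases hu : hf J u u = 0
  · refine Units.ext ?_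
    rw [tv_val hu, tvm_zero, Units.val_one]
  · unfold tv
    rw [dif_neg hu]

theorem tv_neg {u : n → D} (hu : hf J u u = 0) (c : D) : tv J u (-c) = (tv J u c)⁻¹ := by
  rw [eq_inv_iff_mul_eq_one, ← tv_add hu, neg_add_cancel, tv_zero]

theorem iso_smul {u : n → D} (hu : hf J u u = 0) (a : D) : hf J (a • u) (a • u) = 0 := by
  rw [hf_smul_left, hf_smul_right, hu, zero_mul, mul_zero]

theorem tv_smul {u : n → D} (hu : hf J u u = 0) (a c : D) :
    tv J (a • u) c = tv J u (star a * c * a) := by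
  refine ext_vecMul fun x => ?_
  rw [vecMul_tv (iso_smul hu a), vecMul_tv hu, hf_smul_right, smul_smul]
  simp only [mul_assoc]

theorem tv_vec_zero (c : D) : tv J 0 c = 1 := by
  refine ext_vecMul fun x => ?_
  rw [vecMul_tv (hf_zero_left J 0), smul_zero, add_zero, vecMul_one']

theorem iso_vecMul {g : (Matrix n n D)ˣ} (hg : g ∈ FG J) {u : n → D}
    (hu : hf J u u = 0) : hf J (u ᵥ* g.1) (u ᵥ* g.1) = 0 := by
  rw [mem_FG.mp hg, hu]

/-- Conjugation of transvections. -/
theorem conj_tv {g : (Matrix n n D)ˣ} (hg : g ∈ FG J) {u : n → D}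
    (hu : hf J u u = 0) (c : D) : g⁻¹ * tv J u c * g = tv J (u ᵥ* g.1) c := by
  refine ext_vecMul fun x => ?_
  rw [vecMul_mul', vecMul_mul', vecMul_tv hu, vecMul_tv (iso_vecMul hg hu), add_vecMul,
    vecMul_inv_cancel, smul_vecMul]
  have h := mem_FG.mp hg (x ᵥ* (g⁻¹).1) u
  rw [vecMul_inv_cancel] at h
  rw [h]

theorem conj_tv' {g : (Matrix n n D)ˣ} (hg : g ∈ FG J) {u : n → D}
    (hu : hf J u u = 0) (c : D) : g * tv J u c * g⁻¹ = tv J (u ᵥ* (g⁻¹).1) c := by
  have h := conj_tv (inv_mem hg) hu c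
  rwa [inv_inv] at h

/-- The inverse acts by the inverse scalar. -/
theorem inv_of_smul {g : (Matrix n n D)ˣ} {x : n → D} {r : D} (hr0 : r ≠ 0)
    (h : x ᵥ* g.1 = r • x) : x ᵥ* (g⁻¹).1 = r⁻¹ • x := by
  have h1 := vecMul_cancel_inv x g
  rw [h, smul_vecMul] at h1
  have h2 : r⁻¹ • (r • (x ᵥ* (g⁻¹).1)) = r⁻¹ • x := by rw [h1]
  rwa [smul_smul, inv_mul_cancel₀ hr0, one_smul] at h2

end basic

variable {n : Type*} [Fintype n] [DecidableEq n] {D : Type*} [DivisionRing D] [StarRing D]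

/-- The coefficients of the transvections. -/
def CC (ε c : D) : Prop := c + ε * star c = 0

/-- The algebraic properties of the form. -/
structure Frm (ε : D) (J : Matrix n n D) : Prop where
  eps : ε = 1 ∨ ε = -1
  herm : ∀ x y, hf J y x = ε * star (hf J x y)
  nondeg : ∀ x, x ≠ 0 → ∃ y, hf J x y ≠ 0
  tv : ∀ y, ∃ β, hf J y y = β + ε * star β
  iso : ∃ u, u ≠ 0 ∧ hf J u u = 0
  cc : ∃ c : D, c ≠ 0 ∧ CC ε c

/-- The central symmetric scalars. -/
structure Cs (r : D) : Prop where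
  st : star r = r
  cm : ∀ x : D, r * x = x * r

namespace Cs

variable {r s : D}

theorem one : Cs (1 : D) := ⟨star_one D, fun x => by rw [one_mul, mul_one]⟩

theorem neg (h : Cs r) : Cs (-r) := ⟨by rw [star_neg, h.st], fun x => by rw [neg_mul, mul_neg, h.cm]⟩

theorem mul (h : Cs r) (h' : Cs s) : Cs (r * s) :=
  ⟨by rw [star_mul, h.st, h'.st, h'.cm], fun x => by rw [mul_assoc, h'.cm, ← mul_assoc, h.cm, mul_assoc]⟩

theorem add (h : Cs r) (h' : Cs s) : Cs (r + s) :=
  ⟨by rw [star_add, h.st, h'.st], fun x => by rw [add_mul, mul_add, h.cm, h'.cm]⟩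

theorem sub (h : Cs r) (h' : Cs s) : Cs (r - s) := by
  rw [sub_eq_add_neg]; exact h.add h'.neg

theorem inv (h : Cs r) : Cs r⁻¹ := by
  refine ⟨by rw [star_inv₀, h.st], fun x => ?_⟩
  by_cases hr : r = 0
  · subst hr; rw [inv_zero, zero_mul, mul_zero]
  · have h1 : r * (r⁻¹ * x) = r * (x * r⁻¹) := by
      rw [mul_inv_cancel_left₀ hr, ← mul_assoc, h.cm x, mul_assoc, mul_inv_cancel₀ hr, mul_one]
    exact mul_left_cancel₀ hr h1

theorem pow (h : Cs r) (N : ℕ) : Cs (r ^ N) := by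
  induction N with
  | zero => rw [pow_zero]; exact one
  | succ N ih => rw [pow_succ]; exact ih.mul h

end Cs

/-- The group generated by the transvections. -/
def GT (ε : D) (J : Matrix n n D) : Subgroup (Matrix n n D)ˣ :=
  Subgroup.closure {g | ∃ u c, hf J u u = 0 ∧ CC ε c ∧ g = tv J u c}

section cc

variable {ε : D}

theorem eps_comm (he : ε = 1 ∨ ε = -1) (x : D) : ε * x = x * ε := by
  rcases he with rfl | rfl
  · rw [one_mul, mul_one]
  · rw [neg_one_mul, mul_neg_one]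

theorem eps_sq (he : ε = 1 ∨ ε = -1) : ε * ε = 1 := by
  rcases he with rfl | rfl
  · rw [one_mul]
  · rw [neg_one_mul, neg_neg]

theorem eps_star (he : ε = 1 ∨ ε = -1) : star ε = ε := by
  rcases he with rfl | rfl
  · exact star_one D
  · rw [star_neg, star_one]

theorem eps_ne (he : ε = 1 ∨ ε = -1) : ε ≠ 0 := by
  rcases he with rfl | rfl
  · exact one_ne_zero
  · exact neg_ne_zero.2 one_ne_zero

theorem eps_cs (he : ε = 1 ∨ ε = -1) : Cs ε := ⟨eps_star he, eps_comm he⟩

theorem CC.star_eq (he : ε = 1 ∨ ε = -1) {c : D} (hc : CC ε c) : star c = -ε * c := by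
  unfold CC at hc
  have h1 : ε * star c = -c := by rw [eq_neg_iff_add_eq_zero, add_comm]; exact hc
  calc star c = ε * (ε * star c) := by rw [← mul_assoc, eps_sq he, one_mul]
    _ = -ε * c := by rw [h1, mul_neg, neg_mul]

theorem CC.of_star (he : ε = 1 ∨ ε = -1) {c : D} (hc : star c = -ε * c) : CC ε c := by
  unfold CC
  rw [hc, neg_mul, mul_neg, ← mul_assoc, eps_sq he, one_mul, add_neg_cancel]

theorem CC.zero : CC ε (0 : D) := by unfold CC; rw [star_zero, mul_zero, add_zero]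

theorem CC.neg {c : D} (hc : CC ε c) : CC ε (-c) := by
  unfold CC at *; rw [star_neg, mul_neg, ← neg_add, hc, neg_zero]

theorem CC.add {c d : D} (hc : CC ε c) (hd : CC ε d) : CC ε (c + d) := by
  unfold CC at *
  rw [star_add, mul_add, add_add_add_comm, hc, hd, add_zero]

theorem CC.sub {c d : D} (hc : CC ε c) (hd : CC ε d) : CC ε (c - d) := by
  rw [sub_eq_add_neg]; exact hc.add hd.neg

/-- Congruence. -/
theorem CC.congr (he : ε = 1 ∨ ε = -1) {c : D} (hc : CC ε c) (a : D) :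
    CC ε (star a * c * a) := by
  refine CC.of_star he ?_
  rw [star_mul, star_mul, star_star, hc.star_eq he]
  simp only [neg_mul, mul_neg, ← mul_assoc, eps_comm he (star a)]

theorem CC.congr' (he : ε = 1 ∨ ε = -1) {c : D} (hc : CC ε c) (a : D) :
    CC ε (a * c * star a) := by
  have := hc.congr he (star a)
  rwa [star_star] at this

theorem CC.smul (he : ε = 1 ∨ ε = -1) {c r : D} (hr : Cs r) (hc : CC ε c) : CC ε (r * c) := by
  refine CC.of_star he ?_
  rw [star_mul, hr.st, hc.star_eq he, ← hr.cm]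
  simp only [neg_mul, mul_neg, ← mul_assoc, eps_comm he r]

theorem CC.inv (he : ε = 1 ∨ ε = -1) {c : D} (hc : CC ε c) : CC ε c⁻¹ := by
  refine CC.of_star he ?_
  rw [star_inv₀, hc.star_eq he]
  rcases he with rfl | rfl
  · simp [inv_neg]
  · simp

theorem tv_mem_GT {J : Matrix n n D} {u : n → D} (hu : hf J u u = 0) {c : D} (hc : CC ε c) :
    tv J u c ∈ GT ε J := Subgroup.subset_closure ⟨u, c, hu, hc, rfl⟩

end cc

section frm

variable {ε : D} {J : Matrix n n D}

/-- Transvections with `c + ε c* = 0` are isometries. -/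
theorem tv_mem (hF : Frm ε J) {u : n → D} (hu : hf J u u = 0) {c : D}
    (hc : CC ε c) : tv J u c ∈ FG J := by
  rw [mem_FG]
  intro x y
  rw [vecMul_tv hu, vecMul_tv hu, hf_add_left, hf_add_right, hf_add_right, hf_smul_left,
    hf_smul_left, hf_smul_right, hf_smul_right, hu, zero_mul, mul_zero, add_zero, star_mul]
  have h1 : hf J u y = ε * star (hf J y u) := hF.herm y u
  rw [h1, hc.star_eq hF.eps]
  have h2 : hf J x u * (-ε * c * star (hf J y u)) = -(hf J x u * c * (ε * star (hf J y u))) := by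
    rw [neg_mul, neg_mul, mul_neg, mul_assoc (hf J x u) c, ← mul_assoc c ε, ← eps_comm hF.eps c]
  rw [h2]
  abel

theorem GT_le (hF : Frm ε J) : GT ε J ≤ FG J := by
  rw [GT, Subgroup.closure_le]
  rintro _ ⟨u, c, hu, hc, rfl⟩
  exact tv_mem hF hu hc

namespace Frm

variable (hF : Frm ε J)

include hF

theorem swap {x y : n → D} (h : hf J x y = 1) : hf J y x = ε := by
  rw [hF.herm, h, star_one, mul_one]

theorem symm_zero {x y : n → D} (h : hf J x y = 0) : hf J y x = 0 := by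
  rw [hF.herm, h, star_zero, mul_zero]

theorem symm_ne {x y : n → D} (h : hf J x y ≠ 0) : hf J y x ≠ 0 := by
  intro h'
  exact h (hF.symm_zero h')

/-- Correction of a vector by a multiple of `u`. -/
theorem exists_corr {u y : n → D} (hu : hf J u u = 0) (hy : hf J u y ≠ 0) :
    ∃ α : D, hf J (y + α • u) (y + α • u) = 0 := by
  obtain ⟨β, hβ⟩ := hF.tv y
  refine ⟨-β * (hf J u y)⁻¹, ?_⟩
  have e1 : -β * (hf J u y)⁻¹ * hf J u y = -β := by
    rw [mul_assoc, inv_mul_cancel₀ hy, mul_one]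
  rw [hf_add_left, hf_add_right, hf_add_right, hf_smul_left, hf_smul_left, hf_smul_right,
    hf_smul_right, hu, zero_mul, mul_zero, add_zero, hβ, e1, hF.herm u y]
  have e2 : ε * star (hf J u y) * star (-β * (hf J u y)⁻¹) = -(ε * star β) := by
    rw [mul_assoc, ← star_mul, e1, star_neg, mul_neg]
  rw [e2]
  abel

/-- An isotropic vector is in a hyperbolic plane. -/
theorem exists_hyp {u : n → D} (h0 : u ≠ 0) (hu : hf J u u = 0) :
    ∃ w, hf J w w = 0 ∧ hf J u w = 1 := by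
  obtain ⟨y, hy⟩ := hF.nondeg u h0
  obtain ⟨y', hy'⟩ : ∃ y', hf J u y' = 1 := by
    refine ⟨star (hf J u y)⁻¹ • y, ?_⟩
    rw [hf_smul_right, star_star, mul_inv_cancel₀ hy]
  obtain ⟨α, hα⟩ := hF.exists_corr hu (y := y') (by rw [hy']; exact one_ne_zero)
  refine ⟨y' + α • u, hα, ?_⟩
  rw [hf_add_right, hf_smul_right, hu, zero_mul, add_zero, hy']

theorem ne_zero_of_pair {x y : n → D} (h : hf J x y ≠ 0) : x ≠ 0 ∧ y ≠ 0 := by
  constructor
  · rintro rfl
    exact h (hf_zero_left J y)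
  · rintro rfl
    exact h (hf_zero_right J x)

/-- The same, orthogonal to a further vector. -/
theorem exists_hyp' {u u' : n → D} (hu : hf J u u = 0) (huu : hf J u' u = 0)
    (hind : ∀ a b : D, a • u + b • u' = 0 → a = 0 ∧ b = 0) :
    ∃ w, hf J w w = 0 ∧ hf J u w = 1 ∧ hf J u' w = 0 := by
  have h0 : u ≠ 0 := by
    rintro rfl
    have := (hind 1 0 (by simp)).1
    exact one_ne_zero this
  obtain ⟨w1, hw1, huw1⟩ := hF.exists_hyp h0 hu
  -- a vector with the right products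
  obtain ⟨y, hy, hy'⟩ : ∃ y, hf J u y = 1 ∧ hf J u' y = 0 := by
    have hv : u' - hf J u' w1 • u ≠ 0 := by
      intro h
      have h1 : (-hf J u' w1) • u + (1 : D) • u' = 0 := by
        rw [neg_smul, one_smul, add_comm, ← sub_eq_add_neg]
        exact h
      exact one_ne_zero (hind _ _ h1).2
    obtain ⟨y2, hy2⟩ := hF.nondeg _ hv
    rw [hf_sub_left, hf_smul_left] at hy2
    set d : D := hf J u' y2 - hf J u' w1 * hf J u y2 with hd
    -- `y2' = y2 - (u, y2)^* w1` is orthogonal to `u`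
    have e1 : hf J u (y2 - star (hf J u y2) • w1) = 0 := by
      rw [sub_eq_add_neg, hf_add_right, hf_neg_right, hf_smul_right, huw1, star_star, one_mul,
        add_neg_cancel]
    have e2 : hf J u' (y2 - star (hf J u y2) • w1) = d := by
      rw [sub_eq_add_neg, hf_add_right, hf_neg_right, hf_smul_right, star_star, hd,
        sub_eq_add_neg]
    refine ⟨w1 - star (d⁻¹ * hf J u' w1) • (y2 - star (hf J u y2) • w1), ?_, ?_⟩
    · rw [sub_eq_add_neg, hf_add_right, hf_neg_right, hf_smul_right, e1, zero_mul, neg_zero,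
        add_zero, huw1]
    · rw [sub_eq_add_neg, hf_add_right, hf_neg_right, hf_smul_right, e2, star_star, ← mul_assoc,
        mul_inv_cancel₀ hy2, one_mul, add_neg_cancel]
  obtain ⟨α, hα⟩ := hF.exists_corr hu (y := y) (by rw [hy]; exact one_ne_zero)
  refine ⟨y + α • u, hα, ?_, ?_⟩
  · rw [hf_add_right, hf_smul_right, hu, zero_mul, add_zero, hy]
  · rw [hf_add_right, hf_smul_right, huu, zero_mul, add_zero, hy']

/-- Two isotropic vectors are connected by a third one. -/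
theorem exists_conn {u w : n → D} (hu0 : u ≠ 0) (hu : hf J u u = 0) (hw0 : w ≠ 0)
    (hw : hf J w w = 0) : ∃ z, hf J z z = 0 ∧ hf J u z ≠ 0 ∧ hf J z w ≠ 0 := by
  obtain ⟨z1, hz1, hu1⟩ := hF.exists_hyp hu0 hu
  obtain ⟨z2, hz2, hw2⟩ := hF.exists_hyp hw0 hw
  have hw2' : hf J z2 w ≠ 0 := hF.symm_ne (by rw [hw2]; exact one_ne_zero)
  by_cases h1 : hf J z1 w = 0
  · by_cases h2 : hf J u z2 = 0
    · obtain ⟨c, hc0, hc⟩ := hF.cc
      obtain ⟨t, ht0, ht⟩ : ∃ t : D, t ≠ 0 ∧ CC ε (t * hf J z2 z1) := by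
        by_cases h3 : hf J z2 z1 = 0
        · exact ⟨1, one_ne_zero, by rw [h3, mul_zero]; exact CC.zero⟩
        · refine ⟨c * (hf J z2 z1)⁻¹, mul_ne_zero hc0 (inv_ne_zero h3), ?_⟩
          rw [mul_assoc, inv_mul_cancel₀ h3, mul_one]
          exact hc
      refine ⟨z1 + t • z2, ?_, ?_, ?_⟩
      · rw [hf_add_left, hf_add_right, hf_add_right, hf_smul_left, hf_smul_left, hf_smul_right,
          hf_smul_right, hz1, hz2, hF.herm z2 z1]
        unfold CC at ht
        rw [star_mul] at ht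
        rw [zero_mul, mul_zero, add_zero, zero_add, mul_assoc, add_comm]
        exact ht
      · rw [hf_add_right, hf_smul_right, h2, zero_mul, add_zero, hu1]
        exact one_ne_zero
      · rw [hf_add_left, hf_smul_left, h1, zero_add]
        exact mul_ne_zero ht0 hw2'
    · exact ⟨z2, hz2, h2, hw2'⟩
  · exact ⟨z1, hz1, by rw [hu1]; exact one_ne_zero, h1⟩

/-- Every vector is a sum of three isotropic ones. -/
theorem iso_decomp (y : n → D) : ∃ a b c, hf J a a = 0 ∧ hf J b b = 0 ∧ hf J c c = 0 ∧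
    y = a + b + c := by
  obtain ⟨u, hu0, hu⟩ := hF.iso
  obtain ⟨z, hz, huz⟩ := hF.exists_hyp hu0 hu
  have h1 : ∃ t : D, hf J u (y + t • z) ≠ 0 := by
    by_cases h : hf J u y = 0
    · refine ⟨1, ?_⟩
      rw [hf_add_right, hf_smul_right, h, huz, star_one, zero_add, one_mul]
      exact one_ne_zero
    · refine ⟨0, ?_⟩
      rw [zero_smul, add_zero]
      exact h
  obtain ⟨t, ht⟩ := h1
  obtain ⟨α, hα⟩ := hF.exists_corr hu ht
  refine ⟨y + t • z + α • u, (-t) • z, (-α) • u, hα, iso_smul hz _, iso_smul hu _, ?_⟩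
  rw [neg_smul, neg_smul]
  abel

end Frm

/-- The hyperbolic element of a hyperbolic pair. -/
noncomputable def dv (ε : D) (J : Matrix n n D) (u w : n → D) (s r : D) : (Matrix n n D)ˣ :=
  tv J u (ε * ((r - 1) * s⁻¹)) * tv J w s * tv J u (ε * (-(r⁻¹ * (r - 1)) * s⁻¹)) *
    tv J w (-(r * s))

section dv

variable (hF : Frm ε J) {u w : n → D} (hu : hf J u u = 0) (hw : hf J w w = 0)
  (huw : hf J u w = 1) {s r : D} (hs0 : s ≠ 0) (hs : CC ε s) (hr0 : r ≠ 0)
  (hr : Cs r)

include hF hs hr in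
theorem cc_x : CC ε (ε * ((r - 1) * s⁻¹)) := by
  rw [← mul_assoc]
  exact CC.smul hF.eps ((eps_cs hF.eps).mul (hr.sub Cs.one)) (hs.inv hF.eps)

include hF hs hr in
theorem cc_z : CC ε (ε * (-(r⁻¹ * (r - 1)) * s⁻¹)) := by
  rw [← mul_assoc]
  exact CC.smul hF.eps ((eps_cs hF.eps).mul (hr.inv.mul (hr.sub Cs.one)).neg) (hs.inv hF.eps)

include hF hu hw hs hr in
theorem dv_mem : dv ε J u w s r ∈ GT ε J :=
  mul_mem (mul_mem (mul_mem (tv_mem_GT hu (cc_x hF hs hr)) (tv_mem_GT hw hs))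
    (tv_mem_GT hu (cc_z hF hs hr))) (tv_mem_GT hw (hs.smul hF.eps hr).neg)

include hF hu hw huw hs0 hr0 hr in
theorem u_dv : u ᵥ* (dv ε J u w s r).1 = r⁻¹ • u := by
  have hwu := hF.swap huw
  have he := eps_sq hF.eps
  have hec := eps_comm hF.eps
  unfold dv
  have a1 : u ᵥ* (tv J u (ε * ((r - 1) * s⁻¹))).1 = u := by
    rw [vecMul_tv hu, hu, zero_mul, zero_smul, add_zero]
  have a2 : u ᵥ* (tv J w s).1 = u + s • w := by
    rw [vecMul_tv hw, huw, one_mul]
  have a3 : (u + s • w) ᵥ* (tv J u (ε * (-(r⁻¹ * (r - 1)) * s⁻¹))).1 = r⁻¹ • u + s • w := by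
    rw [vecMul_tv hu, hf_add_left, hf_smul_left, hu, hwu, zero_add]
    have e1 : s * ε * (ε * (-(r⁻¹ * (r - 1)) * s⁻¹)) = r⁻¹ - 1 := by
      have h1 : s * ε * (ε * (-(r⁻¹ * (r - 1)) * s⁻¹)) = s * (ε * ε) * (-(r⁻¹ * (r - 1)) * s⁻¹) := by
        simp only [mul_assoc]
      rw [h1, he, mul_one, neg_mul, mul_neg, ← mul_assoc, ← (hr.inv.mul (hr.sub Cs.one)).cm s,
        mul_assoc, mul_inv_cancel₀ hs0, mul_one, mul_sub, inv_mul_cancel₀ hr0, mul_one, neg_sub]
    rw [e1, sub_smul, one_smul]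
    abel
  have a4 : (r⁻¹ • u + s • w) ᵥ* (tv J w (-(r * s))).1 = r⁻¹ • u := by
    rw [vecMul_tv hw, hf_add_left, hf_smul_left, hf_smul_left, huw, hw, mul_zero, add_zero,
      mul_one, mul_neg, inv_mul_cancel_left₀ hr0, neg_smul]
    abel
  rw [vecMul_mul', vecMul_mul', vecMul_mul', a1, a2, a3, a4]

include hF hu hw huw hs0 hr0 hr in
theorem w_dv : w ᵥ* (dv ε J u w s r).1 = r • w := by
  have hwu := hF.swap huw
  have he := eps_sq hF.eps
  unfold dv
  have a1 : w ᵥ* (tv J u (ε * ((r - 1) * s⁻¹))).1 = w + ((r - 1) * s⁻¹) • u := by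
    rw [vecMul_tv hu, hwu, ← mul_assoc, he, one_mul]
  have a2 : (w + ((r - 1) * s⁻¹) • u) ᵥ* (tv J w s).1 = r • w + ((r - 1) * s⁻¹) • u := by
    rw [vecMul_tv hw, hf_add_left, hf_smul_left, hw, huw, zero_add, mul_one, mul_assoc,
      inv_mul_cancel₀ hs0, mul_one, sub_smul, one_smul]
    abel
  have a3 : (r • w + ((r - 1) * s⁻¹) • u) ᵥ* (tv J u (ε * (-(r⁻¹ * (r - 1)) * s⁻¹))).1 =
      r • w := by
    rw [vecMul_tv hu, hf_add_left, hf_smul_left, hf_smul_left, hwu, hu, mul_zero, add_zero]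
    have : r * ε * (ε * (-(r⁻¹ * (r - 1)) * s⁻¹)) = -((r - 1) * s⁻¹) := by
      have h1 : r * ε * (ε * (-(r⁻¹ * (r - 1)) * s⁻¹)) =
          r * (ε * ε) * (-(r⁻¹ * (r - 1)) * s⁻¹) := by simp only [mul_assoc]
      rw [h1, he, mul_one, neg_mul, mul_neg, ← mul_assoc, mul_inv_cancel_left₀ hr0]
    rw [this, neg_smul]
    abel
  have a4 : (r • w) ᵥ* (tv J w (-(r * s))).1 = r • w := by
    rw [vecMul_tv hw, hf_smul_left, hw, mul_zero, zero_mul, zero_smul, add_zero]
  rw [vecMul_mul', vecMul_mul', vecMul_mul', a1, a2, a3, a4]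

include hu hw in
theorem y_dv {y : n → D} (h1 : hf J y u = 0) (h2 : hf J y w = 0) :
    y ᵥ* (dv ε J u w s r).1 = y := by
  unfold dv
  simp only [vecMul_mul', vecMul_tv hu, vecMul_tv hw, h1, h2, zero_mul, zero_smul, add_zero]

end dv

end frm

end Vale.Agent.P092.H103.QH
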