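import Vale.Agent.P092.H103.QH1
import Mathlib.Data.Set.Finite.Basic
import Mathlib.GroupTheory.Subgroup.Center
import Mathlib.Topology.Algebra.Group.Basic
import Mathlib.Tactic.Group
import Mathlib.Tactic.NoncommRing

/-!
P092, block CLASS-H, DU4 (helper103, after helper714 Cl4): normal subgroups, the centre and
homomorphisms to abelian groups, for the groups generated by the transvections of an `ε`-hermitian
form over a quaternion division algebra.
-/

set_option linter.all false

open Matrix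

namespace Vale.Agent.P092.H103.QH

section qt

variable {D : Type*} [DivisionRing D] [StarRing D]

/-- Quaternion division algebras with the canonical involution, in characteristic not two. -/
structure Qt (D : Type*) [DivisionRing D] [StarRing D] : Prop where
  tr : ∀ x : D, Cs (x + star x)
  two : (2 : D) ≠ 0
  nc : ∃ x y : D, x * y ≠ y * x

theorem Cs.two' : Cs (2 : D) := by
  have h := (Cs.one (D := D)).add Cs.one
  rwa [one_add_one_eq_two] at h

theorem Cs.of_two_mul (h2 : (2 : D) ≠ 0) {r : D} (h : Cs (2 * r)) : Cs r := by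
  have h1 := Cs.two'.inv.mul h
  rwa [inv_mul_cancel_left₀ h2] at h1

/-- Pure elements. -/
def Pu (x : D) : Prop := star x = -x

theorem Pu.cc {x : D} (h : Pu x) : CC (1 : D) x := by
  unfold CC; rw [h, one_mul, add_neg_cancel]

theorem Pu.of_cc {x : D} (h : CC (1 : D) x) : Pu x := by
  unfold CC at h; rw [one_mul] at h; exact eq_neg_of_add_eq_zero_right h

theorem Pu.comm {x y : D} (hx : Pu x) (hy : Pu y) : Pu (x * y - y * x) := by
  unfold Pu at *
  rw [star_sub, star_mul, star_mul, hx, hy]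
  noncomm_ring

theorem Pu.anti (hQ : Qt D) {x y : D} (hx : Pu x) (hy : Pu y) : Cs (x * y + y * x) := by
  have h := hQ.tr (x * y)
  rw [star_mul, hx, hy, neg_mul_neg] at h
  exact h

theorem Pu.sq (hQ : Qt D) {x : D} (hx : Pu x) : Cs (x * x) := by
  refine Cs.of_two_mul hQ.two ?_
  rw [two_mul]
  exact Pu.anti hQ hx hx

/-- The decomposition of an element. -/
theorem Qt.dec (hQ : Qt D) (x : D) : ∃ s p : D, Cs s ∧ Pu p ∧ x = s + p := by
  refine ⟨2⁻¹ * (x + star x), 2⁻¹ * (x - star x), Cs.two'.inv.mul (hQ.tr x), ?_, ?_⟩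
  · unfold Pu
    rw [star_mul, Cs.two'.inv.st, star_sub, star_star, ← Cs.two'.inv.cm, ← mul_neg, neg_sub]
  · rw [← mul_add, add_add_sub_cancel, ← two_mul, inv_mul_cancel_left₀ hQ.two]

/-- There are two pure elements which do not commute. -/
theorem Qt.exists_pu (hQ : Qt D) : ∃ x y : D, Pu x ∧ Pu y ∧ x * y ≠ y * x := by
  obtain ⟨x, y, hxy⟩ := hQ.nc
  obtain ⟨s, p, hs, hp, rfl⟩ := hQ.dec x
  obtain ⟨t, q, ht, hq, rfl⟩ := hQ.dec y
  refine ⟨p, q, hp, hq, fun h => hxy ?_⟩
  have e1 : (s + p) * (t + q) = s * t + s * q + (p * t + p * q) := by noncomm_ring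
  have e2 : (t + q) * (s + p) = t * s + q * s + (t * p + q * p) := by noncomm_ring
  rw [e1, e2, h, hs.cm t, hs.cm q, ht.cm p]

/-- An element which commutes with two pure elements which do not commute is central. -/
theorem Qt.cs_of_comm (hQ : Qt D) {a x y : D} (hx : Pu x) (hy : Pu y) (hxy : x * y ≠ y * x)
    (h1 : a * x = x * a) (h2 : a * y = y * a) : Cs a := by
  obtain ⟨s, p, hs, hp, rfl⟩ := hQ.dec a
  have e1 : p * x = x * p := by
    rw [add_mul, mul_add, hs.cm x] at h1
    exact add_left_cancel h1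
  have e2 : p * y = y * p := by
    rw [add_mul, mul_add, hs.cm y] at h2
    exact add_left_cancel h2
  by_cases hp0 : p = 0
  · rw [hp0, add_zero]; exact hs
  · exfalso
    have c1 : Cs (p * x) := by
      have h := Pu.anti hQ hp hx
      rw [← e1, ← two_mul] at h
      exact Cs.of_two_mul hQ.two h
    have c2 : Cs (p * y) := by
      have h := Pu.anti hQ hp hy
      rw [← e2, ← two_mul] at h
      exact Cs.of_two_mul hQ.two h
    apply hxy
    have h3 : p * (x * (p * y)) = p * (y * (p * x)) := by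
      rw [← mul_assoc p x, ← mul_assoc p y, c1.cm, c2.cm, ← c2.cm (p * x), c2.cm]
    have h4 := mul_left_cancel₀ hp0 h3
    have h5 : (x * p) * y = (y * p) * x := by rw [mul_assoc, mul_assoc]; exact h4
    rw [← e1, ← e2, mul_assoc, mul_assoc] at h5
    exact mul_left_cancel₀ hp0 h5

/-- The elements with `c = c*` are central. -/
theorem Qt.cs_of_cc (hQ : Qt D) {c : D} (hc : CC (-1 : D) c) : Cs c := by
  unfold CC at hc
  rw [neg_one_mul, ← sub_eq_add_neg, sub_eq_zero] at hc
  have h := hQ.tr c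
  rw [← hc, ← two_mul] at h
  exact Cs.of_two_mul hQ.two h

/-- An element which commutes with the quotients of pure elements is central. -/
theorem Qt.cs_of_quot (hQ : Qt D) {a : D}
    (h : ∀ c d : D, CC (1 : D) c → CC (1 : D) d → c ≠ 0 → d ≠ 0 → a * (c * d⁻¹) = c * d⁻¹ * a) :
    Cs a := by
  obtain ⟨x, y, hx, hy, hxy⟩ := hQ.exists_pu
  have hx0 : x ≠ 0 := by
    rintro rfl
    exact hxy (by rw [zero_mul, mul_zero])
  have hy0 : y ≠ 0 := by
    rintro rfl
    exact hxy (by rw [zero_mul, mul_zero])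
  -- products of two pure elements
  have key : ∀ u v : D, Pu u → Pu v → u ≠ 0 → v ≠ 0 → a * (u * v) = u * v * a := by
    intro u v hu hv hu0 hv0
    have h1 := h u v hu.cc hv.cc hu0 hv0
    have h2 : u * v = (u * v⁻¹) * (v * v) := by
      rw [mul_assoc, inv_mul_cancel_left₀ hv0]
    rw [h2, ← mul_assoc, h1, mul_assoc, mul_assoc (u * v⁻¹) (v * v) a, (hv.sq hQ).cm a]
  set p : D := x * y - y * x with hp
  have hpp : Pu p := hx.comm hy
  have hp0 : p ≠ 0 := sub_ne_zero.2 hxy
  have hap : a * p = p * a := by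
    rw [hp, mul_sub, sub_mul, key x y hx hy hx0 hy0, key y x hy hx hy0 hx0]
  have hz : ∀ z : D, Pu z → z ≠ 0 → a * z = z * a := by
    intro z hz hz0
    have h1 := key z p hz hpp hz0 hp0
    have h2 : (a * z) * p = (z * a) * p := by
      rw [mul_assoc, h1, mul_assoc, mul_assoc, hap]
    exact mul_right_cancel₀ hp0 h2
  exact hQ.cs_of_comm hx hy hxy (hz x hx hx0) (hz y hy hy0)

end qt

variable {n : Type*} [Fintype n] [DecidableEq n] {D : Type*} [DivisionRing D] [StarRing D]
  {ε : D} {J : Matrix n n D}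

/-- The third dimension, for skew-hermitian forms. -/
def Dm3 (ε : D) (J : Matrix n n D) : Prop :=
  ε = -1 → ∃ e f y, hf J e e = 0 ∧ hf J f f = 0 ∧ hf J e f = 1 ∧ hf J y e = 0 ∧ hf J y f = 0 ∧
    hf J y y ≠ 0

/-- The scalars on two isotropic lines which are not orthogonal. -/
theorem scalar_rel (hF : Frm ε J) {z : (Matrix n n D)ˣ}
    (h : ∀ u, hf J u u = 0 → ∃ a : D, u ᵥ* z.1 = a • u) {u v : n → D} (hu : hf J u u = 0)
    (hv : hf J v v = 0) (hvu : hf J v u ≠ 0) {a b c : D} (hc : CC ε c) (hc0 : c ≠ 0)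
    (ha : u ᵥ* z.1 = a • u) (hb : v ᵥ* z.1 = b • v) :
    b * (hf J v u * c⁻¹) = hf J v u * c⁻¹ * a := by
  have huv : hf J u v ≠ 0 := hF.symm_ne hvu
  set t : D := c * (hf J v u)⁻¹ with ht
  have ht0 : t ≠ 0 := mul_ne_zero hc0 (inv_ne_zero hvu)
  have htc : t * hf J v u = c := by rw [ht, mul_assoc, inv_mul_cancel₀ hvu, mul_one]
  have hti : t⁻¹ = hf J v u * c⁻¹ := by rw [ht, mul_inv_rev, inv_inv]
  have hiso : hf J (u + t • v) (u + t • v) = 0 := by
    rw [hf_add_left, hf_add_right, hf_add_right, hf_smul_left, hf_smul_left, hf_smul_right,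
      hf_smul_right, hu, hv, hF.herm v u, htc]
    have h1 : ε * star (hf J v u) * star t = ε * star c := by
      rw [mul_assoc, ← star_mul, htc]
    rw [h1, zero_mul, mul_zero, add_zero, zero_add, add_comm]
    exact hc
  obtain ⟨e, he⟩ := h _ hiso
  rw [add_vecMul, smul_vecMul, ha, hb] at he
  have h1 : hf J (a • u + t • b • v) u = hf J (e • (u + t • v)) u := by rw [he]
  have h2 : hf J (a • u + t • b • v) v = hf J (e • (u + t • v)) v := by rw [he]
  simp only [hf_add_left, hf_smul_left, hu, hv, mul_zero, add_zero, zero_add] at h1 h2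
  have h3 : t * b = e * t := by
    have h4 : (t * b) * hf J v u = (e * t) * hf J v u := by
      rw [mul_assoc t b, mul_assoc e t]
      exact h1
    exact mul_right_cancel₀ hvu h4
  have h5 : a = e := mul_right_cancel₀ huv h2
  rw [← hti]
  have h6 : t * (b * t⁻¹) = t * (t⁻¹ * a) := by
    rw [← mul_assoc, h3, mul_assoc, mul_inv_cancel₀ ht0, mul_one, mul_inv_cancel_left₀ ht0, h5]
  exact mul_left_cancel₀ ht0 h6

/-- A linear map which fixes every isotropic line is a central scalar. -/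
theorem scalar_of_lines (hQ : Qt D) (hF : Frm ε J) (h3 : Dm3 ε J) (z : (Matrix n n D)ˣ)
    (h : ∀ u, hf J u u = 0 → ∃ a : D, u ᵥ* z.1 = a • u) :
    ∃ a : D, Cs a ∧ ∀ x, x ᵥ* z.1 = a • x := by
  -- one line
  have one : ∃ (u₀ : n → D) (a : D), u₀ ≠ 0 ∧ hf J u₀ u₀ = 0 ∧ Cs a ∧ u₀ ᵥ* z.1 = a • u₀ := by
    rcases hF.eps with he | he
    · subst he
      obtain ⟨u, hu0, hu⟩ := hF.iso
      obtain ⟨w, hw, huw⟩ := hF.exists_hyp hu0 hu
      obtain ⟨a, ha⟩ := h u hu
      obtain ⟨b, hb⟩ := h w hw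
      have hwu : hf J w u = 1 := hF.swap huw
      have hwu0 : hf J w u ≠ 0 := by rw [hwu]; exact one_ne_zero
      refine ⟨u, a, hu0, hu, hQ.cs_of_quot fun c d hc hd hc0 hd0 => ?_, ha⟩
      have e1 := scalar_rel hF h hu hw hwu0 hc hc0 ha hb
      have e2 := scalar_rel hF h hu hw hwu0 hd hd0 ha hb
      rw [hwu, one_mul] at e1 e2
      have e3 : b = d⁻¹ * a * d := by
        rw [← e2, mul_assoc, inv_mul_cancel₀ hd0, mul_one]
      have e4 : a = c * b * c⁻¹ := by
        rw [mul_assoc, e1, mul_inv_cancel_left₀ hc0]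
      calc a * (c * d⁻¹) = (c * b * c⁻¹) * (c * d⁻¹) := by rw [← e4]
        _ = c * b * d⁻¹ := by
          rw [mul_assoc (c * b), inv_mul_cancel_left₀ hc0]
        _ = c * (d⁻¹ * a * d) * d⁻¹ := by rw [← e3]
        _ = c * d⁻¹ * a := by
          rw [mul_assoc, mul_assoc (d⁻¹ * a), mul_inv_cancel₀ hd0, mul_one, mul_assoc]
    · subst he
      obtain ⟨e, f, y, he, hf', hef, hye, hyf, hyy⟩ := h3 rfl
      have he0 : e ≠ 0 := (hF.ne_zero_of_pair (by rw [hef]; exact one_ne_zero)).1
      have h1c : CC (-1 : D) 1 := by unfold CC; rw [star_one, mul_one, add_neg_cancel]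
      obtain ⟨a, ha⟩ := h e he
      obtain ⟨b, hb⟩ := h f hf'
      have hfe : hf J f e = -1 := hF.swap hef
      have hab : b = a := by
        have e1 := scalar_rel hF h he hf' (by rw [hfe]; exact neg_ne_zero.2 one_ne_zero) h1c
          one_ne_zero ha hb
        rw [hfe, inv_one, mul_one, mul_neg_one, neg_one_mul] at e1
        exact neg_injective e1
      rw [hab] at hb
      -- the general third vector
      have key : ∀ y, hf J y e = 0 → hf J y f = 0 → a * hf J y y = hf J y y * a := by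
        intro y hye hyf
        set m : D := hf J y y with hm
        by_cases hm0 : m = 0
        · rw [hm0, mul_zero, zero_mul]
        have hms : star m = -m := by
          have := hF.herm y y
          rw [← hm, neg_one_mul] at this
          rw [eq_neg_iff_add_eq_zero, add_comm, ← eq_neg_iff_add_eq_zero]
          exact this
        set β : D := 2⁻¹ * m with hβ
        have hβs : star β = -β := by
          rw [hβ, star_mul, Cs.two'.inv.st, hms, neg_mul, ← Cs.two'.inv.cm]
        have hβ2 : β + β = m := by rw [hβ, ← two_mul, mul_inv_cancel_left₀ hQ.two]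
        have hβ0 : β ≠ 0 := mul_ne_zero (inv_ne_zero hQ.two) hm0
        have hey : hf J e y = 0 := hF.symm_zero hye
        have hfy : hf J f y = 0 := hF.symm_zero hyf
        set w : n → D := e + y + β • f with hw
        have hwe : hf J w e = -β := by
          rw [hw, hf_add_left, hf_add_left, hf_smul_left, he, hye, hfe, add_zero, zero_add,
            mul_neg_one]
        have hwf : hf J w f = 1 := by
          rw [hw, hf_add_left, hf_add_left, hf_smul_left, hef, hyf, hf', mul_zero, add_zero,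
            add_zero]
        have hwy : hf J w y = m := by
          rw [hw, hf_add_left, hf_add_left, hf_smul_left, hey, hfy, mul_zero, add_zero, zero_add]
        have hww : hf J w w = 0 := by
          have e1 : hf J w w = hf J w e + hf J w y + hf J w f * star β := by
            conv_lhs => rw [show hf J w w = hf J w (e + y + β • f) from by rw [← hw]]
            rw [hf_add_right, hf_add_right, hf_smul_right]
          rw [e1, hwe, hwy, hwf, one_mul, hβs, ← hβ2]
          abel
        obtain ⟨g, hg⟩ := h w hww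
        have hga : g = a := by
          have e1 := scalar_rel hF h hf' hww (by rw [hwf]; exact one_ne_zero) h1c
            one_ne_zero hb hg
          rwa [hwf, inv_one, mul_one, mul_one, one_mul] at e1
        have e2 := scalar_rel hF h he hww (by rw [hwe]; exact neg_ne_zero.2 hβ0) h1c
          one_ne_zero ha hg
        rw [hwe, inv_one, mul_one, hga, mul_neg, neg_mul] at e2
        have e3 := neg_injective e2
        rw [← hβ2, mul_add, add_mul, e3]
      -- all the values
      have key2 : ∀ l : D, a * (l * hf J y y * star l) = l * hf J y y * star l * a := by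
        intro l
        have := key (l • y) (by rw [hf_smul_left, hye, mul_zero])
          (by rw [hf_smul_left, hyf, mul_zero])
        rw [hf_smul_left, hf_smul_right, ← mul_assoc l (hf J y y) (star l)] at this
        exact this
      set m : D := hf J y y with hm
      have hmp : Pu m := by
        have := hF.herm y y
        rw [← hm, neg_one_mul] at this
        unfold Pu
        rw [eq_neg_iff_add_eq_zero, add_comm, ← eq_neg_iff_add_eq_zero]
        exact this
      have ham : a * m = m * a := by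
        have := key2 1
        rwa [one_mul, star_one, mul_one] at this
      -- a pure element which does not commute with `m`
      obtain ⟨x, hx, hxm⟩ : ∃ x : D, Pu x ∧ x * m ≠ m * x := by
        by_contra hcon
        push Not at hcon
        obtain ⟨x, y, hx, hy, hxy⟩ := hQ.exists_pu
        have hcs := hQ.cs_of_comm hx hy hxy (hcon x hx).symm (hcon y hy).symm
        have h1 : star m = m := hcs.st
        rw [hmp] at h1
        have h2 : (2 : D) * m = 0 := by rw [two_mul]; nth_rewrite 1 [← h1]; exact neg_add_cancel m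
        exact (mul_ne_zero hQ.two hyy) h2
      have hp : Pu (x * m - m * x) := hx.comm hmp
      have hap : a * (x * m - m * x) = (x * m - m * x) * a := by
        have k1 := key2 (1 + x)
        have k2 := key2 x
        have e1 : (1 + x) * m * star (1 + x) = m + (x * m - m * x) + x * m * star x := by
          rw [star_add, star_one, hx]
          noncomm_ring
        rw [e1, mul_add, mul_add, add_mul, add_mul, ham, k2] at k1
        have k3 := add_right_cancel k1
        exact add_left_cancel k3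
      have hne : (x * m - m * x) * m ≠ m * (x * m - m * x) := by
        intro h1
        have hc1 := hmp.sq hQ
        -- `2 m x m = x m² + m² x = 2 m² x`
        have h2 : (2 : D) * (m * x * m) = 2 * (m * m * x) := by
          have h3 : x * (m * m) = m * m * x := (hc1.cm x).symm
          have h4 : x * (m * m) - m * x * m = m * x * m - m * m * x := by
            have h5 : (x * m - m * x) * m = x * (m * m) - m * x * m := by noncomm_ring
            have h6 : m * (x * m - m * x) = m * x * m - m * m * x := by noncomm_ring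
            rw [← h5, ← h6, h1]
          rw [h3] at h4
          have h7 : m * m * x + m * m * x = m * x * m + m * x * m := by
            have := sub_eq_sub_iff_add_eq_add.1 h4
            exact this
          rw [two_mul, two_mul, ← h7]
        have h8 := mul_left_cancel₀ hQ.two h2
        have h9 : m * (x * m) = m * (m * x) := by rw [← mul_assoc, ← mul_assoc]; exact h8
        exact hxm (mul_left_cancel₀ hyy h9)
      exact ⟨e, a, he0, he, hQ.cs_of_comm hp hmp hne hap ham, ha⟩
  obtain ⟨u₀, a, hu₀0, hu₀, hcs, ha⟩ := one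
  -- the other lines
  have step : ∀ u v, hf J u u = 0 → hf J v v = 0 → hf J v u ≠ 0 → u ᵥ* z.1 = a • u →
      v ᵥ* z.1 = a • v := by
    intro u v hu hv hvu h1
    obtain ⟨b, hb⟩ := h v hv
    obtain ⟨c, hc0, hc⟩ := hF.cc
    have e1 := scalar_rel hF h hu hv hvu hc hc0 h1 hb
    rw [← hcs.cm] at e1
    rw [hb, mul_right_cancel₀ (mul_ne_zero hvu (inv_ne_zero hc0)) e1]
  have hall : ∀ w, hf J w w = 0 → w ᵥ* z.1 = a • w := by
    intro w hw
    by_cases hw0 : w = 0
    · subst hw0
      rw [zero_vecMul, smul_zero]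
    · obtain ⟨y, hy, h1, h2⟩ := hF.exists_conn hu₀0 hu₀ hw0 hw
      exact step y w hy hw (hF.symm_ne h2) (step u₀ y hu₀ hy (hF.symm_ne h1) ha)
  refine ⟨a, hcs, fun x => ?_⟩
  obtain ⟨x1, x2, x3, h1, h2, h3, rfl⟩ := hF.iso_decomp x
  rw [add_vecMul, add_vecMul, hall x1 h1, hall x2 h2, hall x3 h3, smul_add, smul_add]

/-- An isometry which commutes with a transvection fixes its line. -/
theorem line_of_comm (hF : Frm ε J) {g : (Matrix n n D)ˣ} (hg : g ∈ FG J)
    {u : n → D} (hu : hf J u u = 0) {c : D} (hc0 : c ≠ 0)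
    (h : g * tv J u c = tv J u c * g) : ∃ a : D, u ᵥ* g.1 = a • u := by
  by_cases hu0 : u = 0
  · exact ⟨0, by rw [hu0, zero_vecMul, smul_zero]⟩
  have h1 : tv J (u ᵥ* g.1) c = tv J u c := by
    rw [← conj_tv hg hu c, mul_assoc, ← h, inv_mul_cancel_left]
  obtain ⟨y, hy⟩ := hF.nondeg u hu0
  have hy' := hF.symm_ne hy
  have h2 : ∀ x, (hf J x (u ᵥ* g.1) * c) • (u ᵥ* g.1) = (hf J x u * c) • u := by
    intro x
    have h3 : x ᵥ* (tv J (u ᵥ* g.1) c).1 = x ᵥ* (tv J u c).1 := by rw [h1]
    rw [vecMul_tv (iso_vecMul hg hu), vecMul_tv hu] at h3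
    exact add_left_cancel h3
  have h6 := h2 y
  have hne : hf J y (u ᵥ* g.1) * c ≠ 0 := by
    intro h0
    rw [h0, zero_smul] at h6
    exact (smul_ne_zero (mul_ne_zero hy' hc0) hu0) h6.symm
  refine ⟨(hf J y (u ᵥ* g.1) * c)⁻¹ * (hf J y u * c), ?_⟩
  rw [mul_smul, ← h6, smul_smul, inv_mul_cancel₀ hne, one_smul]

/-- Central scalars are central. -/
theorem comm_of_scalar {z : (Matrix n n D)ˣ} {a : D} (h : ∀ x, x ᵥ* z.1 = a • x)
    (g : (Matrix n n D)ˣ) : g * z = z * g := by
  refine ext_vecMul fun x => ?_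
  rw [vecMul_mul', vecMul_mul', h, h, smul_vecMul]

variable {G : Subgroup (Matrix n n D)ˣ}

/-- Transvections as elements of the group. -/
noncomputable def tg (hG : GT ε J ≤ G) {u : n → D} (hu : hf J u u = 0) {c : D}
    (hc : CC ε c) : G := ⟨tv J u c, hG (tv_mem_GT hu hc)⟩

theorem tg_val (hG : GT ε J ≤ G) {u : n → D} (hu : hf J u u = 0) {c : D}
    (hc : CC ε c) : (tg hG hu hc).1 = tv J u c := rfl

/-- Hyperbolic elements as elements of the group. -/
noncomputable def dg (hG : GT ε J ≤ G) (hF : Frm ε J) {u w : n → D} (hu : hf J u u = 0)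
    (hw : hf J w w = 0) {s r : D} (hs : CC ε s) (hr : Cs r) : G :=
  ⟨dv ε J u w s r, hG (dv_mem hF hu hw hs hr)⟩

theorem mem_center_of_lines (hQ : Qt D) (hF : Frm ε J) (h3 : Dm3 ε J) {z : G}
    (h : ∀ u, hf J u u = 0 → ∃ a : D, u ᵥ* z.1.1 = a • u) : z ∈ Subgroup.center G := by
  obtain ⟨a, -, ha⟩ := scalar_of_lines hQ hF h3 z.1 h
  rw [Subgroup.mem_center_iff]
  intro g
  exact Subtype.ext (comm_of_scalar ha g.1)

section normal

variable (hQ : Qt D) (hF : Frm ε J) (h3 : Dm3 ε J) (hG : GT ε J ≤ G) (hGF : G ≤ FG J)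

include hGF in
theorem conj_tg {u : n → D} (hu : hf J u u = 0) {c : D} (hc : CC ε c) (g : G) :
    g⁻¹ * tg hG hu hc * g = tg hG (iso_vecMul (hGF g.2) hu) hc :=
  Subtype.ext (conj_tv (hGF g.2) hu c)

include hF hG hGF in
/-- The trick with the hyperbolic element. -/
theorem normal_A {r : D} (hr : Cs r) (hr0 : r ≠ 0) (hr4 : r * r ≠ r⁻¹ * r⁻¹)
    (N : Subgroup G) (hN : N.Normal) {u w : n → D} (hu : hf J u u = 0) (hw : hf J w w = 0)
    (huw : hf J u w ≠ 0)
    (h : ∀ c (hc : CC ε c), tg hG hu hc.neg * tg hG hw hc ∈ N) :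
    ∀ c (hc : CC ε c), tg hG hu hc ∈ N := by
  intro d hd
  -- the coefficient
  set q : D := (r * r - r⁻¹ * r⁻¹)⁻¹ with hq
  have hq0 : r * r - r⁻¹ * r⁻¹ ≠ 0 := sub_ne_zero.mpr hr4
  have hqs : Cs q := ((hr.mul hr).sub (hr.inv.mul hr.inv)).inv
  have hc : CC ε (q * d) := hd.smul hF.eps hqs
  have hc1 : CC ε (r * r * (q * d)) := hc.smul hF.eps (hr.mul hr)
  -- the hyperbolic pair
  set a : D := star (hf J u w)⁻¹ with ha
  have ha0 : a ≠ 0 := by
    rw [ha, Ne, star_eq_zero]
    exact inv_ne_zero huw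
  have h1 : hf J u (a • w) = 1 := by
    rw [hf_smul_right, ha, star_star, mul_inv_cancel₀ huw]
  obtain ⟨s, hs0, hs⟩ := hF.cc
  set E : G := dg hG hF hu (iso_smul hw a) hs hr with hE
  have hEu : u ᵥ* E.1.1 = r⁻¹ • u := u_dv hF hu (iso_smul hw a) h1 hs0 hr0 hr
  have hEw : w ᵥ* E.1.1 = r • w := by
    have h2 : (a • w) ᵥ* E.1.1 = r • a • w := w_dv hF hu (iso_smul hw a) h1 hs0 hr0 hr
    rw [smul_vecMul] at h2
    have h3 : a⁻¹ • a • (w ᵥ* E.1.1) = a⁻¹ • r • a • w := by rw [h2]
    rw [smul_smul, inv_mul_cancel₀ ha0, one_smul] at h3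
    rw [h3, smul_smul, smul_smul, ← hr.cm a⁻¹, mul_assoc, inv_mul_cancel₀ ha0, mul_one]
  have m1 : E⁻¹ * (tg hG hu hc.neg * tg hG hw hc) * E ∈ N := by
    have := hN.conj_mem _ (h _ hc) E⁻¹
    rwa [inv_inv] at this
  have m2 := h _ hc1
  have m3 := N.mul_mem m1 (N.inv_mem m2)
  have e : tg hG hu hd = E⁻¹ * (tg hG hu hc.neg * tg hG hw hc) * E *
      (tg hG hu hc1.neg * tg hG hw hc1)⁻¹ := by
    have e1 : E⁻¹ * (tg hG hu hc.neg * tg hG hw hc) * E =
        (E⁻¹ * tg hG hu hc.neg * E) * (E⁻¹ * tg hG hw hc * E) := by group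
    rw [e1, conj_tg hG hGF hu hc.neg E, conj_tg hG hGF hw hc E]
    refine Subtype.ext ?_
    change tv J u d = tv J (u ᵥ* E.1.1) (-(q * d)) * tv J (w ᵥ* E.1.1) (q * d) *
      (tv J u (-(r * r * (q * d))) * tv J w (r * r * (q * d)))⁻¹
    rw [hEu, hEw, tv_smul hu, tv_smul hw, hr.st, hr.inv.st]
    have e2 : r * (q * d) * r = r * r * (q * d) := by
      rw [mul_assoc, ← hr.cm (q * d), ← mul_assoc]
    rw [e2, _root_.mul_inv_rev, mul_assoc, mul_inv_cancel_left, ← tv_neg hu, ← tv_add hu]
    congr 1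
    have h5 : (r * r - r⁻¹ * r⁻¹) * q = 1 := by rw [hq, mul_inv_cancel₀ hq0]
    have e3 : r⁻¹ * -(q * d) * r⁻¹ = -(r⁻¹ * r⁻¹ * (q * d)) := by
      rw [mul_assoc, ← hr.inv.cm (-(q * d)), mul_neg, mul_neg, mul_assoc]
    rw [e3, neg_neg]
    calc d = ((r * r - r⁻¹ * r⁻¹) * q) * d := by rw [h5, one_mul]
      _ = -(r⁻¹ * r⁻¹ * (q * d)) + r * r * (q * d) := by noncomm_ring
  rw [e]
  exact m3

include hF hG hGF in
/-- Transport to another isotropic vector. -/
theorem normal_B_step (N : Subgroup G) (hN : N.Normal) {u w : n → D} (hu : hf J u u = 0)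
    (hw : hf J w w = 0) (huw : hf J u w ≠ 0)
    (h : ∀ c (hc : CC ε c), tg hG hu hc ∈ N) :
    ∀ c (hc : CC ε c), tg hG hw hc ∈ N := by
  obtain ⟨d, hd0, hd⟩ := hF.cc
  have hwu := hF.symm_ne huw
  set η : D := (hf J u w)⁻¹ with hη
  have he : CC ε (-ε * (star η * d⁻¹ * η)) :=
    ((hd.inv hF.eps).congr hF.eps η).smul hF.eps (eps_cs hF.eps).neg
  set g : G := tg hG hw hd * tg hG hu he with hg
  have hug : u ᵥ* g.1.1 = (hf J u w * d) • w := by
    change u ᵥ* (tv J w d * tv J u (-ε * (star η * d⁻¹ * η))).1 = _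
    rw [vecMul_mul', vecMul_tv hw, vecMul_tv hu, hf_add_left, hf_smul_left, hu, zero_add]
    have e1 : hf J u w * d * hf J w u * (-ε * (star η * d⁻¹ * η)) = -1 := by
      rw [hF.herm u w]
      have e2 : star (hf J u w) * star η = 1 := by
        rw [← star_mul, hη, inv_mul_cancel₀ huw, star_one]
      calc hf J u w * d * (ε * star (hf J u w)) * (-ε * (star η * d⁻¹ * η))
          = -(hf J u w * d * (ε * (star (hf J u w) * ε) * (star η * d⁻¹ * η))) := by
            noncomm_ring
        _ = -(hf J u w * d * ((ε * ε) * (star (hf J u w) * star η) * d⁻¹ * η)) := by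
            rw [← eps_comm hF.eps (star (hf J u w))]
            noncomm_ring
        _ = -1 := by
            rw [eps_sq hF.eps, e2, one_mul, one_mul, mul_assoc, mul_inv_cancel_left₀ hd0, hη,
              mul_inv_cancel₀ huw]
    rw [e1, neg_one_smul]
    abel
  intro c hc
  set a : D := hf J u w * d with ha
  have ha0 : a ≠ 0 := mul_ne_zero huw hd0
  have hc' : CC ε (star a⁻¹ * c * a⁻¹) := hc.congr hF.eps a⁻¹
  have m := hN.conj_mem _ (h _ hc') g⁻¹
  rw [inv_inv, conj_tg hG hGF hu hc' g] at m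
  have e : tg hG (iso_vecMul (hGF g.2) hu) hc' = tg hG hw hc := by
    refine Subtype.ext ?_
    change tv J (u ᵥ* g.1.1) _ = tv J w c
    rw [hug, tv_smul hw]
    congr 1
    have h3 : star a * star a⁻¹ = 1 := by rw [← star_mul, inv_mul_cancel₀ ha0, star_one]
    calc star a * (star a⁻¹ * c * a⁻¹) * a = (star a * star a⁻¹) * c * (a⁻¹ * a) := by
          noncomm_ring
      _ = c := by rw [h3, inv_mul_cancel₀ ha0, one_mul, mul_one]
  rwa [e] at m

include hF hG hGF in
theorem normal_B (N : Subgroup G) (hN : N.Normal) {u : n → D} (hu0 : u ≠ 0)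
    (hu : hf J u u = 0) (h : ∀ c (hc : CC ε c), tg hG hu hc ∈ N) {w : n → D}
    (hw : hf J w w = 0) : ∀ c (hc : CC ε c), tg hG hw hc ∈ N := by
  by_cases hw0 : w = 0
  · subst hw0
    intro c hc
    have e : tg hG hw hc = 1 := Subtype.ext (tv_vec_zero c)
    rw [e]
    exact N.one_mem
  · obtain ⟨z, hz, h1, h2⟩ := hF.exists_conn hu0 hu hw0 hw
    exact normal_B_step hF hG hGF N hN hz hw h2 (normal_B_step hF hG hGF N hN hu hz h1 h)

include hQ hF h3 hG hGF in
/-- **A normal subgroup which is not central contains all the transvections.** -/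
theorem normal_main {r : D} (hr : Cs r) (hr0 : r ≠ 0) (hr4 : r * r ≠ r⁻¹ * r⁻¹)
    (N : Subgroup G) (hN : N.Normal) {z : G} (hz : z ∈ N) (hzc : z ∉ Subgroup.center G) :
    ∀ x (hx : x ∈ GT ε J), (⟨x, hG hx⟩ : G) ∈ N := by
  obtain ⟨u, hu, hline⟩ : ∃ u, hf J u u = 0 ∧ ∀ a : D, u ᵥ* z.1.1 ≠ a • u := by
    by_contra hcon
    push Not at hcon
    exact hzc (mem_center_of_lines hQ hF h3 hcon)
  have hu0 : u ≠ 0 := by
    rintro rfl
    exact hline 0 (by rw [zero_vecMul, smul_zero])
  set v : n → D := u ᵥ* z.1.1 with hv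
  have hvi : hf J v v = 0 := iso_vecMul (hGF z.2) hu
  have inv_tg : ∀ {x : n → D} (hx : hf J x x = 0) {c : D} (hc : CC ε c),
      (tg hG hx hc)⁻¹ = tg hG hx hc.neg := fun {x} hx {c} hc =>
    Subtype.ext (tv_neg hx c).symm
  -- the commutators
  have m1 : ∀ c (hc : CC ε c), tg hG hvi hc * tg hG hu hc.neg ∈ N := by
    intro c hc
    have h1 : z⁻¹ * (tg hG hu hc * z * (tg hG hu hc)⁻¹) ∈ N :=
      N.mul_mem (N.inv_mem hz) (hN.conj_mem z hz _)
    have e : z⁻¹ * (tg hG hu hc * z * (tg hG hu hc)⁻¹) =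
        (z⁻¹ * tg hG hu hc * z) * (tg hG hu hc)⁻¹ := by group
    rw [e, conj_tg hG hGF hu hc z, inv_tg] at h1
    exact h1
  -- a transvection group in the normal subgroup
  have m2 : ∃ u', u' ≠ 0 ∧ ∃ hu' : hf J u' u' = 0,
      ∀ c (hc : CC ε c), tg hG hu' hc ∈ N := by
    by_cases huv : hf J u v = 0
    · -- independent
      have hind : ∀ a b : D, a • u + b • v = 0 → a = 0 ∧ b = 0 := by
        intro a b hab
        have hb : b = 0 := by
          by_contra hb
          refine hline (-(b⁻¹ * a)) ?_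
          have h1 : b⁻¹ • (a • u + b • v) = 0 := by rw [hab, smul_zero]
          rw [smul_add, smul_smul, smul_smul, inv_mul_cancel₀ hb, one_smul] at h1
          rw [neg_smul]
          exact eq_neg_of_add_eq_zero_right h1
        subst hb
        rw [zero_smul, add_zero] at hab
        exact ⟨(smul_eq_zero.mp hab).resolve_right hu0, rfl⟩
      obtain ⟨w, hw, huw, hvw⟩ := hF.exists_hyp' hu (hF.symm_zero huv) hind
      obtain ⟨d, hd0, hd⟩ := hF.cc
      set g : G := tg hG hw hd with hg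
      have hvg : v ᵥ* g.1.1 = v := by
        change v ᵥ* (tv J w d).1 = v
        rw [vecMul_tv hw, hvw, zero_mul, zero_smul, add_zero]
      have hug : u ᵥ* g.1.1 = u + d • w := by
        change u ᵥ* (tv J w d).1 = _
        rw [vecMul_tv hw, huw, one_mul]
      set u' : n → D := u ᵥ* g.1.1 with hu'
      have hui' : hf J u' u' = 0 := iso_vecMul (hGF g.2) hu
      have huu' : hf J u u' ≠ 0 := by
        rw [hug, hf_add_right, hf_smul_right, hu, huw, zero_add, one_mul, Ne, star_eq_zero]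
        exact hd0
      refine ⟨u, hu0, hu, normal_A hF hG hGF hr hr0 hr4 N hN hu hui' huu' fun c hc => ?_⟩
      have h1 := m1 (-c) hc.neg
      have h2 := hN.conj_mem _ h1 g⁻¹
      have e : g⁻¹ * (tg hG hvi hc.neg * tg hG hu hc.neg.neg) * g⁻¹⁻¹ =
          (g⁻¹ * tg hG hvi hc.neg * g) * (g⁻¹ * tg hG hu hc.neg.neg * g) := by group
      rw [e, conj_tg hG hGF hvi _ g, conj_tg hG hGF hu _ g] at h2
      have e2 : tg hG (iso_vecMul (hGF g.2) hvi) hc.neg = tg hG hvi hc.neg := by
        refine Subtype.ext ?_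
        change tv J (v ᵥ* g.1.1) _ = tv J v _
        rw [hvg]
      rw [e2] at h2
      have h3 := N.mul_mem (N.inv_mem h1) h2
      rw [_root_.mul_inv_rev, mul_assoc, inv_mul_cancel_left, inv_tg] at h3
      have e3 : tg hG hu hc.neg.neg.neg = tg hG hu hc.neg :=
        Subtype.ext (by rw [tg_val, tg_val, neg_neg])
      have e4 : tg hG (iso_vecMul (hGF g.2) hu) hc.neg.neg = tg hG hui' hc := by
        refine Subtype.ext ?_
        change tv J u' (- -c) = tv J u' c
        rw [neg_neg]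
      rwa [e3, e4] at h3
    · refine ⟨u, hu0, hu, normal_A hF hG hGF hr hr0 hr4 N hN hu hvi huv fun c hc => ?_⟩
      have h1 := N.inv_mem (m1 (-c) hc.neg)
      rw [_root_.mul_inv_rev, inv_tg, inv_tg] at h1
      have e3 : tg hG hu hc.neg.neg.neg = tg hG hu hc.neg :=
        Subtype.ext (by rw [tg_val, tg_val, neg_neg])
      have e4 : tg hG hvi hc.neg.neg = tg hG hvi hc :=
        Subtype.ext (by rw [tg_val, tg_val, neg_neg])
      rwa [e3, e4] at h1
  obtain ⟨u', hu'0, hu', m3⟩ := m2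
  intro x hx
  have h2 : GT ε J ≤ N.map G.subtype := by
    rw [GT, Subgroup.closure_le]
    rintro _ ⟨w, c, hw, hc, rfl⟩
    exact ⟨tg hG hw hc, normal_B hF hG hGF N hN hu'0 hu' m3 hw c hc, rfl⟩
  obtain ⟨y, hy, hyx⟩ := h2 hx
  have : y = ⟨x, hG hx⟩ := Subtype.ext hyx
  rw [← this]
  exact hy

include hF hG hGF in
/-- Homomorphisms to abelian groups vanish on the transvections. -/
theorem hom_GT {A : Type*} [CommGroup A] (φ : G →* A) {r : D} (hr : Cs r) (hr0 : r ≠ 0)
    (hr2 : r⁻¹ * r⁻¹ ≠ 1) : ∀ x (hx : x ∈ GT ε J), φ ⟨x, hG hx⟩ = 1 := by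
  have h1 : ∀ u (hu : hf J u u = 0) d (hd : CC ε d), φ (tg hG hu hd) = 1 := by
    intro u hu d hd
    by_cases hu0 : u = 0
    · subst hu0
      have e : tg hG hu hd = 1 := Subtype.ext (tv_vec_zero d)
      rw [e, map_one]
    obtain ⟨w, hw, huw⟩ := hF.exists_hyp hu0 hu
    obtain ⟨s, hs0, hs⟩ := hF.cc
    set E : G := dg hG hF hu hw hs hr with hE
    have hEu : u ᵥ* E.1.1 = r⁻¹ • u := u_dv hF hu hw huw hs0 hr0 hr
    have hq0 : r⁻¹ * r⁻¹ - 1 ≠ 0 := sub_ne_zero.mpr hr2
    set q : D := (r⁻¹ * r⁻¹ - 1)⁻¹ with hq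
    have hqs : Cs q := ((hr.inv.mul hr.inv).sub Cs.one).inv
    have hc : CC ε (q * d) := hd.smul hF.eps hqs
    have e : tg hG hu hd = E⁻¹ * tg hG hu hc * E * (tg hG hu hc)⁻¹ := by
      rw [conj_tg hG hGF hu hc E]
      refine Subtype.ext ?_
      change tv J u d = tv J (u ᵥ* E.1.1) (q * d) * (tv J u (q * d))⁻¹
      rw [hEu, tv_smul hu, hr.inv.st, ← tv_neg hu, ← tv_add hu]
      congr 1
      have h5 : (r⁻¹ * r⁻¹ - 1) * q = 1 := by rw [hq, mul_inv_cancel₀ hq0]
      have e3 : r⁻¹ * (q * d) * r⁻¹ = r⁻¹ * r⁻¹ * (q * d) := by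
        rw [mul_assoc, ← hr.inv.cm (q * d), mul_assoc]
      rw [e3]
      calc d = ((r⁻¹ * r⁻¹ - 1) * q) * d := by rw [h5, one_mul]
        _ = r⁻¹ * r⁻¹ * (q * d) + -(q * d) := by noncomm_ring
    rw [e, map_mul, map_mul, map_mul, map_inv, map_inv]
    rw [mul_comm (φ E)⁻¹, inv_mul_cancel_right, mul_inv_cancel]
  intro x hx
  have h2 : GT ε J ≤ (φ.ker).map G.subtype := by
    rw [GT, Subgroup.closure_le]
    rintro _ ⟨v, c, hv, hc, rfl⟩
    exact ⟨tg hG hv hc, h1 v hv c hc, rfl⟩
  obtain ⟨y, hy, hyx⟩ := h2 hx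
  have : y = ⟨x, hG hx⟩ := Subtype.ext hyx
  rw [← this]
  exact hy

include hQ hF h3 hG hGF in
/-- The central elements are the signs. -/
theorem center_sign {z : G} (hz : z ∈ Subgroup.center G) :
    (∀ x, x ᵥ* z.1.1 = x) ∨ ∀ x, x ᵥ* z.1.1 = -x := by
  have hz' : ∀ g : G, g * z = z * g := Subgroup.mem_center_iff.mp hz
  obtain ⟨c, hc0, hc⟩ := hF.cc
  obtain ⟨a, hcs, ha⟩ := scalar_of_lines hQ hF h3 z.1 fun u hu =>
    line_of_comm hF (hGF z.2) hu hc0 (congrArg Subtype.val (hz' (tg hG hu hc))).symm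
  obtain ⟨u, hu0, hu⟩ := hF.iso
  obtain ⟨w, hw, huw⟩ := hF.exists_hyp hu0 hu
  have h1 := mem_FG.mp (hGF z.2) u w
  rw [ha, ha, hf_smul_left, hf_smul_right, huw, one_mul, hcs.st] at h1
  rcases mul_self_eq_one_iff.1 h1 with h | h
  · left
    intro x
    rw [ha, h, one_smul]
  · right
    intro x
    rw [ha, h, neg_one_smul]

include hQ hF h3 hG hGF in
/-- The centre is finite. -/
theorem finite_center : Finite (Subgroup.center G) := by
  have h1 : ({1, -1} : Set (Matrix n n D)).Finite := Set.toFinite _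
  refine Set.Finite.to_subtype (Set.Finite.of_finite_image
    (f := fun g : G => g.1.1) (h1.subset ?_)
    (fun a _ b _ h => Subtype.ext (Units.ext h)))
  rintro _ ⟨z, hz, rfl⟩
  rcases center_sign hQ hF h3 hG hGF hz with h | h
  · left
    exact ext_vm fun x => by rw [h, vecMul_one]
  · right
    exact ext_vm fun x => by rw [h, vecMul_neg, vecMul_one]

end normal

end Vale.Agent.P092.H103.QH
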