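import Vale.Agent.P092.H103.QH4
import Vale.Agent.P092.H899.V0
import Mathlib.Analysis.Quaternion
import Mathlib.Analysis.Normed.Module.FiniteDimension
import Mathlib.Analysis.Normed.Module.Basic

/-!
P092, block CLASS-H (helper103): the third dimension for the forms `hypD q ε J₀`, and quaternion
division algebras over a normed field.
-/

set_option linter.all false

open Matrix

namespace Vale.Agent.P092.H103.QH

open Vale.Agent.P092.H899.Qu

section dm

variable {ι : Type*} [Fintype ι] [DecidableEq ι] {D : Type*} [DivisionRing D] [StarRing D] {ε : D}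
  {J₀ : Matrix ι ι D} {q : ℕ}

/-- The third dimension. -/
theorem dm3_hypD (hQ : Qt D) (hJ : ∀ v : ι → D, v ≠ 0 → hf J₀ v v ≠ 0) (hq : 1 ≤ q)
    (hd : ε = -1 → 3 ≤ 2 * q + Fintype.card ι) : Dm3 ε (hypD q ε J₀) := by
  intro hε
  have h3 := hd hε
  clear hd
  subst hε
  obtain ⟨i0, -⟩ : ∃ i0 : Fin q, i0 = ⟨0, hq⟩ := ⟨_, rfl⟩
  by_cases hι : Nonempty ι
  · obtain ⟨i⟩ := hι
    refine ⟨Pi.single (.inl (.inl i0)) 1, Pi.single (.inl (.inr i0)) 1, Pi.single (.inr i) 1,
      ?_, ?_, ?_, ?_, ?_, ?_⟩
    · rw [hf_single]; simp [hypD]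
    · rw [hf_single]; simp [hypD]
    · rw [hf_single]; simp [hypD]
    · rw [hf_single]; simp [hypD]
    · rw [hf_single]; simp [hypD]
    · rw [hf_single]
      have h := hJ (Pi.single i 1) (by simp)
      rw [hf_single] at h
      simpa [hypD] using h
  · rw [not_nonempty_iff] at hι
    have hc : Fintype.card ι = 0 := Fintype.card_eq_zero
    obtain ⟨i0, i1, hne⟩ : ∃ i0 i1 : Fin q, i0 ≠ i1 :=
      ⟨⟨0, hq⟩, ⟨1, by omega⟩, by simp⟩
    obtain ⟨x, y, hx, hy, hxy⟩ := hQ.exists_pu
    have hx0 : x ≠ 0 := by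
      rintro rfl
      exact hxy (by rw [zero_mul, mul_zero])
    refine ⟨Pi.single (.inl (.inl i0)) 1, Pi.single (.inl (.inr i0)) 1,
      Pi.single (.inl (.inl i1)) 1 + Pi.single (.inl (.inr i1)) x, ?_, ?_, ?_, ?_, ?_, ?_⟩
    · rw [hf_single]; simp [hypD]
    · rw [hf_single]; simp [hypD]
    · rw [hf_single]; simp [hypD]
    · rw [hf_add_left, hf_single, hf_single]
      simp [hypD, Matrix.one_apply, hne, hne.symm]
    · rw [hf_add_left, hf_single, hf_single]
      simp [hypD, Matrix.one_apply, hne, hne.symm]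
    · rw [hf_add_left, hf_add_right, hf_add_right, hf_single, hf_single, hf_single, hf_single]
      have e : (1 * hypD q (-1) J₀ (.inl (.inl i1)) (.inl (.inl i1)) * star 1 +
          1 * hypD q (-1) J₀ (.inl (.inl i1)) (.inl (.inr i1)) * star x +
          (x * hypD q (-1) J₀ (.inl (.inr i1)) (.inl (.inl i1)) * star 1 +
            x * hypD q (-1) J₀ (.inl (.inr i1)) (.inl (.inr i1)) * star x)) = -(2 * x) := by
        have h1 : star x = -x := hx
        simp [hypD, h1]
        rw [two_mul]
        abel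
      rw [e]
      exact neg_ne_zero.2 (mul_ne_zero hQ.two hx0)

end dm

section alg

variable {k : Type*} [Field k] {D : Type*} [DivisionRing D] [Algebra k D] [StarRing D]

/-- The canonical involution fixes the centre. -/
theorem star_alg (ht : ∀ x : D, ∃ t : k, x + star x = algebraMap k D t)
    (hnc : ∃ x y : D, x * y ≠ y * x) (t : k) : star (algebraMap k D t) = algebraMap k D t := by
  obtain ⟨s, hs⟩ := ht (algebraMap k D t)
  have h1 : star (algebraMap k D t) = algebraMap k D (s - t) := by
    rw [map_sub, ← hs]; abel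
  by_cases h : s - t = t
  · rw [h1, h]
  · exfalso
    have hne : algebraMap k D (t - (s - t)) ≠ 0 := by
      rw [Ne, map_eq_zero]
      exact sub_ne_zero.2 (Ne.symm h)
    have key : ∀ x : D, ∃ c : k, x = algebraMap k D c := by
      intro x
      obtain ⟨a, ha⟩ := ht x
      obtain ⟨b, hb⟩ := ht (algebraMap k D t * x)
      rw [star_mul, h1, ← Algebra.commutes] at hb
      have h2 : algebraMap k D (t - (s - t)) * x = algebraMap k D (b - (s - t) * a) := by
        rw [map_sub _ b, map_mul, ← ha, ← hb, map_sub _ t, sub_mul, mul_add]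
        abel
      refine ⟨(t - (s - t))⁻¹ * (b - (s - t) * a), ?_⟩
      rw [map_mul, ← h2, map_inv₀, inv_mul_cancel_left₀ hne]
    obtain ⟨x, y, hxy⟩ := hnc
    obtain ⟨c, rfl⟩ := key x
    exact hxy (Algebra.commutes c y)

theorem cs_alg (hst : ∀ t : k, star (algebraMap k D t) = algebraMap k D t) (t : k) :
    Cs (algebraMap k D t) := ⟨hst t, fun x => Algebra.commutes t x⟩

/-- Quaternion division algebras. -/
theorem qt_of (ht : ∀ x : D, ∃ t : k, x + star x = algebraMap k D t) (h2 : (2 : k) ≠ 0)
    (hnc : ∃ x y : D, x * y ≠ y * x) : Qt D where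
  tr x := by
    obtain ⟨t, h⟩ := ht x
    rw [h]
    exact cs_alg (star_alg ht hnc) t
  two := by
    have h : algebraMap k D 2 ≠ 0 := by rwa [Ne, map_eq_zero]
    rwa [map_ofNat] at h
  nc := hnc

end alg

section norm

variable {k : Type*} [NontriviallyNormedField k] [CompleteSpace k] {D : Type*}
  [NormedDivisionRing D] [NormedAlgebra k D] [FiniteDimensional k D] [StarRing D]

/-- An involution which fixes the base field preserves the norm. -/
theorem norm_star_of (hst : ∀ t : k, star (algebraMap k D t) = algebraMap k D t) (x : D) :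
    ‖star x‖ = ‖x‖ := by
  obtain ⟨L, hL⟩ : ∃ L : D →ₗ[k] D, ∀ x, L x = star x :=
    ⟨{ toFun := star
       map_add' := star_add
       map_smul' := fun t x => by
        rw [Algebra.smul_def, star_mul, hst, RingHom.id_apply, Algebra.smul_def,
          Algebra.commutes] }, fun x => rfl⟩
  obtain ⟨C, hC⟩ : ∃ C : ℝ, ∀ x : D, ‖star x‖ ≤ C * ‖x‖ := by
    refine ⟨‖LinearMap.toContinuousLinearMap L‖, fun x => ?_⟩
    have := (LinearMap.toContinuousLinearMap L).le_opNorm x
    rw [LinearMap.coe_toContinuousLinearMap', hL] at this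
    exact this
  have key : ∀ x : D, ‖star x‖ ≤ ‖x‖ := by
    intro x
    by_contra hcon
    push Not at hcon
    have hx0 : 0 < ‖x‖ := by
      rw [norm_pos_iff]
      rintro rfl
      rw [star_zero] at hcon
      exact lt_irrefl _ hcon
    have h1 : 1 < ‖star x‖ / ‖x‖ := (one_lt_div hx0).2 hcon
    obtain ⟨N, hN⟩ := pow_unbounded_of_one_lt C h1
    have h2 := hC (x ^ N)
    rw [star_pow, norm_pow, norm_pow] at h2
    rw [div_pow, lt_div_iff₀ (pow_pos hx0 N)] at hN
    linarith
  refine le_antisymm (key x) ?_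
  have := key (star x)
  rwa [star_star] at this

end norm

end Vale.Agent.P092.H103.QH
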