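import Vale.Agent.P092.H103.QH5
import Vale.Agent.P092.H103.QH6
import Vale.Agent.P092.H899.V2
import Vale.Agent.P092.H387.Qt4
import Vale.Agent.P092.QC.Final
import Vale.Agent.P092.PA.FacInst
import Mathlib.Tactic.NormNum

/-!
P092, block CLASS-H (helper103): the groups generated by the transvections of a hermitian or
skew-hermitian form over a quaternion division algebra, as factors of the class `QF`.
-/

set_option linter.all false

open Matrix Topology

namespace Vale.Agent.P092.H103.QH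

open Vale.Agent.P092.H899.Qu
open Vale.Agent.P092.H15 (HMG)
open Vale.Agent.P092.H515 (Tgt)

section qn

variable {k : Type*} [NontriviallyNormedField k] {D : Type*} [NormedDivisionRing D]
  [NormedAlgebra k D] [StarRing D]

/-- Quaternion division algebras over a normed field. -/
theorem qn_of (ht : ∀ x : D, ∃ t : k, x + star x = algebraMap k D t) (h2 : (2 : k) ≠ 0)
    (hnc : ∃ x y : D, x * y ≠ y * x) (hn : ∀ x : D, ‖star x‖ = ‖x‖) : Qn D where
  toQt := qt_of ht h2 hnc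
  nst := hn
  big := by
    obtain ⟨x, hx⟩ := NormedField.exists_one_lt_norm k
    refine ⟨algebraMap k D x, cs_alg (star_alg ht hnc) x, ?_⟩
    rwa [norm_algebraMap']

/-- The same, over a complete field: the involution preserves the norm. -/
theorem qn_of' [CompleteSpace k] [FiniteDimensional k D]
    (ht : ∀ x : D, ∃ t : k, x + star x = algebraMap k D t) (h2 : (2 : k) ≠ 0)
    (hnc : ∃ x y : D, x * y ≠ y * x) : Qn D :=
  qn_of ht h2 hnc fun x => norm_star_of (star_alg ht hnc) x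

end qn

open scoped Quaternion in
/-- The real quaternions. -/
theorem qn_real : Qn ℍ[ℝ] := by
  refine qn_of (k := ℝ) (fun x => ?_) two_ne_zero ?_ fun x => ?_
  · exact ⟨2 * x.re, Quaternion.self_add_star' x⟩
  · obtain ⟨x, hx⟩ : ∃ x : ℍ[ℝ], x = ⟨0, 1, 0, 0⟩ := ⟨_, rfl⟩
    obtain ⟨y, hy⟩ : ∃ y : ℍ[ℝ], y = ⟨0, 0, 1, 0⟩ := ⟨_, rfl⟩
    refine ⟨x, y, fun h => ?_⟩
    have h1 : (x * y).imK = (y * x).imK := by rw [h]
    rw [Quaternion.imK_mul, Quaternion.imK_mul, hx, hy] at h1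
    norm_num at h1
  · exact Quaternion.norm_star x

section asm

variable {k : Type} [NontriviallyNormedField k] [ProperSpace k] {D : Type}
  [NormedDivisionRing D] [NormedAlgebra k D] [FiniteDimensional k D] [StarRing D]
  {ε : D} {ι : Type} [Fintype ι] [DecidableEq ι] {J₀ : Matrix ι ι D} {q : ℕ}

include k in
theorem frm_quat (ht : ∀ x : D, ∃ t : k, x + star x = algebraMap k D t) (h2 : (2 : k) ≠ 0)
    (hnc : ∃ x y : D, x * y ≠ y * x) (hε : ε = 1 ∨ ε = -1)
    (hH : ∀ i j, J₀ j i = ε * star (J₀ i j)) (hJ : ∀ v : ι → D, v ≠ 0 → hf J₀ v v ≠ 0)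
    (hq : 1 ≤ q) : Frm ε (hypD q ε J₀) := by
  have hQ := qt_of ht h2 hnc
  refine frm_hypD_two hQ.two ?_ hH hJ hq
  rcases hε with h | h
  · refine Or.inl ⟨h, ?_⟩
    obtain ⟨x, y, hx, -, hxy⟩ := hQ.exists_pu
    refine ⟨x, fun h1 => ?_⟩
    have h3 : star x = -x := hx
    rw [h1] at h3
    have h4 : (2 : D) * x = 0 := by rw [two_mul]; nth_rewrite 1 [h3]; exact neg_add_cancel x
    rcases mul_eq_zero.1 h4 with h5 | h5
    · exact hQ.two h5
    · exact hxy (by rw [h5, zero_mul, mul_zero])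
  · exact Or.inr h

/-- **The quaternionic classical groups are in the class `QF`**, given the four topological facts. -/
theorem qf_quat_of (ht : ∀ x : D, ∃ t : k, x + star x = algebraMap k D t) (h2 : (2 : k) ≠ 0)
    (hnc : ∃ x y : D, x * y ≠ y * x) (hε : ε = 1 ∨ ε = -1)
    (hH : ∀ i j, J₀ j i = ε * star (J₀ i j)) (hJ : ∀ v : ι → D, v ≠ 0 → hf J₀ v v ≠ 0)
    (hq : 1 ≤ q) (hd : ε = -1 → 3 ≤ 2 * q + Fintype.card ι)
    (hcl : IsClosedEmbedding fun g : GT ε (hypD q ε J₀) => g.1.1)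
    (hm : HMG (GT ε (hypD q ε J₀))) (htgt : Tgt (GT ε (hypD q ε J₀)) q)
    (herg : PreconnectedSpace (GT ε (hypD q ε J₀)) ∨ QC.Td (GT ε (hypD q ε J₀))) :
    QC.QF (GT ε (hypD q ε J₀)) q := by
  haveI : ProperSpace D := FiniteDimensional.proper k D
  have hQ : Qn D := qn_of' ht h2 hnc
  have hF : Frm ε (hypD q ε J₀) := frm_quat ht h2 hnc hε hH hJ hq
  have h3 : Dm3 ε (hypD q ε J₀) := dm3_hypD hQ.toQt hJ hq hd
  exact
  { top := inferInstance
    lc := lc_G hcl
    sc := sc_G hcl.isEmbedding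
    t2 := t2_G hcl.isEmbedding
    fin := finite_center hQ.toQt hF h3 le_rfl (GT_le hF)
    fac := facS_G hQ hF h3 rfl hcl (PA.hm_of_howeMoore hm.howeMoore)
    hmg := hm
    chn := chn_hypD (star_alg ht hnc) hF le_rfl
    tgt := htgt
    pos := hq
    erg := herg }

/-- The central quotients. -/
theorem qf_quat_quo (ht : ∀ x : D, ∃ t : k, x + star x = algebraMap k D t) (h2 : (2 : k) ≠ 0)
    (hnc : ∃ x y : D, x * y ≠ y * x) (hε : ε = 1 ∨ ε = -1)
    (hH : ∀ i j, J₀ j i = ε * star (J₀ i j)) (hJ : ∀ v : ι → D, v ≠ 0 → hf J₀ v v ≠ 0)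
    (hq : 1 ≤ q) (hd : ε = -1 → 3 ≤ 2 * q + Fintype.card ι)
    (h : QC.QF (GT ε (hypD q ε J₀)) q) (Z : Subgroup (GT ε (hypD q ε J₀))) [Z.Normal]
    (hZ : Z ≤ Subgroup.center (GT ε (hypD q ε J₀))) :
    QC.QF (GT ε (hypD q ε J₀) ⧸ Z) q := by
  have hQ : Qt D := qt_of ht h2 hnc
  have hF : Frm ε (hypD q ε J₀) := frm_quat ht h2 hnc hε hH hJ hq
  have h3 : Dm3 ε (hypD q ε J₀) := dm3_hypD hQ hJ hq hd
  refine H387.Qt.qf_quo h Z hZ (chn_hypD_quo (star_alg ht hnc) hF le_rfl Z ?_ fun z hz => ?_)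
  · haveI := h.fin
    exact ((Set.toFinite (Subgroup.center (GT ε (hypD q ε J₀)) : Set _)).subset hZ).isCompact
  · rcases center_sign hQ hF h3 le_rfl (GT_le hF) (hZ hz) with h1 | h1
    · exact ⟨1, fun x => by rw [h1, one_smul]⟩
    · exact ⟨-1, fun x => by rw [h1, neg_one_smul]⟩

end asm

end Vale.Agent.P092.H103.QH
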