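import Vale.Agent.P092.H103.AFr

/-!
Intertwiners of an amplified frame: their coefficients vanish off the diagonal.
-/

set_option linter.all false

open scoped InnerProductSpace
open Filter Topology ContinuousLinearMap
open Vale.Agent.P092.H160

namespace Vale.Agent.P092.H103

section phi

variable {Λ I : Type} [Group Λ] [Fintype I]

/-- The elementary operator `δ_(k,t) ↦ δ_(i,st)`, zero on the other blocks. -/
noncomputable def Eo (i k : I) (s : Λ) : Ell2 (I × Λ) →L[ℂ] Ell2 (I × Λ) :=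
  tvr (dl i) ∘L lam s ∘L slL Λ k

theorem Eo_apply (i k : I) (s : Λ) (v : Ell2 (I × Λ)) (j : I) (t : Λ) :
    Eo i k s v (j, t) = (dl i : Ell2 I) j * v (k, s⁻¹ * t) := rfl

theorem Eo_eqv (i k : I) (s : Λ) : Eqv (FS.mat I Λ).R (FS.mat I Λ).R (Eo i k s) := by
  intro x v
  apply ext_inner_dl
  rintro ⟨j, t⟩
  rw [Eo_apply, FS.R_val, FS.R_val, FS.mat_act, FS.mat_act, Eo_apply, inv_inv, mul_assoc]

theorem norm_Eo_le (i k : I) (s : Λ) (v : Ell2 (I × Λ)) : ‖Eo i k s v‖ ≤ ‖v‖ := by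
  change ‖tv (dl i) (lam s (sl v k))‖ ≤ _
  rw [norm_tv, norm_dl, one_mul, norm_lam]
  exact norm_sl_le v k

/-- the conjugation average over the matrix units, at `s` -/
noncomputable def Ph (s : Λ) (X : Ell2 (I × Λ) →L[ℂ] Ell2 (I × Λ)) :
    Ell2 (I × Λ) →L[ℂ] Ell2 (I × Λ) :=
  ∑ i : I, ∑ k : I, Eo k i s⁻¹ ∘L X ∘L Eo i k s

theorem Ph_apply (s : Λ) (X : Ell2 (I × Λ) →L[ℂ] Ell2 (I × Λ)) (v : Ell2 (I × Λ)) :
    Ph s X v = ∑ i : I, ∑ k : I, Eo k i s⁻¹ (X (Eo i k s v)) := by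
  rw [Ph, sum_apply]
  refine Finset.sum_congr rfl fun i _ => ?_
  rw [sum_apply]
  rfl

theorem norm_Ph_le (s : Λ) (X : Ell2 (I × Λ) →L[ℂ] Ell2 (I × Λ)) :
    ‖Ph s X‖ ≤ Fintype.card I * (Fintype.card I * ‖X‖) := by
  refine opNorm_le_bound _ (by positivity) fun v => ?_
  rw [Ph_apply]
  have h1 : ∀ i k : I, ‖Eo k i s⁻¹ (X (Eo i k s v))‖ ≤ ‖X‖ * ‖v‖ := by
    intro i k
    refine (norm_Eo_le _ _ _ _).trans ?_
    refine (X.le_opNorm _).trans ?_
    gcongr
    exact norm_Eo_le _ _ _ _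
  calc ‖∑ i : I, ∑ k : I, Eo k i s⁻¹ (X (Eo i k s v))‖
      ≤ ∑ i : I, ∑ k : I, ‖X‖ * ‖v‖ := by
        refine (norm_sum_le _ _).trans (Finset.sum_le_sum fun i _ => ?_)
        exact (norm_sum_le _ _).trans (Finset.sum_le_sum fun k _ => h1 i k)
    _ = _ := by
        simp only [Finset.sum_const, nsmul_eq_mul, Finset.card_univ]
        ring

theorem Eo_dl (i k l : I) (s t : Λ) :
    Eo i k s (dl (l, t)) = (dl l : Ell2 I) k • dl (i, s * t) := by
  rw [dl_prod]
  change tv (dl i) (lam s (sl (tv (dl l) (dl t)) k)) = _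
  rw [sl_tv, map_smul, lam_dl, tv_smul_right, dl_prod]

theorem Ph_dl (s : Λ) (X : Ell2 (I × Λ) →L[ℂ] Ell2 (I × Λ)) (l k : I) (t t' : Λ) :
    Ph s X (dl (l, t')) (k, t) = (dl l : Ell2 I) k * ∑ i : I, X (dl (i, s * t')) (i, s * t) := by
  classical
  rw [Ph_apply, lp.coeFn_sum, Finset.sum_apply]
  have h1 : ∀ i : I, (∑ k : I, Eo k i s⁻¹ (X (Eo i k s (dl (l, t'))))) =
      Eo l i s⁻¹ (X (dl (i, s * t'))) := by
    intro i
    rw [Finset.sum_eq_single l]
    · rw [Eo_dl, dl_self, one_smul]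
    · intro j _ hj
      rw [Eo_dl, dl_ne hj, zero_smul, map_zero, map_zero]
    · intro h
      exact absurd (Finset.mem_univ l) h
  simp only [h1, Eo_apply, inv_inv]
  rw [← Finset.mul_sum]

theorem Ph_lim [DecidableEq Λ] {X : Ell2 (I × Λ) →L[ℂ] Ell2 (I × Λ)} {c : ℂ} {l : Filter Λ}
    (h : ∀ t t' : Λ, Tendsto (fun s => ∑ i : I, X (dl (i, s * t')) (i, s * t)) l
      (𝓝 (if t = t' then c else 0))) (k : I) (t : Λ) (v : Ell2 (I × Λ)) :
    Tendsto (fun s => Ph s X v (k, t)) l (𝓝 (c * v (k, t))) := by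
  classical
  have h1 := weak_lim (l := l) (W := fun s => adjoint (Ph s X) (dl (k, t)))
    (C := Fintype.card I * (Fintype.card I * ‖X‖)) (fun s => by
      refine (le_opNorm _ _).trans ?_
      rw [LinearIsometryEquiv.norm_map, norm_dl, mul_one]
      exact norm_Ph_le s X) (w := (starRingEnd ℂ) c • dl (k, t)) (fun b => by
      obtain ⟨l', t'⟩ := b
      simp only [adjoint_inner_left, inner_dl, inner_smul_left, Complex.conj_conj, Ph_dl]
      by_cases hk : k = l'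
      · subst hk
        have h2 : c * (dl (k, t') : Ell2 (I × Λ)) (k, t) = 1 * (if t = t' then c else 0) := by
          rw [dl_prod, tv_apply, dl_self, dl_apply]
          split_ifs <;> simp
        rw [h2, dl_self]
        exact (h t t').const_mul 1
      · rw [dl_prod, tv_apply, dl_ne hk, zero_mul, mul_zero]
        simp only [zero_mul]
        exact tendsto_const_nhds) v
  simp only [adjoint_inner_left, inner_dl, inner_smul_left, Complex.conj_conj] at h1
  exact h1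

end phi

variable {Γ Λ I : Type} [Group Γ] [Group Λ] [Fintype I]

namespace AF

variable {α : Γ → (Ell2 (I × Λ) →L[ℂ] Ell2 (I × Λ))} (hα : AF α)

include hα

theorem cross {B m : Ell2 (I × Λ) →L[ℂ] Ell2 (I × Λ)} (hB : ∀ g, B * α g = α g * B)
    (hpB : α 1 * B = B) (hBp : B * α 1 = B) (hm : Eqv (FS.mat I Λ).R (FS.mat I Λ).R m) :
    B * m * α 1 = α 1 * m * B := by
  have h := hα.bicomm (B := B) (X := α 1 * m * α 1) hB (((hα.comm 1).mul hm).mul (hα.comm 1))
    (by rw [← mul_assoc, ← mul_assoc, hα.pp]) (by rw [mul_assoc, hα.pp])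
  calc B * m * α 1 = (B * α 1) * m * α 1 := by rw [hBp]
    _ = B * (α 1 * m * α 1) := by simp only [mul_assoc]
    _ = (α 1 * m * α 1) * B := h
    _ = α 1 * m * (α 1 * B) := by simp only [mul_assoc]
    _ = α 1 * m * B := by rw [hpB]

theorem Ph_cross {B : Ell2 (I × Λ) →L[ℂ] Ell2 (I × Λ)} (hB : ∀ g, B * α g = α g * B)
    (hpB : α 1 * B = B) (hBp : B * α 1 = B) (s : Λ) (v : Ell2 (I × Λ)) :
    Ph s (α 1) (B v) = Ph s B (α 1 v) := by
  rw [Ph_apply, Ph_apply]
  refine Finset.sum_congr rfl fun i _ => Finset.sum_congr rfl fun k _ => ?_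
  congr 1
  have h := hα.cross hB hpB hBp (Eo_eqv i k s)
  exact (congrArg (fun T : Ell2 (I × Λ) →L[ℂ] Ell2 (I × Λ) => T v) h).symm

end AF

/-- An intertwiner from an amplified frame to a representation on `ℓ²(Z)`. -/
structure It {K Z J : Type} [Group K] (α : Γ → (Ell2 (I × Λ) →L[ℂ] Ell2 (I × Λ)))
    (f : FS K Z J) (ι : Λ →* K) (A : Γ → (Ell2 Z →L[ℂ] Ell2 Z))
    (S : Ell2 (I × Λ) →L[ℂ] Ell2 Z) : Prop where
  r : ∀ s v, S ((FS.mat I Λ).R s v) = f.R (ι s) (S v)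
  a : ∀ g v, S (α g v) = A g (S v)
  p : ∀ v, S (α 1 v) = S v

/-- the coefficient function of two operators -/
noncomputable def Cf {K Z J : Type} [Group K] (f : FS K Z J)
    (S S' : Ell2 (I × Λ) →L[ℂ] Ell2 Z) (x : K) : ℂ :=
  ∑ i : I, ⟪S (dl (i, 1)), f.R x (S' (dl (i, 1)))⟫_ℂ

theorem Cf_c0 {K Z J : Type} [Group K] (f : FS K Z J) (S S' : Ell2 (I × Λ) →L[ℂ] Ell2 Z) :
    Tendsto (Cf f S S') cofinite (𝓝 0) := by
  have h : Tendsto (Cf f S S') cofinite (𝓝 (∑ i : I, (0 : ℂ))) := by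
    unfold Cf
    exact tendsto_finsetSum _ fun i _ => f.coeff_c0 _ _
  simpa using h

theorem sum_diag {K Z J : Type} [Group K] (f : FS K Z J) {ι : Λ →* K}
    {S S' : Ell2 (I × Λ) →L[ℂ] Ell2 Z} (hS : ∀ s v, S ((FS.mat I Λ).R s v) = f.R (ι s) (S v))
    (hS' : ∀ s v, S' ((FS.mat I Λ).R s v) = f.R (ι s) (S' v)) (x : K) (s t t' : Λ) :
    ∑ i : I, (adjoint S ∘L f.R x ∘L S') (dl (i, s * t')) (i, s * t) =
      Cf f S S' (ι s * (ι t * x * (ι t')⁻¹) * (ι s)⁻¹) := by
  unfold Cf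
  refine Finset.sum_congr rfl fun i _ => ?_
  rw [← inner_dl, comp_apply, comp_apply, adjoint_inner_right, FS.mat_dl i (s * t),
    FS.mat_dl i (s * t'), hS, hS', f.R_left, ← f.R_mul_apply, ← f.R_mul_apply]
  congr 3
  rw [map_inv, map_inv, inv_inv, map_mul, map_mul]
  group

section side

variable {K Z J : Type} [Group K] {α : Γ → (Ell2 (I × Λ) →L[ℂ] Ell2 (I × Λ))} (hα : AF α)
  (f : FS K Z J) {ι : Λ →* K} {A : Γ → (Ell2 Z →L[ℂ] Ell2 Z)}

/-- Properties of the target representation. -/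
structure Tgt (f : FS K Z J) (A : Γ → (Ell2 Z →L[ℂ] Ell2 Z)) : Prop where
  mul : ∀ g h, A (g * h) = A g * A h
  adj : ∀ g, adjoint (A g) = A g⁻¹
  comm : ∀ g, Eqv f.R f.R (A g)

variable {f}

theorem It.adj_a (hα : AF α) (hA : Tgt f A) {S : Ell2 (I × Λ) →L[ℂ] Ell2 Z}
    (hS : It α f ι A S) (g : Γ) (w : Ell2 Z) : adjoint S (A g w) = α g (adjoint S w) := by
  refine ext_inner_left ℂ fun u => ?_
  rw [adjoint_inner_right, ← adjoint_inner_left (A g), hA.adj, ← hS.a, hα.inner_right,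
    adjoint_inner_right]

theorem It.cmm (hα : AF α) (hA : Tgt f A) {S S' : Ell2 (I × Λ) →L[ℂ] Ell2 Z}
    (hS : It α f ι A S) (hS' : It α f ι A S') (x : K) (g : Γ) :
    (adjoint S ∘L f.R x ∘L S') * α g = α g * (adjoint S ∘L f.R x ∘L S') := by
  ext1 v
  change adjoint S (f.R x (S' (α g v))) = α g (adjoint S (f.R x (S' v)))
  rw [hS'.a, ← hA.comm, hS.adj_a hα hA]

theorem It.left_p (hα : AF α) (hA : Tgt f A) {S : Ell2 (I × Λ) →L[ℂ] Ell2 Z}
    (hS : It α f ι A S) (w : Ell2 Z) : α 1 (adjoint S w) = adjoint S w := by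
  refine ext_inner_left ℂ fun u => ?_
  rw [← hα.p_left, adjoint_inner_right, hS.p, adjoint_inner_right]

/-- The coefficients of intertwiners. -/
theorem It.coef_aux (hα : AF α) (hA : Tgt f A) (hinj : Function.Injective ι)
    (hι : ∀ x : K, x ≠ 1 → Set.Infinite {y | ∃ s : Λ, y = ι s * x * (ι s)⁻¹})
    {S S' : Ell2 (I × Λ) →L[ℂ] Ell2 Z} (hS : It α f ι A S) (hS' : It α f ι A S') (x : K) (c : ℂ)
    (hx : (x = 1 ∧ c = Cf f S S' 1) ∨ (x ∉ Set.range ι ∧ c = 0)) (v : Ell2 (I × Λ)) :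
    (FS.mat I Λ).tr (α 1) • adjoint S (f.R x (S' v)) = c • α 1 v := by
  classical
  haveI := nf_neBot ι hι
  set B : Ell2 (I × Λ) →L[ℂ] Ell2 (I × Λ) := adjoint S ∘L f.R x ∘L S' with hBdef
  have hB : ∀ g, B * α g = α g * B := fun g => hS.cmm hα hA hS' x g
  have hpB : α 1 * B = B := by
    ext1 v
    exact hS.left_p hα hA _
  have hBp : B * α 1 = B := by
    ext1 v
    change adjoint S (f.R x (S' (α 1 v))) = adjoint S (f.R x (S' v))
    rw [hS'.p]
  -- limits
  have hP : ∀ t t' : Λ, Tendsto (fun s => ∑ i : I, α 1 (dl (i, s * t')) (i, s * t)) (nf ι)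
      (𝓝 (if t = t' then (FS.mat I Λ).tr (α 1) else 0)) := by
    intro t t'
    have e0 : ∀ s, ∑ i : I, α 1 (dl (i, s * t')) (i, s * t) =
        Cf (FS.mat I Λ) (α 1) (α 1) (s * (t * 1 * t'⁻¹) * s⁻¹) := by
      intro s
      have h1 := sum_diag (FS.mat I Λ) (ι := MonoidHom.id Λ) (S := α 1) (S' := α 1)
        (fun s v => hα.comm 1 s v) (fun s v => hα.comm 1 s v) 1 s t t'
      simp only [MonoidHom.id_apply] at h1
      rw [← h1]
      refine Finset.sum_congr rfl fun i _ => ?_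
      congr 2
      rw [comp_apply, comp_apply, FS.R_one_apply, hα.p_adj, hα.pp_apply]
    simp only [e0, mul_one]
    split_ifs with h
    · subst h
      have e1 : ∀ s : Λ, s * (t * t⁻¹) * s⁻¹ = 1 := fun s => by group
      simp only [e1]
      have e2 : Cf (FS.mat I Λ) (α 1) (α 1) (1 : Λ) = (FS.mat I Λ).tr (α 1) := by
        unfold Cf FS.tr
        refine Finset.sum_congr rfl fun i _ => ?_
        rw [FS.R_one_apply, hα.p_left, hα.pp_apply]
        rfl
      rw [e2]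
      exact tendsto_const_nhds
    · have hne : t * t'⁻¹ ≠ 1 := fun h' => h (mul_inv_eq_one.mp h')
      have hne' : ι (t * t'⁻¹) ≠ 1 := fun h' => hne (hinj (by rw [h', map_one]))
      have h2 := nf_tendsto ι hne'
      have h3 : Tendsto (fun s : Λ => s * (t * t'⁻¹) * s⁻¹) (nf ι) cofinite := by
        rw [tendsto_def]
        intro C hC
        rw [mem_cofinite] at hC
        have h4 : (ι '' Cᶜ)ᶜ ∈ cofinite := by
          rw [mem_cofinite, compl_compl]
          exact hC.image ι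
        filter_upwards [h2 h4] with s hs
        by_contra hcon
        refine hs ⟨_, hcon, ?_⟩
        rw [map_mul, map_mul, map_inv]
      exact (Cf_c0 (FS.mat I Λ) (α 1) (α 1)).comp h3
  have hQ : ∀ t t' : Λ, Tendsto (fun s => ∑ i : I, B (dl (i, s * t')) (i, s * t)) (nf ι)
      (𝓝 (if t = t' then c else 0)) := by
    intro t t'
    simp only [hBdef, sum_diag f hS.r hS'.r]
    by_cases hy : ι t * x * (ι t')⁻¹ = 1
    · -- then `x = 1` and `t = t'`
      have h1 : x = ι (t⁻¹ * t') := by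
        rw [map_mul, map_inv]
        calc x = (ι t)⁻¹ * (ι t * x * (ι t')⁻¹) * ι t' := by group
          _ = _ := by rw [hy]; group
      rcases hx with ⟨hx, hc⟩ | ⟨hx, hc⟩
      · have h2 : t = t' := by
          rw [hx] at h1
          have h3 : t⁻¹ * t' = 1 := hinj (by rw [← h1, map_one])
          exact (inv_mul_eq_one.mp h3)
        rw [if_pos h2, hy, hc]
        have e1 : ∀ s : Λ, ι s * 1 * (ι s)⁻¹ = 1 := fun s => by group
        simp only [e1]
        exact tendsto_const_nhds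
      · exact absurd ⟨_, h1.symm⟩ hx
    · have h0 : (if t = t' then c else (0 : ℂ)) = 0 := by
        split_ifs with h1
        · rcases hx with ⟨hx, hc⟩ | ⟨hx, hc⟩
          · exfalso
            apply hy
            rw [h1, hx]
            group
          · exact hc
        · rfl
      rw [h0]
      exact (Cf_c0 f S S').comp (nf_tendsto ι hy)
  apply ext_inner_dl
  rintro ⟨k, t⟩
  have h1 := Ph_lim hP k t (B v)
  have h2 := Ph_lim hQ k t (α 1 v)
  simp only [hα.Ph_cross hB hpB hBp] at h1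
  exact tendsto_nhds_unique h1 h2

/-- the trace of the projection, as a real number -/
noncomputable def dm (α : Γ → (Ell2 (I × Λ) →L[ℂ] Ell2 (I × Λ))) : ℝ :=
  ∑ i : I, ‖α 1 (dl (i, 1))‖ ^ 2

theorem tr_p (hα : AF α) : (FS.mat I Λ).tr (α 1) = (dm α : ℂ) := by
  unfold FS.tr dm
  push_cast
  refine Finset.sum_congr rfl fun i _ => ?_
  rw [FS.mat_base, ← hα.pp_apply, ← hα.p_left, hα.pp_apply, inner_self_eq_norm_sq_to_K]
  rfl

theorem dm_pos (hα : AF α) : 0 < dm α := by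
  unfold dm
  by_contra hcon
  push Not at hcon
  have h0 : ∑ i : I, ‖α 1 (dl (i, 1))‖ ^ 2 = 0 :=
    le_antisymm hcon (Finset.sum_nonneg fun _ _ => by positivity)
  have h1 := (Finset.sum_eq_zero_iff_of_nonneg (fun _ _ => by positivity)).mp h0
  apply hα.ne
  refine (FS.mat I Λ).ext_base (FS.mat I Λ) (hα.comm 1) (fun x v => by simp) fun i => ?_
  have h2 := h1 i (Finset.mem_univ i)
  have h3 : ‖α 1 (dl (i, 1))‖ = 0 := (pow_eq_zero_iff two_ne_zero).mp h2
  exact norm_eq_zero.mp h3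

/-- The coefficients vanish off the diagonal. -/
theorem It.coef_zero (hα : AF α) (hA : Tgt f A) (hinj : Function.Injective ι)
    (hι : ∀ x : K, x ≠ 1 → Set.Infinite {y | ∃ s : Λ, y = ι s * x * (ι s)⁻¹})
    {S S' : Ell2 (I × Λ) →L[ℂ] Ell2 Z} (hS : It α f ι A S) (hS' : It α f ι A S') {x : K}
    (hx : x ∉ Set.range ι) (v : Ell2 (I × Λ)) : adjoint S (f.R x (S' v)) = 0 := by
  have h := hS.coef_aux hα hA hinj hι hS' x 0 (Or.inr ⟨hx, rfl⟩) v
  rw [zero_smul, tr_p hα] at h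
  exact (smul_eq_zero.mp h).resolve_left (by exact_mod_cast (dm_pos hα).ne')

/-- The products `S* S'` are multiples of the projection. -/
theorem It.coef_one (hα : AF α) (hA : Tgt f A) (hinj : Function.Injective ι)
    (hι : ∀ x : K, x ≠ 1 → Set.Infinite {y | ∃ s : Λ, y = ι s * x * (ι s)⁻¹})
    {S S' : Ell2 (I × Λ) →L[ℂ] Ell2 Z} (hS : It α f ι A S) (hS' : It α f ι A S') :
    ∃ c : ℂ, ∀ v, adjoint S (S' v) = c • α 1 v := by
  refine ⟨((dm α : ℂ))⁻¹ * Cf f S S' 1, fun v => ?_⟩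
  have h := hS.coef_aux hα hA hinj hι hS' 1 _ (Or.inl ⟨rfl, rfl⟩) v
  have h0 : (dm α : ℂ) ≠ 0 := by exact_mod_cast (dm_pos hα).ne'
  rw [tr_p hα, f.R_one_apply] at h
  rw [mul_smul, ← h, inv_smul_smul₀ h0]

end side

end Vale.Agent.P092.H103
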