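import Vale.Agent.P092.H103.Cub2
import Vale.Agent.P092.H160.Eig

/-!
The slices of the invariant cubic intertwiner commute, and have a common eigenvector.
-/

set_option linter.all false

open scoped InnerProductSpace
open Filter Topology ContinuousLinearMap
open Vale.Agent.P092.H160

namespace Vale.Agent.P092.H103

section gen

variable {X : Type} {T : Ell2 X →L[ℂ] Ell2 (X × (X × X))}

/-- fivefold product -/
abbrev X5 (X : Type) : Type := X × (X × (X × (X × X)))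

/-- `(1 ⊗ 1 ⊗ T) T` -/
noncomputable def U5 (T : Ell2 X →L[ℂ] Ell2 (X × (X × X))) : Ell2 X →L[ℂ] Ell2 (X5 X) :=
  ampR X (ampR X T) ∘L T

/-- The slices of `T`. -/
noncomputable def Lo (T : Ell2 X →L[ℂ] Ell2 (X × (X × X))) (b c : X) : Ell2 X →L[ℂ] Ell2 X :=
  slL X c ∘L slL (X × X) b ∘L T

theorem Lo_apply (b c d : X) (a : Ell2 X) : Lo T b c a d = T a (b, (c, d)) := rfl

theorem U5_apply (a : Ell2 X) (b c b' c' d : X) :
    U5 T a (b, (c, (b', (c', d)))) = Lo T b' c' (Lo T b c a) d := rfl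

theorem Lo_adj (hT : Sy T) (b c : X) : adjoint (Lo T b c) = Lo T c b := by
  apply op_ext
  intro d
  apply ext_inner_dl
  intro a
  rw [← inner_dl, adjoint_inner_right, inner_dl_right, Lo_apply, Lo_apply, hT.hc, hT.bd, hT.ac]

/-- exchange of the first two pairs of coordinates -/
def x5 (X : Type) : X5 X ≃ X5 X where
  toFun x := (x.2.2.1, (x.2.2.2.1, (x.1, (x.2.1, x.2.2.2.2))))
  invFun x := (x.2.2.1, (x.2.2.2.1, (x.1, (x.2.1, x.2.2.2.2))))
  left_inv _ := rfl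
  right_inv _ := rfl

theorem rei_x5_tv (u v w x y : Ell2 X) : rei (x5 X) (tv u (tv v (tv w (tv x y)))) =
    tv w (tv x (tv u (tv v y))) := by
  apply ext_inner_dl
  rintro ⟨a, b, c, d, e⟩
  change u c * (v d * (w a * (x b * y e))) = w a * (x b * (u c * (v d * y e)))
  ring

theorem rei_x5_tens (A B C : Ell2 X →L[ℂ] Ell2 X) :
    rei (x5 X) ∘L tens A (tens B (tens A (tens B C))) =
      tens A (tens B (tens A (tens B C))) ∘L rei (x5 X) := by
  apply op_ext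
  rintro ⟨a, b, c, d, e⟩
  rw [comp_apply, comp_apply, tens_dl, tens_dl, tens_dl, tens_dl, rei_x5_tv, rei_dl]
  change _ = tens A (tens B (tens A (tens B C))) (dl (c, (d, (a, (b, e)))))
  rw [tens_dl, tens_dl, tens_dl, tens_dl]

theorem comp_eq_of' {S : Ell2 X →L[ℂ] Ell2 X} {R : Ell2 (X × (X × X)) →L[ℂ] Ell2 (X × (X × X))}
    (h : T ∘L S = R ∘L T) (A B : Ell2 X →L[ℂ] Ell2 X) (v : Ell2 (X × (X × X))) :
    ampR X (ampR X T) (tens A (tens B S) v) =
      tens A (tens B R) (ampR X (ampR X T) v) := by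
  have h1 := ampR_comp_tens B S R T h
  have h2 := ampR_comp_tens A (tens B S) (tens B R) (ampR X T) h1
  exact congrArg (fun L : Ell2 (X × (X × X)) →L[ℂ] Ell2 (X5 X) => L v) h2

theorem Lo_ne {y : X} (hy : T (dl y) (y, (y, y)) ≠ 0) : Lo T y y (dl y) ≠ 0 := by
  intro h
  have h1 : Lo T y y (dl y) y = 0 := by rw [h]; rfl
  rw [Lo_apply] at h1
  exact hy h1

theorem U5_corner (hT : Sy T) {y : X} (hy : T (dl y) (y, (y, y)) ≠ 0) :
    U5 T (dl y) (y, (y, (y, (y, y)))) ≠ 0 := by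
  rw [U5_apply, ← inner_dl, ← adjoint_inner_left, Lo_adj hT]
  exact inner_self_ne_zero.mpr (Lo_ne hy)

/-- commutation of the slices from the symmetry of `U5` -/
theorem Lo_comm_of (hT : Sy T) {y : X} (hy : T (dl y) (y, (y, y)) ≠ 0) {κ : ℂ}
    (hκ : rei (x5 X) ∘L U5 T = κ • U5 T) (b c b' c' : X) (v : Ell2 X) :
    Lo T b' c' (Lo T b c v) = Lo T b c (Lo T b' c' v) := by
  have hκ' : ∀ v x, U5 T v ((x5 X).symm x) = κ * U5 T v x := by
    intro v x
    have h1 : (rei (x5 X) ∘L U5 T) v = (κ • U5 T) v := by rw [hκ]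
    exact congrArg (fun u : Ell2 (X5 X) => u x) h1
  have h1 : κ = 1 := by
    have h2 := hκ' (dl y) (y, (y, (y, (y, y))))
    change U5 T (dl y) (y, (y, (y, (y, y)))) = κ * U5 T (dl y) (y, (y, (y, (y, y)))) at h2
    have h3 := U5_corner hT hy
    exact mul_right_cancel₀ h3 (by rw [one_mul]; exact h2.symm)
  apply ext_inner_dl
  intro d
  rw [← U5_apply, ← U5_apply]
  have h2 := hκ' v (b', (c', (b, (c, d))))
  rw [h1, one_mul] at h2
  exact h2

theorem Lo_dl (hT : Sy T) (y d : X) : Lo T y y (dl d) = sl (sl (T (dl y)) y) d := by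
  apply ext_inner_dl
  intro a
  rw [Lo_apply, hT.ac]
  rfl

theorem compact_Lo (hT : Sy T) (y : X) : IsCompactOperator (Lo T y y) := by
  refine compact_of_hs ?_
  simp only [Lo_adj hT, Lo_dl hT]
  exact (hasSum_sl _).summable

theorem symm_Lo (hT : Sy T) (y : X) : (Lo T y y : Ell2 X →ₗ[ℂ] Ell2 X).IsSymmetric := by
  rw [← ContinuousLinearMap.isSelfAdjoint_iff_isSymmetric, ContinuousLinearMap.isSelfAdjoint_iff',
    Lo_adj hT]

/-- A common eigenvector of all the slices. -/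
theorem exists_eig' (hT : Sy T) {y : X} (hy : T (dl y) (y, (y, y)) ≠ 0)
    (hc : ∀ b c b' c' v, Lo T b' c' (Lo T b c v) = Lo T b c (Lo T b' c' v)) :
    ∃ e : Ell2 X, ‖e‖ = 1 ∧ ∃ M : X → X → ℂ, M y y ≠ 0 ∧ ∀ b c, Lo T b c e = M b c • e := by
  have hne : Lo T y y ≠ 0 := fun h => Lo_ne hy (by rw [h]; rfl)
  have h1 := (ContinuousLinearMap.eq_zero_of_forall_hasEigenvalue_eq_zero (compact_Lo hT y)
    (symm_Lo hT y)).not.mpr hne
  push Not at h1
  obtain ⟨μ, hμ, hμ0⟩ := h1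
  have hfd := ContinuousLinearMap.finite_dimensional_eigenspace (compact_Lo hT y) μ hμ0
  obtain ⟨e, he, he0, hf⟩ := common_eig
    (fun p : X × X => (Lo T p.1 p.2 : Ell2 X →ₗ[ℂ] Ell2 X))
    (fun i j v => hc _ _ _ _ v) _
    (Module.End.eigenspace (Lo T y y : Ell2 X →ₗ[ℂ] Ell2 X) μ) hfd rfl hμ (fun i w hw => by
      rw [Module.End.mem_eigenspace_iff] at hw ⊢
      change Lo T y y (Lo T i.1 i.2 w) = μ • Lo T i.1 i.2 w
      have hw' : Lo T y y w = μ • w := hw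
      rw [hc, hw', map_smul])
  rw [Module.End.mem_eigenspace_iff] at he
  have he' : Lo T y y e = μ • e := he
  choose N hN using fun b c => hf (b, c)
  have hn : ‖e‖ ≠ 0 := norm_ne_zero_iff.mpr he0
  refine ⟨((‖e‖⁻¹ : ℝ) : ℂ) • e, by rw [norm_smul]; simp [hn], N, ?_, fun b c => ?_⟩
  · have h2 : N y y • e = μ • e := by rw [← he']; exact (hN y y).symm
    rw [smul_left_injective ℂ he0 h2]
    exact hμ0
  · rw [map_smul, smul_comm]
    congr 1
    exact hN b c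

/-- exchange of the first and third coordinates -/
def x13 (X : Type) : X × (X × X) ≃ X × (X × X) where
  toFun x := (x.2.2, (x.2.1, x.1))
  invFun x := (x.2.2, (x.2.1, x.1))
  left_inv _ := rfl
  right_inv _ := rfl

theorem bd_vec' (hT : Sy T) (v : Ell2 X) (b c d : X) : T v (b, (c, d)) = T v (d, (c, b)) := by
  have h : T = rei (x13 X) ∘L T := by
    apply op_ext
    intro a
    apply ext_inner_dl
    rintro ⟨b, c, d⟩
    exact hT.bd a b c d
  have h2 : T v (b, (c, d)) = (rei (x13 X) ∘L T) v (b, (c, d)) := by rw [← h]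
  exact h2

/-- The form of `T` on a common eigenvector. -/
theorem exists_cubic' (hT : Sy T) {y : X} (hy : T (dl y) (y, (y, y)) ≠ 0)
    (hc : ∀ b c b' c' v, Lo T b' c' (Lo T b c v) = Lo T b c (Lo T b' c' v)) :
    ∃ e : Ell2 X, ‖e‖ = 1 ∧ ∃ κ : ℂ, κ ≠ 0 ∧ T e = κ • tv e (tv (cj e) e) := by
  obtain ⟨e, he, M, hM0, hM⟩ := exists_eig' hT hy hc
  refine ⟨e, he, ?_⟩
  have he0 : e ≠ 0 := fun h => by rw [h, norm_zero] at he; exact zero_ne_one he
  obtain ⟨d₀, hd₀⟩ : ∃ d, e d ≠ 0 := by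
    by_contra h
    push Not at h
    exact he0 (eq_zero_of_inner_dl h)
  have hTe : ∀ b c d, T e (b, (c, d)) = M b c * e d := fun b c d => by
    rw [← Lo_apply, hM]; rfl
  have h1 : ∀ b c, M b c * e d₀ = M d₀ c * e b := fun b c => by
    rw [← hTe, ← hTe, bd_vec' hT]
  have h2 : ∀ b c, M b c = (starRingEnd ℂ) (M c b) := by
    intro b c
    have e1 : ⟪e, Lo T b c e⟫_ℂ = M b c := by
      rw [hM, inner_smul_right, inner_self_eq_norm_sq_to_K, he]; simp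
    have e2 : ⟪e, Lo T b c e⟫_ℂ = (starRingEnd ℂ) (M c b) := by
      rw [← adjoint_inner_left, Lo_adj hT, hM, inner_smul_left, inner_self_eq_norm_sq_to_K,
        he]
      simp
    rw [← e1, e2]
  set κ : ℂ := (starRingEnd ℂ) (M d₀ d₀ / e d₀) / e d₀ with hκ
  have h3 : ∀ b c, M b c = κ * e b * (starRingEnd ℂ) (e c) := by
    intro b c
    have e1 : M b c = M d₀ c * e b / e d₀ := by
      rw [eq_div_iff hd₀]; exact h1 b c
    have e2 : M c d₀ = M d₀ d₀ * e c / e d₀ := by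
      rw [eq_div_iff hd₀]; exact h1 c d₀
    rw [e1, h2 d₀ c, e2, hκ, map_div₀, map_div₀, map_mul]
    ring
  refine ⟨κ, ?_, ?_⟩
  · intro h
    apply hM0
    rw [h3, h, zero_mul, zero_mul]
  · apply ext_inner_dl
    rintro ⟨b, c, d⟩
    rw [hTe, h3]
    change κ * e b * (starRingEnd ℂ) (e c) * e d = κ * (e b * ((starRingEnd ℂ) (e c) * e d))
    ring

end gen

section frame

variable {Γ Λ I : Type} [Group Γ] [Group Λ] [Fintype I]
  {α : Γ → (Ell2 (I × Λ) →L[ℂ] Ell2 (I × Λ))}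

/-- the diagonal embeddings -/
def j3 (Λ : Type) [Group Λ] : Λ →* Λ × (Λ × Λ) := dgl (dgl (MonoidHom.id Λ))

/-- the diagonal embeddings -/
def j5 (Λ : Type) [Group Λ] : Λ →* Λ × (Λ × (Λ × (Λ × Λ))) := dgl (dgl (j3 Λ))

theorem j3_apply (s : Λ) : j3 Λ s = (s, (s, s)) := rfl

theorem j5_apply (s : Λ) : j5 Λ s = (s, (s, (s, (s, s)))) := rfl

/-- the action on the fivefold product -/
def f5 (I Λ : Type) [Group Λ] :
    FS (Λ × (Λ × (Λ × (Λ × Λ)))) (X5 (I × Λ)) (I × (I × (I × (I × I)))) :=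
  (FS.mat I Λ).prod ((FS.mat I Λ).prod (f3 I Λ))

variable (α) in
/-- `α ⊗ conj α ⊗ α ⊗ conj α ⊗ α`. -/
noncomputable def A5' (g : Γ) : Ell2 (X5 (I × Λ)) →L[ℂ] Ell2 (X5 (I × Λ)) :=
  tens (α g) (tens (bar (α g)) (A3' α g))

theorem A5'_tgt (hα : AF α) : Tgt (f5 I Λ) (A5' α) where
  mul g h := by
    unfold A5'
    rw [hα.mul, bar_mul, (A3'_tgt hα).mul, tens_mul, tens_mul]
  adj g := by
    unfold A5'
    rw [adjoint_tens, adjoint_tens, adjoint_bar, hα.adj, (A3'_tgt hα).adj]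
  comm g := eqv_tens _ _ (hα.comm _) (eqv_tens _ _ (eqv_bar _ (hα.comm _)) ((A3'_tgt hα).comm _))

theorem tr_A5' (hα : AF α) : (f5 I Λ).tr (A5' α 1) = ((dm α ^ 5 : ℝ) : ℂ) := by
  unfold f5 A5'
  rw [tr_tens, tr_tens, tr_bar, tr_A3'_one hα, tr_p hα, Complex.conj_ofReal]
  push_cast
  ring

variable {T : Ell2 (I × Λ) →L[ℂ] Ell2 (Y3 I Λ)}

theorem it_T (hT : Hm α T) (hTα : ∀ g v, T (α g v) = A3' α g (T v)) :
    It α (f3 I Λ) (j3 Λ) (A3' α) T := ⟨hT.r, hTα, hT.p⟩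

theorem f3_R_diag (s : Λ) : (f3 I Λ).R (s, (s, s)) =
    tens ((FS.mat I Λ).R s) (tens ((FS.mat I Λ).R s) ((FS.mat I Λ).R s)) := by
  unfold f3
  rw [FS.prod_R, FS.prod_R]

theorem f5_R_diag (s : Λ) : (f5 I Λ).R (j5 Λ s) =
    tens ((FS.mat I Λ).R s) (tens ((FS.mat I Λ).R s) ((f3 I Λ).R (s, (s, s)))) := by
  rw [j5_apply]
  unfold f5
  rw [FS.prod_R, FS.prod_R]

theorem it_U5 (hT : Hm α T) (hTα : ∀ g v, T (α g v) = A3' α g (T v)) :
    It α (f5 I Λ) (j5 Λ) (A5' α) (U5 T) := by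
  refine ⟨fun s v => ?_, fun g v => ?_, fun v => ?_⟩
  · have h : T ∘L (FS.mat I Λ).R s = (f3 I Λ).R (s, (s, s)) ∘L T := by
      ext1 v
      exact hT.r s v
    change ampR (I × Λ) (ampR (I × Λ) T) (T ((FS.mat I Λ).R s v)) =
      (f5 I Λ).R (j5 Λ s) (ampR (I × Λ) (ampR (I × Λ) T) (T v))
    rw [hT.r, f5_R_diag, f3_R_diag, comp_eq_of' (R := (f3 I Λ).R (s, (s, s))) h, f3_R_diag]
  · have h : T ∘L α g = A3' α g ∘L T := by
      ext1 v
      exact hTα g v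
    change ampR (I × Λ) (ampR (I × Λ) T) (T (α g v)) =
      A5' α g (ampR (I × Λ) (ampR (I × Λ) T) (T v))
    rw [hTα]
    exact comp_eq_of' h (α g) (bar (α g)) (T v)
  · change ampR (I × Λ) (ampR (I × Λ) T) (T (α 1 v)) = ampR (I × Λ) (ampR (I × Λ) T) (T v)
    rw [hT.p]

theorem it_U5' (hT : Hm α T) (hTα : ∀ g v, T (α g v) = A3' α g (T v)) :
    It α (f5 I Λ) (j5 Λ) (A5' α) (rei (x5 (I × Λ)) ∘L U5 T) := by
  have hU := it_U5 hT hTα
  refine ⟨fun s v => ?_, fun g v => ?_, fun v => ?_⟩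
  · rw [comp_apply, comp_apply, hU.r]
    have h := rei_x5_tens ((FS.mat I Λ).R s) ((FS.mat I Λ).R s) ((FS.mat I Λ).R s)
    rw [← f3_R_diag, ← f5_R_diag] at h
    exact congrArg (fun L : Ell2 (X5 (I × Λ)) →L[ℂ] Ell2 (X5 (I × Λ)) => L (U5 T v)) h
  · rw [comp_apply, comp_apply, hU.a]
    exact congrArg (fun L : Ell2 (X5 (I × Λ)) →L[ℂ] Ell2 (X5 (I × Λ)) => L (U5 T v))
      (rei_x5_tens (α g) (bar (α g)) (α g))
  · rw [comp_apply, comp_apply, hU.p]

theorem Lo_comm' (hα : AF α) (hΓ : ∀ s : Γ, s ≠ 1 → Set.Infinite {y : Γ | ∃ h, y = h * s * h⁻¹})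
    (hΛ : ∀ s : Λ, s ≠ 1 → Set.Infinite {y : Λ | ∃ h, y = h * s * h⁻¹})
    (hT : Gd α T) (hTα : ∀ g v, T (α g v) = A3' α g (T v)) {y : I × Λ}
    (hy : T (dl y) (y, (y, y)) ≠ 0) (b c b' c' : I × Λ) (v : Ell2 (I × Λ)) :
    Lo T b' c' (Lo T b c v) = Lo T b c (Lo T b' c' v) := by
  have hT0 : T ≠ 0 := by
    intro h
    apply hy
    rw [h]
    rfl
  have hd : dm α = 1 := dm_one hα hΓ hΛ (it_T hT.hm hTα) hT0
  have hU0 : U5 T ≠ 0 := by
    intro h
    apply U5_corner hT.sy hy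
    rw [h]
    rfl
  obtain ⟨κ, hκ⟩ := mult_one' (ι' := dgl (j3 Λ)) hα (A5'_tgt hα) hΛ
    (dgl_icc hΛ (dgl_icc hΛ (dgl_icc hΛ (ι' := MonoidHom.id Λ) hΛ)))
    (it_U5 hT.hm hTα) hU0 (by rw [tr_A5' hα, hd, one_pow]) (it_U5' hT.hm hTα)
  exact Lo_comm_of hT.sy hy hκ b c b' c' v

end frame

end Vale.Agent.P092.H103
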