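import Vale.Agent.P092.H103.Can
import Vale.Agent.P092.H108.Iso

/-!
Isomorphisms of a von Neumann algebra onto a corner scale the trace.
-/

set_option linter.all false

open Filter Topology ContinuousLinearMap
open scoped InnerProductSpace ComplexOrder
open Vale.Agent.P092.H160
open Vale.Agent.P092.H108 (DC mono_limit anti_limit le_one_of norm_le_of inner_le_of_le ff ff_nonneg
  ff_le ff_mono norm_ff le_two_ff)

namespace Vale.Agent.P092.H103

section iso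

variable {H K : Type} [NormedAddCommGroup H] [InnerProductSpace ℂ H] [CompleteSpace H]
  [NormedAddCommGroup K] [InnerProductSpace ℂ K] [CompleteSpace K]
variable {M : StarSubalgebra ℂ (H →L[ℂ] H)}

/-- An order isomorphism onto a weakly closed set of operators. -/
structure OI (M : StarSubalgebra ℂ (H →L[ℂ] H)) (C : Set (K →L[ℂ] K)) (θ : M → (K →L[ℂ] K)) :
    Prop where
  lim : ∀ (T : ℕ → (K →L[ℂ] K)) (l : Ultrafilter ℕ) (L : K →L[ℂ] K), (∀ i, T i ∈ C) →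
    (∀ ξ η : K, Tendsto (fun i => inner ℂ ξ (T i η)) l (𝓝 (inner ℂ ξ (L η)))) → L ∈ C
  mem : ∀ x, θ x ∈ C
  add : ∀ x y, θ (x + y) = θ x + θ y
  inj : Function.Injective θ
  pos : ∀ x : M, 0 ≤ (x : H →L[ℂ] H) → 0 ≤ θ x
  one : θ 1 ≤ 1
  sur : ∀ X ∈ C, 0 ≤ X → ∃ y : M, θ y = X ∧ 0 ≤ (y : H →L[ℂ] H)

variable {C : Set (K →L[ℂ] K)} {θ : M → (K →L[ℂ] K)}

theorem OI.zero (h : OI M C θ) : θ 0 = 0 := by
  have := h.add 0 0
  rw [add_zero] at this
  exact (left_eq_add.mp this)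

theorem OI.sub (h : OI M C θ) (x y : M) : θ (x - y) = θ x - θ y := by
  have := h.add (x - y) y
  rw [sub_add_cancel] at this
  rw [this, add_sub_cancel_right]

theorem OI.mono (h : OI M C θ) {x y : M} (hxy : (x : H →L[ℂ] H) ≤ y) : θ x ≤ θ y := by
  have h1 : 0 ≤ ((y - x : M) : H →L[ℂ] H) := sub_nonneg.2 hxy
  have h2 := h.pos _ h1
  rw [h.sub] at h2
  exact sub_nonneg.1 h2

theorem OI.le (h : OI M C θ) {x y : M} (hxy : θ x ≤ θ y) : (x : H →L[ℂ] H) ≤ y := by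
  have h1 : 0 ≤ θ (y - x) := by rw [h.sub]; exact sub_nonneg.2 hxy
  obtain ⟨z, hz, hz0⟩ := h.sur _ (h.mem _) h1
  have h2 := h.inj hz
  rw [h2] at hz0
  exact sub_nonneg.1 hz0

theorem nkey (hM : DC M) (hθ : OI M C θ) (e : H)
    (he : ∀ T ∈ M, T e = 0 → T = 0) (f : K)
    (y : ℕ → M) (h1 : ∀ n, ‖(y n : H →L[ℂ] H)‖ ≤ 1)
    (h2 : ∀ n, ‖(y n : H →L[ℂ] H) e‖ ^ 2 ≤ (1 / 4) ^ n) (c : ℝ) (hc : 0 < c)
    (h3 : ∀ n, c ≤ (inner ℂ f ((θ (star (y n) * y n)) f)).re) : False := by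
  obtain ⟨a, ha⟩ : ∃ a : ℕ → M, a = fun n => star (y n) * y n := ⟨_, rfl⟩
  have ha0 : ∀ n, 0 ≤ (a n : H →L[ℂ] H) := by
    intro n
    rw [ha]
    exact star_mul_self_nonneg (y n : H →L[ℂ] H)
  have ha1 : ∀ n, (a n : H →L[ℂ] H) ≤ 1 := by
    intro n
    refine le_one_of (ha0 n) ?_
    rw [ha]
    change ‖star (y n : H →L[ℂ] H) * (y n : H →L[ℂ] H)‖ ≤ 1
    rw [CStarRing.norm_star_mul_self]
    exact mul_le_one₀ (h1 n) (norm_nonneg _) (h1 n)
  have hat : ∀ n, (inner ℂ e ((a n : H →L[ℂ] H) e)).re ≤ (1 / 4) ^ n := by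
    intro n
    have h5 : inner ℂ e ((a n : H →L[ℂ] H) e) = ((‖(y n : H →L[ℂ] H) e‖ ^ 2 : ℝ) : ℂ) := by
      rw [ha]
      change inner ℂ e ((star (y n : H →L[ℂ] H)) ((y n : H →L[ℂ] H) e)) = _
      rw [← H108.star_apply_inner, star_star, inner_self_eq_norm_sq_to_K]
      norm_cast
    rw [h5, Complex.ofReal_re]
    exact h2 n
  obtain ⟨b, hb⟩ : ∃ b : ℕ → ℕ → M, b = fun N K => ∑ k ∈ Finset.range K, a (N + k) := ⟨_, rfl⟩
  have hbc : ∀ N K, (b N K : H →L[ℂ] H) = ∑ k ∈ Finset.range K, (a (N + k) : H →L[ℂ] H) := by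
    intro N K
    rw [hb]
    simp only [AddSubmonoidClass.coe_finsetSum]
  have hb0 : ∀ N K, 0 ≤ (b N K : H →L[ℂ] H) := by
    intro N K
    rw [hbc]
    exact Finset.sum_nonneg fun k _ => ha0 _
  have hbm : ∀ N K, (b N K : H →L[ℂ] H) ≤ b N (K + 1) := by
    intro N K
    rw [hbc, hbc, Finset.sum_range_succ]
    exact le_add_of_nonneg_right (ha0 _)
  have hbs : ∀ N K, (b (N + 1) K : H →L[ℂ] H) ≤ b N (K + 1) := by
    intro N K
    rw [hbc, hbc, Finset.sum_range_succ', add_zero]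
    have h : ∀ k, N + 1 + k = N + (k + 1) := fun k => by ring
    simp only [h]
    exact le_add_of_nonneg_right (ha0 _)
  have hbt : ∀ N K, (inner ℂ e ((b N K : H →L[ℂ] H) e)).re ≤ 2 * (1 / 4) ^ N := by
    intro N K
    rw [hbc, sum_apply, inner_sum, Complex.re_sum]
    calc ∑ k ∈ Finset.range K, (inner ℂ e ((a (N + k) : H →L[ℂ] H) e)).re
        ≤ ∑ k ∈ Finset.range K, (1 / 4 : ℝ) ^ N * (1 / 4) ^ k := by
          refine Finset.sum_le_sum fun k _ => ?_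
          rw [← pow_add]
          exact hat _
      _ = (1 / 4 : ℝ) ^ N * ∑ k ∈ Finset.range K, (1 / 4 : ℝ) ^ k := by rw [Finset.mul_sum]
      _ ≤ (1 / 4 : ℝ) ^ N * 2 := by
          gcongr
          have := Summable.sum_le_tsum (Finset.range K) (fun k _ => by positivity)
            (summable_geometric_of_lt_one (by norm_num : (0 : ℝ) ≤ 1 / 4) (by norm_num))
          rw [tsum_geometric_of_lt_one (by norm_num) (by norm_num)] at this
          norm_num at this ⊢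
          linarith
      _ = _ := by ring
  -- the suprema
  have hs : ∀ N, ∃ s : M, ‖(s : H →L[ℂ] H)‖ ≤ 1 ∧
      (∀ K, ff (b N K : H →L[ℂ] H) ≤ s) ∧
      (∀ S : H →L[ℂ] H, (∀ K, ff (b N K : H →L[ℂ] H) ≤ S) → s ≤ S) ∧
      (inner ℂ e ((s : H →L[ℂ] H) e)).re ≤ 2 * (1 / 4) ^ N := by
    intro N
    obtain ⟨L, U, h1, h2, h3, h4⟩ := mono_limit
      (T := fun K => ff (b N K : H →L[ℂ] H)) (fun K => norm_ff _)
      (monotone_nat_of_le_succ fun K => ff_mono (hb0 _ _) (hbm _ _))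
    refine ⟨⟨L, hM.mem_of_tendsto (fun K => hM.ff_mem (b N K).2) h4⟩, h1, h2, h3, ?_⟩
    refine le_of_tendsto ((Complex.continuous_re.tendsto _).comp (h4 e e)) ?_
    refine Eventually.of_forall fun K => ?_
    exact (inner_le_of_le (ff_le (hb0 N K)) _).trans (hbt N K)
  choose s hs1 hs2 hs3 hs4 using hs
  have hs0 : ∀ N, 0 ≤ (s N : H →L[ℂ] H) := fun N => (H108.ff_nonneg _).trans (hs2 N 0)
  have hsm : ∀ N, (s (N + 1) : H →L[ℂ] H) ≤ s N := by
    intro N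
    refine hs3 _ _ fun K => ?_
    exact (ff_mono (hb0 _ _) (hbs _ _)).trans (hs2 N (K + 1))
  obtain ⟨L, U, hL1, hL2, hL3, hL4⟩ := anti_limit hs1 (antitone_nat_of_succ_le hsm)
  have hLm : L ∈ M := hM.mem_of_tendsto (fun K => (s K).2) hL4
  have hL0 : 0 ≤ L := hL3 0 hs0
  have hLz : L = 0 := by
    obtain ⟨c, hc, hcL⟩ := hM.sqrt_mem hLm hL0
    have h5 : ∀ N : ℕ, (inner ℂ e (L e)).re ≤ 2 * (1 / 4) ^ N := fun N =>
      (inner_le_of_le (hL2 N) _).trans (hs4 N)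
    have h6 : Tendsto (fun N : ℕ => 2 * (1 / 4 : ℝ) ^ N) atTop (𝓝 (2 * 0)) :=
      (tendsto_pow_atTop_nhds_zero_of_lt_one (by norm_num) (by norm_num)).const_mul _
    rw [mul_zero] at h6
    have h7 := ge_of_tendsto' h6 h5
    have h8 : inner ℂ e (L e) = ((‖c e‖ ^ 2 : ℝ) : ℂ) := by
      rw [← hcL]
      change inner ℂ e ((star c) (c e)) = _
      rw [← H108.star_apply_inner, star_star, inner_self_eq_norm_sq_to_K]
      norm_cast
    rw [h8, Complex.ofReal_re] at h7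
    have h9 : c e = 0 := by
      rw [← norm_eq_zero]
      exact pow_eq_zero_iff (two_ne_zero) |>.1 (le_antisymm h7 (sq_nonneg _))
    rw [← hcL, he c hc h9, mul_zero]
  -- the other side
  have ht0 : ∀ N, 0 ≤ θ (s N) := fun N => hθ.pos _ (hs0 N)
  have ht1 : ∀ N, ‖θ (s N)‖ ≤ 1 := by
    intro N
    refine norm_le_of (ht0 N) ?_
    have h5 : (s N : H →L[ℂ] H) ≤ (1 : M) := le_one_of (hs0 N) (hs1 N)
    exact (hθ.mono h5).trans hθ.one
  obtain ⟨R, V, hM1, hM2, hM3, hM4⟩ := anti_limit ht1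
    (antitone_nat_of_succ_le fun N => hθ.mono (hsm N))
  have hMm : R ∈ C := hθ.lim _ V R (fun K => hθ.mem (s K)) hM4
  have hM0 : 0 ≤ R := hM3 0 ht0
  obtain ⟨z, hz, hz0⟩ := hθ.sur R hMm hM0
  have hMz' : R = 0 := by
    have h5 : ∀ N, (z : H →L[ℂ] H) ≤ s N := fun N => hθ.le (by rw [hz]; exact hM2 N)
    have h6 := hL3 _ h5
    rw [hLz] at h6
    have h8 : z = 0 := Subtype.ext (le_antisymm h6 hz0)
    rw [← hz, h8, hθ.zero]
  have h5 : ∀ N, c / 2 ≤ (inner ℂ f (θ (s N) f)).re := by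
    intro N
    have h6 : (a N : H →L[ℂ] H) ≤ (s N + s N : M) := by
      have h7 : ff (a N : H →L[ℂ] H) ≤ s N := by
        have h8 := hs2 N 1
        have h9 : b N 1 = a N := by
          rw [hb]
          simp
        rwa [h9] at h8
      exact (le_two_ff (ha0 N) (ha1 N)).trans (add_le_add h7 h7)
    have h7 := inner_le_of_le (hθ.mono h6) f
    have h8 : θ (s N + s N) f = θ (s N) f + θ (s N) f := by
      rw [hθ.add]
      rfl
    rw [h8, inner_add_right, Complex.add_re] at h7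
    have h9 := h3 N
    rw [ha] at h7
    linarith
  have h6 := (Complex.continuous_re.tendsto _).comp (hM4 f f)
  rw [hMz'] at h6
  have h7 := ge_of_tendsto h6 (Eventually.of_forall h5)
  simp at h7
  linarith

/-- the subsequence version for finitely many vectors -/
theorem nkey_fin (hM : DC M) (hθ : OI M C θ) (e : H)
    (he : ∀ T ∈ M, T e = 0 → T = 0) {J : Type} [Fintype J] (f : J → K)
    (y : ℕ → M) (h1 : ∀ n, ‖(y n : H →L[ℂ] H)‖ ≤ 1)
    (h2 : ∀ n, ‖(y n : H →L[ℂ] H) e‖ ^ 2 ≤ (1 / 4) ^ n) (c : ℝ) (hc : 0 < c)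
    (h3 : ∀ n, ∃ j, c ≤ (inner ℂ (f j) ((θ (star (y n) * y n)) (f j))).re) : False := by
  choose j hj using h3
  obtain ⟨i, hi⟩ : ∃ i, (j ⁻¹' {i}).Infinite := by
    by_contra hcon
    push Not at hcon
    have h4 : (⋃ i, j ⁻¹' {i}).Finite := Set.finite_iUnion hcon
    have h5 : (⋃ i, j ⁻¹' {i}) = Set.univ := by
      ext n
      simp
    rw [h5] at h4
    exact Set.infinite_univ h4
  set φ := Nat.nth (· ∈ j ⁻¹' {i}) with hφ
  have hφ1 : ∀ n, j (φ n) = i := fun n => Nat.nth_mem_of_infinite hi n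
  have hφ2 : StrictMono φ := Nat.nth_strictMono hi
  refine nkey hM hθ e he (f i) (fun n => y (φ n)) (fun n => h1 _) (fun n => ?_) c hc fun n => ?_
  · refine (h2 _).trans ?_
    exact pow_le_pow_of_le_one (by norm_num) (by norm_num) hφ2.le_apply
  · have := hj (φ n)
    rwa [hφ1] at this

/-- the sum of vector functionals -/
noncomputable def phi {J : Type} [Fintype J] (f : J → K) (θ : M → (K →L[ℂ] K)) (x : M) : ℂ :=
  ∑ j, inner ℂ (f j) (θ x (f j))

theorem phi_lin {J : Type} [Fintype J] (f : J → K) (hθ : OI M C θ)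
    (hsmul : ∀ (c : ℂ) x, θ (c • x) = c • θ x) (a b : ℂ) (x y : M) :
    phi f θ (a • x + b • y) = a * phi f θ x + b * phi f θ y := by
  unfold phi
  rw [Finset.mul_sum, Finset.mul_sum, ← Finset.sum_add_distrib]
  refine Finset.sum_congr rfl fun j _ => ?_
  rw [hθ.add, hsmul, hsmul, ContinuousLinearMap.add_apply, ContinuousLinearMap.smul_apply,
    ContinuousLinearMap.smul_apply, inner_add_right, inner_smul_right, inner_smul_right]

theorem trace_fin (hM : DC M) (hθ : OI M C θ) (hmul : ∀ x y, θ (x * y) = θ x * θ y)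
    (hstar : ∀ x, θ (star x) = adjoint (θ x)) (hsmul : ∀ (c : ℂ) x, θ (c • x) = c • θ x) (e : H)
    (he : ∀ T ∈ M, T e = 0 → T = 0) {J : Type} [Fintype J] (f : J → K)
    {G : Type} [Group G] (U : G → M) (hU : ∀ g, star (U g) * U g = 1)
    (hUU : ∀ g h, U (g * h) = U g * U h)
    (W : G → H → H) (hWc : ∀ g, Continuous (W g)) (hWn : ∀ g x, ‖W g x‖ ≤ ‖x‖)
    (hWE : ∀ g, ∀ y : M, W g ((y : H →L[ℂ] H) e) = ((U g * y * star (U g) : M) : H →L[ℂ] H) e)
    (hW0 : ∀ ζ, (∀ g, W g ζ = ζ) → inner ℂ e ζ = 0 → ζ = 0)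
    (htr : ∀ x y : M, phi f θ (x * y) = phi f θ (y * x))
    (T : M) (hT1 : ‖(T : H →L[ℂ] H)‖ ≤ 1)
    (hT0 : ∀ g, inner ℂ e (((U g * T * star (U g) : M) : H →L[ℂ] H) e) = 0) :
    phi f θ T = 0 := by
  by_contra hne
  obtain ⟨cj, hcj⟩ : ∃ cj : G → (H →L[ℂ] H) →ₗ[ℝ] (H →L[ℂ] H),
      cj = fun g => H108.cjR (U g : H →L[ℂ] H) (star (U g : H →L[ℂ] H)) := ⟨_, rfl⟩
  have hcje : ∀ g (y : M), cj g (y : H →L[ℂ] H) = ((U g * y * star (U g) : M) : H →L[ℂ] H) := by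
    intro g y
    rw [hcj]
    rfl
  have hcc : ∀ g h x, cj g (cj h x) = cj (g * h) x := by
    intro g h x
    rw [hcj]
    change (U g : H →L[ℂ] H) * ((U h : H →L[ℂ] H) * x * star (U h : H →L[ℂ] H)) *
      star (U g : H →L[ℂ] H) = (U (g * h) : H →L[ℂ] H) * x * star (U (g * h) : H →L[ℂ] H)
    rw [hUU]
    change _ = ((U g : H →L[ℂ] H) * (U h : H →L[ℂ] H)) * x *
      star ((U g : H →L[ℂ] H) * (U h : H →L[ℂ] H))
    rw [star_mul]
    simp only [mul_assoc]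
  obtain ⟨D, hD⟩ : ∃ D : Set (H →L[ℂ] H),
    D = convexHull ℝ (Set.range fun g => cj g (T : H →L[ℂ] H)) := ⟨_, rfl⟩
  have hUn : ∀ g, ‖(U g : H →L[ℂ] H)‖ ≤ 1 := by
    intro g
    have h1 : star (U g : H →L[ℂ] H) * (U g : H →L[ℂ] H) = 1 := congrArg Subtype.val (hU g)
    have h2 : ‖(U g : H →L[ℂ] H)‖ * ‖(U g : H →L[ℂ] H)‖ ≤ 1 := by
      rw [← CStarRing.norm_star_mul_self, h1]
      exact ContinuousLinearMap.norm_id_le
    nlinarith [norm_nonneg (U g : H →L[ℂ] H)]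
  -- properties of the elements of the hull
  have hP : ∀ y ∈ D, ∃ hy : y ∈ M, ‖y‖ ≤ 1 ∧ phi f θ ⟨y, hy⟩ = phi f θ T ∧
      inner ℂ e (y e) = 0 := by
    have hconv : Convex ℝ {y : H →L[ℂ] H | ∃ hy : y ∈ M, ‖y‖ ≤ 1 ∧
        phi f θ ⟨y, hy⟩ = phi f θ T ∧ inner ℂ e (y e) = 0} := by
      rintro x ⟨hx, hx1, hx2, hx3⟩ y ⟨hy, hy1, hy2, hy3⟩ a b ha hb hab
      have h3 : a • x + b • y = (a : ℂ) • x + (b : ℂ) • y := by
        simp only [Complex.coe_smul]
      have hmem : a • x + b • y ∈ M := by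
        rw [h3]
        exact add_mem (M.smul_mem hx _) (M.smul_mem hy _)
      have hel : (⟨a • x + b • y, hmem⟩ : M) = (a : ℂ) • ⟨x, hx⟩ + (b : ℂ) • ⟨y, hy⟩ := by
        ext1
        exact h3
      refine ⟨hmem, ?_, ?_, ?_⟩
      · calc ‖a • x + b • y‖ ≤ ‖a • x‖ + ‖b • y‖ := norm_add_le _ _
          _ = a * ‖x‖ + b * ‖y‖ := by
              rw [norm_smul, norm_smul, Real.norm_of_nonneg ha, Real.norm_of_nonneg hb]
          _ ≤ a * 1 + b * 1 := by gcongr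
          _ = 1 := by rw [← add_mul, hab, one_mul]
      · rw [hel, phi_lin f hθ hsmul, hx2, hy2, ← add_mul, ← Complex.ofReal_add, hab,
          Complex.ofReal_one, one_mul]
      · rw [h3]
        change inner ℂ e ((a : ℂ) • (x e) + (b : ℂ) • (y e)) = _
        rw [inner_add_right, inner_smul_right, inner_smul_right, hx3, hy3, mul_zero, mul_zero,
          add_zero]
    intro y hy
    rw [hD] at hy
    refine convexHull_min ?_ hconv hy
    rintro _ ⟨g, rfl⟩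
    have hmem : cj g (T : H →L[ℂ] H) ∈ M := by rw [hcje]; exact SetLike.coe_mem _
    have hel : (⟨cj g (T : H →L[ℂ] H), hmem⟩ : M) = U g * T * star (U g) :=
      Subtype.ext (hcje g T)
    refine ⟨hmem, ?_, ?_, ?_⟩
    · rw [hcj]
      change ‖(U g : H →L[ℂ] H) * (T : H →L[ℂ] H) * star (U g : H →L[ℂ] H)‖ ≤ 1
      calc _ ≤ ‖(U g : H →L[ℂ] H) * (T : H →L[ℂ] H)‖ * ‖star (U g : H →L[ℂ] H)‖ := norm_mul_le _ _
        _ ≤ (‖(U g : H →L[ℂ] H)‖ * ‖(T : H →L[ℂ] H)‖) * ‖star (U g : H →L[ℂ] H)‖ := by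
            gcongr
            exact norm_mul_le _ _
        _ ≤ (1 * 1) * 1 := by
            rw [norm_star]
            gcongr
            · exact hUn g
            · exact hUn g
        _ = 1 := by norm_num
    · rw [hel, htr, ← mul_assoc, hU, one_mul]
    · have h5 := hT0 g
      rw [← hcje] at h5
      exact h5
  have hWE' : ∀ g, ∀ y ∈ D, W g (H108.evalR e y) = H108.evalR e (cj g y) := by
    intro g y hy
    obtain ⟨hy, -⟩ := hP y hy
    have h1 := hWE g ⟨y, hy⟩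
    have h2 := hcje g ⟨y, hy⟩
    change W g (y e) = (cj g y) e
    rw [h1]
    exact (DFunLike.congr_fun h2 e).symm
  rw [hD] at hWE'
  obtain ⟨ζ, hζ, hfix⟩ := H108.exists_fixed_hull (H108.evalR e) cj (T : H →L[ℂ] H) hcc W hWc hWn
    hWE'
  rw [← hD] at hζ
  have hζ0 : ζ = 0 := by
    refine hW0 ζ hfix ?_
    have hcl : IsClosed {ξ : H | inner ℂ e ξ = 0} := isClosed_eq (by fun_prop) continuous_const
    refine closure_minimal ?_ hcl hζ
    rintro _ ⟨y, hy, rfl⟩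
    exact (hP y hy).choose_spec.2.2
  rw [hζ0] at hζ
  have hy : ∀ n : ℕ, ∃ y : M, (y : H →L[ℂ] H) ∈ D ∧
      ‖(y : H →L[ℂ] H) e‖ ^ 2 ≤ (1 / 4) ^ n := by
    intro n
    obtain ⟨y, hy, hyn⟩ := H108.exists_small (H108.evalR e) hζ n
    exact ⟨⟨y, (hP y hy).choose⟩, hy, hyn⟩
  choose y hyC hyn using hy
  set r : ℝ := ‖phi f θ T‖ with hr
  have hr0 : 0 < r := norm_pos_iff.2 hne
  set N : ℝ := ∑ j, ‖f j‖ + 1 with hN
  have hN0 : 0 < N := by positivity
  have hfN : ∀ j, ‖f j‖ ≤ N := by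
    intro j
    have := Finset.single_le_sum (f := fun j => ‖f j‖) (fun _ _ => norm_nonneg _)
      (Finset.mem_univ j)
    linarith
  refine nkey_fin hM hθ e he f y
    (fun n => (hP _ (hyC n)).choose_spec.1) hyn ((r / ((Fintype.card J + 1) * N)) ^ 2)
    (by positivity) fun n => ?_
  obtain ⟨hy1, -, hy2, -⟩ := hP _ (hyC n)
  have hyphi : phi f θ (y n) = phi f θ T := hy2
  have h3 : ∀ j, inner ℂ (f j) ((θ (star (y n) * y n)) (f j)) =
      ((‖(θ (y n)) (f j)‖ ^ 2 : ℝ) : ℂ) := by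
    intro j
    rw [hmul, hstar]
    change inner ℂ (f j) (adjoint (θ (y n)) (θ (y n) (f j))) = _
    rw [adjoint_inner_right, inner_self_eq_norm_sq_to_K]
    norm_cast
  have h4 : ∃ j, r / (Fintype.card J + 1) ≤ ‖inner ℂ (f j) (θ (y n) (f j))‖ := by
    by_contra hcon
    push Not at hcon
    have h5 : r ≤ ∑ j, ‖inner ℂ (f j) (θ (y n) (f j))‖ := by
      rw [hr, ← hyphi]
      exact norm_sum_le _ _
    have h6 : ∑ j, ‖inner ℂ (f j) (θ (y n) (f j))‖ ≤ ∑ j : J, r / (Fintype.card J + 1) :=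
      Finset.sum_le_sum fun j _ => (hcon j).le
    rw [Finset.sum_const, Finset.card_univ, nsmul_eq_mul] at h6
    have h7 : (Fintype.card J : ℝ) * (r / (Fintype.card J + 1)) < r := by
      rw [mul_div_assoc', div_lt_iff₀ (by positivity)]
      nlinarith
    linarith
  obtain ⟨j, hj⟩ := h4
  refine ⟨j, ?_⟩
  rw [h3, Complex.ofReal_re]
  have h5 : ‖inner ℂ (f j) (θ (y n) (f j))‖ ≤ N * ‖θ (y n) (f j)‖ := by
    refine (norm_inner_le_norm _ _).trans ?_
    gcongr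
    exact hfN j
  have h6 : r / ((Fintype.card J + 1) * N) ≤ ‖θ (y n) (f j)‖ := by
    rw [← div_div, div_le_iff₀ hN0]
    linarith
  gcongr

end iso

end Vale.Agent.P092.H103
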